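import Vale.Agent.P299.H863.LocC

/-! # Gårding's inequality for `∂̄` on functions with compact support -/

namespace Vale.Agent.P299.H863

open MeasureTheory Filter Topology
open scoped ContDiff ENNReal
open Vale.Agent.P363.R.Sob

set_option linter.unusedSectionVars false

noncomputable section

section

variable {n : ℕ} {V : Type*} [NormedAddCommGroup V] [InnerProductSpace ℂ V]

variable (V) in
/-- the inner product as a real bilinear map -/
def sesqB : V →L[ℝ] V →L[ℝ] ℂ :=
  LinearMap.mkContinuous₂ (LinearMap.mk₂ ℝ (fun a b : V => inner ℂ a b)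
    (fun a b c => inner_add_left a b c)
    (fun r a b => by
      rw [← Complex.coe_smul, inner_smul_left, Complex.conj_ofReal]; rfl)
    (fun a b c => inner_add_right a b c)
    (fun r a b => by
      rw [← Complex.coe_smul, inner_smul_right]; rfl)) 1
    (fun a b => by rw [one_mul]; exact norm_inner_le_norm a b)

theorem sesqB_apply (a b : V) : sesqB V a b = inner ℂ a b := rfl

theorem memLp_dir {v : (Fin n → ℂ) → V} (hv : ContDiff ℝ ∞ v) (hc : HasCompactSupport v)
    (a : Fin n → ℂ) : ContDiff ℝ ∞ (fun z => fderiv ℝ v z a) ∧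
      HasCompactSupport (fun z => fderiv ℝ v z a) := by
  have h1 : ContDiff ℝ ∞ (fderiv ℝ v) := hv.fderiv_right (by simp)
  refine ⟨h1.clm_apply contDiff_const, ?_⟩
  exact (hc.fderiv ℝ).comp_left (g := fun T : (Fin n → ℂ) →L[ℝ] V => T a) rfl

theorem integral_inner_symm {v : (Fin n → ℂ) → V} (hv : ContDiff ℝ ∞ v)
    (hc : HasCompactSupport v) (a b : Fin n → ℂ) :
    ∫ z, inner ℂ (fderiv ℝ v z a) (fderiv ℝ v z b) = ∫ z, inner ℂ (fderiv ℝ v z b) (fderiv ℝ v z a) := by
  obtain ⟨ha, hac⟩ := memLp_dir hv hc a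
  obtain ⟨hb, hbc⟩ := memLp_dir hv hc b
  have hint : ∀ {f g : (Fin n → ℂ) → V}, ContDiff ℝ ∞ f → ContDiff ℝ ∞ g → HasCompactSupport g →
      Integrable (fun z => sesqB V (f z) (g z)) := by
    intro f g hf hg hgc
    have hcont : Continuous (fun z => sesqB V (f z) (g z)) := by
      simp only [sesqB_apply]
      exact hf.continuous.inner hg.continuous
    refine hcont.integrable_of_hasCompactSupport ?_
    exact HasCompactSupport.intro hgc fun z hz => by
      rw [image_eq_zero_of_notMem_tsupport hz, map_zero]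
  have hDv : Differentiable ℝ v := hv.differentiable (by simp)
  -- first derivative of a directional derivative
  have hder : ∀ c : Fin n → ℂ, ∀ z d, HasLineDerivAt ℝ (fun z => fderiv ℝ v z c)
      (fderiv ℝ (fderiv ℝ v) z d c) z d := by
    intro c z d
    have h1 : ContDiff ℝ ∞ (fderiv ℝ v) := hv.fderiv_right (by simp)
    have h2 : HasFDerivAt (fderiv ℝ v) (fderiv ℝ (fderiv ℝ v) z) z :=
      (h1.differentiable (by simp) z).hasFDerivAt
    have h3 := h2.clm_apply (hasFDerivAt_const c z)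
    have h4 := h3.hasLineDerivAt d
    simpa using h4
  have hs : ∀ z, fderiv ℝ (fderiv ℝ v) z b a = fderiv ℝ (fderiv ℝ v) z a b := fun z =>
    (hv.contDiffAt.isSymmSndFDerivAt (by
      rw [minSmoothness_of_isRCLikeNormedField]; exact WithTop.coe_le_coe.2 le_top)) b a
  have hline : ∀ z d, HasLineDerivAt ℝ v (fderiv ℝ v z d) z d := fun z d =>
    (hDv z).hasFDerivAt.hasLineDerivAt d
  have hsm : ∀ c d : Fin n → ℂ, ContDiff ℝ ∞ (fun z => fderiv ℝ (fderiv ℝ v) z d c) := by
    intro c d
    have h1 : ContDiff ℝ ∞ (fderiv ℝ v) := hv.fderiv_right (by simp)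
    have h2 : ContDiff ℝ ∞ (fderiv ℝ (fderiv ℝ v)) := h1.fderiv_right (by simp)
    exact (h2.clm_apply contDiff_const).clm_apply contDiff_const
  have e1 := integral_bilinear_hasLineDerivAt_right_eq_neg_left_of_integrable (μ := volume)
    (B := sesqB V) (f := fun z => fderiv ℝ v z a) (f' := fun z => fderiv ℝ (fderiv ℝ v) z b a)
    (g := v) (g' := fun z => fderiv ℝ v z b) (v := b) (hint (hsm a b) hv hc)
    (hint ha hb hbc) (hint ha hv hc) (fun z _ => hder a z b) (fun z _ => hline z b)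
  have e2 := integral_bilinear_hasLineDerivAt_right_eq_neg_left_of_integrable (μ := volume)
    (B := sesqB V) (f := fun z => fderiv ℝ v z b) (f' := fun z => fderiv ℝ (fderiv ℝ v) z a b)
    (g := v) (g' := fun z => fderiv ℝ v z a) (v := a) (hint (hsm b a) hv hc)
    (hint hb ha hac) (hint hb hv hc) (fun z _ => hder b z a) (fun z _ => hline z a)
  simp only [sesqB_apply] at e1 e2
  rw [e1, e2]
  simp only [hs]

/-- **Gårding for `∂̄`**: `4 ∫ |∂̄_j v|² = ∫ |∂_{x_j} v|² + |∂_{y_j} v|²`. -/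
theorem integral_dbv_sq {v : (Fin n → ℂ) → V} (hv : ContDiff ℝ ∞ v)
    (hc : HasCompactSupport v) (j : Fin n) :
    4 * ∫ z, ‖dbv j v z‖ ^ 2 = (∫ z, ‖fderiv ℝ v z (Pi.single j 1)‖ ^ 2) +
      ∫ z, ‖fderiv ℝ v z (Pi.single j Complex.I)‖ ^ 2 := by
  obtain ⟨ha, hac⟩ := memLp_dir hv hc (Pi.single j 1)
  obtain ⟨hb, hbc⟩ := memLp_dir hv hc (Pi.single j Complex.I)
  have i1 : Integrable fun z => ‖fderiv ℝ v z (Pi.single j 1)‖ ^ 2 :=
    (ha.continuous.memLp_of_hasCompactSupport hac).integrable_norm_pow (by norm_num)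
  have i2 : Integrable fun z => ‖fderiv ℝ v z (Pi.single j Complex.I)‖ ^ 2 :=
    (hb.continuous.memLp_of_hasCompactSupport hbc).integrable_norm_pow (by norm_num)
  have i3 : Integrable fun z => inner ℂ (fderiv ℝ v z (Pi.single j 1))
      (fderiv ℝ v z (Pi.single j Complex.I)) := by
    refine (ha.continuous.inner hb.continuous).integrable_of_hasCompactSupport ?_
    exact HasCompactSupport.intro hbc fun z hz => by
      have h0 : fderiv ℝ v z (Pi.single j Complex.I) = 0 :=
        image_eq_zero_of_notMem_tsupport (f := fun z => fderiv ℝ v z (Pi.single j Complex.I)) hz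
      rw [h0, inner_zero_right]
  have him : (∫ z, inner ℂ (fderiv ℝ v z (Pi.single j 1))
      (fderiv ℝ v z (Pi.single j Complex.I))).im = 0 := by
    have h1 := integral_inner_symm hv hc (Pi.single j 1) (Pi.single j Complex.I)
    have h2 : ∫ z, inner ℂ (fderiv ℝ v z (Pi.single j Complex.I)) (fderiv ℝ v z (Pi.single j 1)) =
        (starRingEnd ℂ) (∫ z, inner ℂ (fderiv ℝ v z (Pi.single j 1))
          (fderiv ℝ v z (Pi.single j Complex.I))) := by
      rw [← integral_conj]
      exact integral_congr_ae (Eventually.of_forall fun z => (inner_conj_symm _ _).symm)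
    rw [h2] at h1
    exact Complex.conj_eq_iff_im.1 h1.symm
  have i4 : Integrable fun z => (inner ℂ (fderiv ℝ v z (Pi.single j 1))
      (fderiv ℝ v z (Pi.single j Complex.I))).im := i3.im
  have e : ∀ z, 4 * ‖dbv j v z‖ ^ 2 = ‖fderiv ℝ v z (Pi.single j 1)‖ ^ 2 +
      ‖fderiv ℝ v z (Pi.single j Complex.I)‖ ^ 2 - 2 * (inner ℂ (fderiv ℝ v z (Pi.single j 1))
      (fderiv ℝ v z (Pi.single j Complex.I))).im := by
    intro z
    rw [dbv, norm_smul, mul_pow, norm_inv, Complex.norm_ofNat,
      norm_add_sq (𝕜 := ℂ), norm_smul, Complex.norm_I, one_mul, inner_smul_right]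
    have : RCLike.re (Complex.I * inner ℂ (fderiv ℝ v z (Pi.single j 1))
        (fderiv ℝ v z (Pi.single j Complex.I))) = -(inner ℂ (fderiv ℝ v z (Pi.single j 1))
        (fderiv ℝ v z (Pi.single j Complex.I))).im := by
      show (Complex.I * inner ℂ (fderiv ℝ v z (Pi.single j 1))
        (fderiv ℝ v z (Pi.single j Complex.I))).re = _
      rw [Complex.I_mul_re]
    rw [this]
    ring
  rw [← integral_const_mul]
  simp only [e]
  have i12 : Integrable fun z => ‖fderiv ℝ v z (Pi.single j 1)‖ ^ 2 +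
      ‖fderiv ℝ v z (Pi.single j Complex.I)‖ ^ 2 := i1.add i2
  rw [integral_sub i12 (i4.const_mul 2), integral_add i1 i2, integral_const_mul]
  have h0 : ∫ z, (inner ℂ (fderiv ℝ v z (Pi.single j 1))
      (fderiv ℝ v z (Pi.single j Complex.I))).im = 0 := by
    rw [← him]
    exact integral_im i3
  rw [h0]
  ring

theorem dbv_smooth {v : (Fin n → ℂ) → V} (hv : ContDiff ℝ ∞ v) (hc : HasCompactSupport v)
    (j : Fin n) : ContDiff ℝ ∞ (dbv j v) ∧ HasCompactSupport (dbv j v) := by
  obtain ⟨ha, hac⟩ := memLp_dir hv hc (Pi.single j 1)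
  obtain ⟨hb, hbc⟩ := memLp_dir hv hc (Pi.single j Complex.I)
  refine ⟨(ha.add (hb.const_smul Complex.I)).const_smul (2 : ℂ)⁻¹, ?_⟩
  refine HasCompactSupport.intro hc fun z hz => ?_
  have h1 : fderiv ℝ v z = 0 :=
    image_eq_zero_of_notMem_tsupport fun h => hz (tsupport_fderiv_subset ℝ h)
  rw [dbv, h1]; simp

theorem n2_dir_le {v : (Fin n → ℂ) → V} (hv : ContDiff ℝ ∞ v)
    (hc : HasCompactSupport v) (j : Fin n) :
    n2 volume (fun z => fderiv ℝ v z (Pi.single j 1)) ≤ 2 * n2 volume (dbv j v) ∧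
    n2 volume (fun z => fderiv ℝ v z (Pi.single j Complex.I)) ≤ 2 * n2 volume (dbv j v) := by
  obtain ⟨ha, hac⟩ := memLp_dir hv hc (Pi.single j 1)
  obtain ⟨hb, hbc⟩ := memLp_dir hv hc (Pi.single j Complex.I)
  obtain ⟨hd, hdc⟩ := dbv_smooth hv hc j
  have key := integral_dbv_sq hv hc j
  rw [← n2_sq (hd.continuous.memLp_of_hasCompactSupport hdc),
    ← n2_sq (ha.continuous.memLp_of_hasCompactSupport hac),
    ← n2_sq (hb.continuous.memLp_of_hasCompactSupport hbc)] at key
  have h0 := n2_nonneg (μ := volume) (dbv j v)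
  constructor
  · refine le_of_sq_le_sq ?_ (by positivity)
    nlinarith [sq_nonneg (n2 volume fun z => fderiv ℝ v z (Pi.single j Complex.I))]
  · refine le_of_sq_le_sq ?_ (by positivity)
    nlinarith [sq_nonneg (n2 volume fun z => fderiv ℝ v z (Pi.single j 1))]

theorem norm_fderiv_le_dirs (T : (Fin n → ℂ) →L[ℝ] V) :
    ‖T‖ ≤ ∑ j, (‖T (Pi.single j 1)‖ + ‖T (Pi.single j Complex.I)‖) := by
  refine T.opNorm_le_bound (Finset.sum_nonneg fun j _ => by positivity) fun h => ?_
  have e : h = ∑ j, ((h j).re • (Pi.single j 1 : Fin n → ℂ) +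
      (h j).im • (Pi.single j Complex.I : Fin n → ℂ)) := by
    funext k
    rw [Finset.sum_apply, Finset.sum_eq_single k]
    · simp only [Pi.add_apply, Pi.smul_apply, Pi.single_eq_same, Complex.real_smul, mul_one]
      exact (Complex.re_add_im (h k)).symm
    · intro j _ hj
      simp [Pi.single_eq_of_ne (Ne.symm hj)]
    · simp
  conv_lhs => rw [e]
  rw [map_sum, Finset.sum_mul]
  refine (norm_sum_le _ _).trans (Finset.sum_le_sum fun j _ => ?_)
  rw [map_add, map_smul, map_smul]
  refine (norm_add_le _ _).trans ?_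
  rw [norm_smul, norm_smul, add_mul, mul_comm ‖T (Pi.single j 1)‖,
    mul_comm ‖T (Pi.single j Complex.I)‖]
  have h1 : ‖(h j).re‖ ≤ ‖h‖ := (Complex.abs_re_le_norm _).trans (norm_le_pi_norm h j)
  have h2 : ‖(h j).im‖ ≤ ‖h‖ := (Complex.abs_im_le_norm _).trans (norm_le_pi_norm h j)
  gcongr

theorem n2_sum_le {ι E V : Type*} [NormedAddCommGroup E] [NormedSpace ℝ E] [FiniteDimensional ℝ E]
    [MeasurableSpace E] [BorelSpace E] {μ : Measure E} [NormedAddCommGroup V] (s : Finset ι)
    {f : ι → E → V} (hf : ∀ i, MemLp (f i) 2 μ) :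
    n2 μ (fun x => ∑ i ∈ s, f i x) ≤ ∑ i ∈ s, n2 μ (f i) := by
  classical
  induction s using Finset.induction_on with
  | empty => simp [n2]
  | insert a s ha ih =>
    simp only [Finset.sum_insert ha]
    refine (n2_add_le (hf a) ?_).trans (add_le_add le_rfl ih)
    exact memLp_finsetSum s fun i _ => hf i

/-- the gradient is controlled by `∂̄` -/
theorem n2_fderiv_le {v : (Fin n → ℂ) → V} (hv : ContDiff ℝ ∞ v) (hc : HasCompactSupport v) :
    n2 volume (fderiv ℝ v) ≤ ∑ j, 4 * n2 volume (dbv j v) := by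
  have hm : ∀ j, MemLp (fun z => ‖fderiv ℝ v z (Pi.single j 1)‖ +
      ‖fderiv ℝ v z (Pi.single j Complex.I)‖) 2 volume := by
    intro j
    obtain ⟨ha, hac⟩ := memLp_dir hv hc (Pi.single j 1)
    obtain ⟨hb, hbc⟩ := memLp_dir hv hc (Pi.single j Complex.I)
    exact (ha.continuous.memLp_of_hasCompactSupport hac).norm.add
      (hb.continuous.memLp_of_hasCompactSupport hbc).norm
  have h1 : n2 volume (fderiv ℝ v) ≤ 1 * n2 volume (fun z => ∑ j,
      (‖fderiv ℝ v z (Pi.single j 1)‖ + ‖fderiv ℝ v z (Pi.single j Complex.I)‖)) := by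
    refine n2_mono_of_le zero_le_one (memLp_finsetSum _ fun j _ => hm j) fun z => ?_
    rw [one_mul, Real.norm_of_nonneg (Finset.sum_nonneg fun j _ => by positivity)]
    exact norm_fderiv_le_dirs _
  rw [one_mul] at h1
  refine h1.trans ((n2_sum_le Finset.univ hm).trans (Finset.sum_le_sum fun j _ => ?_))
  obtain ⟨ha, hac⟩ := memLp_dir hv hc (Pi.single j 1)
  obtain ⟨hb, hbc⟩ := memLp_dir hv hc (Pi.single j Complex.I)
  obtain ⟨k1, k2⟩ := n2_dir_le hv hc j
  refine (n2_add_le (ha.continuous.memLp_of_hasCompactSupport hac).norm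
      (hb.continuous.memLp_of_hasCompactSupport hbc).norm).trans ?_
  have e1 : n2 volume (fun z => ‖fderiv ℝ v z (Pi.single j 1)‖) =
      n2 volume (fun z => fderiv ℝ v z (Pi.single j 1)) := by rw [n2, n2, eLpNorm_norm]
  have e2 : n2 volume (fun z => ‖fderiv ℝ v z (Pi.single j Complex.I)‖) =
      n2 volume (fun z => fderiv ℝ v z (Pi.single j Complex.I)) := by rw [n2, n2, eLpNorm_norm]
  rw [e1, e2]
  linarith

end

namespace LocSp

variable {n : ℕ} {ι : Type*} [Fintype ι] {c : Cov (Fin n → ℂ) ι} {V S : Type*}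
  [NormedAddCommGroup V] [InnerProductSpace ℂ V] [FiniteDimensional ℂ V] [NormedAddCommGroup S]
  [InnerProductSpace ℂ S] (L : LocSp volume c V S)

/-- **Gårding's inequality** -/
theorem exists_gard (i : ι) : ∃ C : ℝ, 0 ≤ C ∧ ∀ s, n2 volume (fderiv ℝ (L.loc i s)) ≤
    C * (‖s‖ + ∑ j, n2 volume (fun z => c.χ i z • dbv j (L.r i s) z)) := by
  obtain ⟨θ, hθ, hθ1, hθ2⟩ := exists_testV (c.K_cpt i) (c.isOpen i) (c.K_sub i)
  obtain ⟨C, hC0, hC⟩ := L.exists_r_le hθ
  have hχD : ContDiff ℝ ∞ (fderiv ℝ (c.χ i)) := (c.test i).smooth.fderiv_right (by simp)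
  obtain ⟨M, hM0, hM⟩ := exists_bound_on ((c.test i).cpt.fderiv ℝ).isCompact
    hχD.continuous.continuousOn
  have hMx : ∀ z, ‖fderiv ℝ (c.χ i) z‖ ≤ M := by
    intro z
    by_cases hz : z ∈ tsupport (fderiv ℝ (c.χ i))
    · exact hM z hz
    · rw [image_eq_zero_of_notMem_tsupport hz, norm_zero]; exact hM0
  -- the estimate of `∂̄ (χ s)`
  have hdm : ∀ s j, TestV (c.Ω i) (fun z => c.χ i z • dbv j (L.r i s) z) := by
    intro s j
    have hf : ContDiffOn ℝ ∞ (fderiv ℝ (L.r i s)) (c.Ω i) :=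
      (L.r_smooth i s).fderiv_of_isOpen (c.isOpen i) (by simp)
    have h1 : ContDiffOn ℝ ∞ (fun z => fderiv ℝ (L.r i s) z (Pi.single j 1)) (c.Ω i) :=
      hf.clm_apply contDiffOn_const
    have h2 : ContDiffOn ℝ ∞ (fun z => fderiv ℝ (L.r i s) z (Pi.single j Complex.I)) (c.Ω i) :=
      hf.clm_apply contDiffOn_const
    exact TestV.smul (c.isOpen i) (c.test i) ((h1.add (h2.const_smul Complex.I)).const_smul (2 : ℂ)⁻¹)
  have hb : ∀ s j, n2 volume (dbv j (L.loc i s)) ≤
      n2 volume (fun z => c.χ i z • dbv j (L.r i s) z) + M * (C * ‖s‖) := by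
    intro s j
    have hθr : TestV (c.Ω i) (fun z => θ z • L.r i s z) :=
      TestV.smul (c.isOpen i) hθ (L.r_smooth i s)
    have hpt : ∀ z, ‖dbv j (L.loc i s) z‖ ≤ 1 * ‖(‖c.χ i z • dbv j (L.r i s) z‖ +
        M * ‖θ z • L.r i s z‖ : ℝ)‖ := by
      intro z
      rw [one_mul, Real.norm_of_nonneg (by positivity)]
      by_cases hz : z ∈ tsupport (c.χ i)
      · have hzΩ := (c.test i).supp hz
        have hr : DifferentiableAt ℝ (L.r i s) z :=
          ((L.r_smooth i s).contDiffAt ((c.isOpen i).mem_nhds hzΩ)).differentiableAt (by simp)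
        have hχ : DifferentiableAt ℝ (c.χ i) z := (c.test i).smooth.differentiable (by simp) z
        have hfd : fderiv ℝ (L.loc i s) z = c.χ i z • fderiv ℝ (L.r i s) z +
            (fderiv ℝ (c.χ i) z).smulRight (L.r i s z) := fderiv_fun_smul hχ hr
        have e1 : dbv j (L.loc i s) z = c.χ i z • dbv j (L.r i s) z +
            ((2 : ℂ)⁻¹ * ((fderiv ℝ (c.χ i) z (Pi.single j 1) : ℝ) +
              Complex.I * (fderiv ℝ (c.χ i) z (Pi.single j Complex.I) : ℝ))) • L.r i s z := by
          rw [dbv, hfd, dbv]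
          simp only [add_apply, smul_apply,
            ContinuousLinearMap.smulRight_apply, ← Complex.coe_smul]
          module
        rw [e1]
        refine (norm_add_le _ _).trans ?_
        gcongr
        rw [hθ1 z (c.supp_sub i hz), one_smul, norm_smul]
        gcongr
        rw [norm_mul, norm_inv, Complex.norm_ofNat]
        have k1 : ‖((fderiv ℝ (c.χ i) z (Pi.single j 1) : ℝ) : ℂ)‖ ≤ M := by
          rw [Complex.norm_real]
          refine ((fderiv ℝ (c.χ i) z).le_opNorm _).trans ?_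
          rw [Pi.norm_single, norm_one, mul_one]; exact hMx z
        have k2 : ‖Complex.I * ((fderiv ℝ (c.χ i) z (Pi.single j Complex.I) : ℝ) : ℂ)‖ ≤ M := by
          rw [norm_mul, Complex.norm_I, one_mul, Complex.norm_real]
          refine ((fderiv ℝ (c.χ i) z).le_opNorm _).trans ?_
          rw [Pi.norm_single, Complex.norm_I, mul_one]; exact hMx z
        have k3 := norm_add_le ((fderiv ℝ (c.χ i) z (Pi.single j 1) : ℝ) : ℂ)
          (Complex.I * ((fderiv ℝ (c.χ i) z (Pi.single j Complex.I) : ℝ) : ℂ))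
        linarith
      · have h0 : fderiv ℝ (L.loc i s) z = 0 := by
          refine image_eq_zero_of_notMem_tsupport fun h => hz ?_
          exact (closure_minimal (fun x hx => by
            by_contra hx'; exact hx (L.loc_zero i s hx')) (isClosed_tsupport _))
            (tsupport_fderiv_subset ℝ h)
        rw [dbv, h0]
        simp only [zero_apply, smul_zero, add_zero, norm_zero]
        positivity
    refine (n2_mono_of_le zero_le_one ((hdm s j).memLp.norm.add (hθr.memLp.norm.const_mul M))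
      hpt).trans ?_
    rw [one_mul]
    refine (n2_add_le (hdm s j).memLp.norm (hθr.memLp.norm.const_mul M)).trans ?_
    have e1 : n2 volume (fun z => ‖c.χ i z • dbv j (L.r i s) z‖) =
      n2 volume (fun z => c.χ i z • dbv j (L.r i s) z) := by rw [n2, n2, eLpNorm_norm]
    have e2 : n2 volume (fun z => M * ‖θ z • L.r i s z‖) ≤
        M * n2 volume (fun z => θ z • L.r i s z) := by
      refine n2_mono_of_le hM0 hθr.memLp fun z => ?_
      rw [Real.norm_of_nonneg (by positivity)]
    rw [e1]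
    gcongr
    exact e2.trans (by gcongr; exact hC s)
  refine ⟨4 * (1 + n * (M * C)), by positivity, fun s => ?_⟩
  refine (n2_fderiv_le (L.loc_test i s).smooth (L.loc_test i s).cpt).trans ?_
  calc ∑ j, 4 * n2 volume (dbv j (L.loc i s))
      ≤ ∑ j, 4 * (n2 volume (fun z => c.χ i z • dbv j (L.r i s) z) + M * (C * ‖s‖)) := by
        gcongr with j; exact hb s j
    _ = 4 * ((∑ j, n2 volume (fun z => c.χ i z • dbv j (L.r i s) z)) + n * (M * C) * ‖s‖) := by
        rw [← Finset.mul_sum, Finset.sum_add_distrib, Finset.sum_const, Finset.card_univ,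
          Fintype.card_fin, nsmul_eq_mul]
        ring
    _ ≤ _ := by
        have h1 : 0 ≤ ∑ j, n2 volume (fun z => c.χ i z • dbv j (L.r i s) z) :=
          Finset.sum_nonneg fun j _ => n2_nonneg _
        have h2 : 0 ≤ (n : ℝ) * (M * C) := by positivity
        have h3 := norm_nonneg s
        nlinarith [mul_nonneg h2 h1]

end LocSp

end

end Vale.Agent.P299.H863
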