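import Vale.Agent.P299.H863.IdxP
import Vale.Agent.P299.H863.Gard

/-! # The index theorem for first order operators on sections with `∂̄` control -/

namespace Vale.Agent.P299.H863

open MeasureTheory Filter Topology Module UniformSpace
open scoped ContDiff ENNReal InnerProductSpace

set_option linter.unusedSectionVars false

noncomputable section

namespace LocSp

variable {n : ℕ} {ι : Type*} [Fintype ι] {c : Cov (Fin n → ℂ) ι}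
  {V₁ V₂ S₁ S₂ : Type*}
  [NormedAddCommGroup V₁] [InnerProductSpace ℂ V₁] [FiniteDimensional ℂ V₁]
  [NormedAddCommGroup V₂] [InnerProductSpace ℂ V₂] [FiniteDimensional ℂ V₂]
  [NormedAddCommGroup S₁] [InnerProductSpace ℂ S₁] [NormedAddCommGroup S₂] [InnerProductSpace ℂ S₂]

/-- `∂̄` of a section, cut off, is a test function -/
theorem test_dbv (L : LocSp volume c V₁ S₁) {i : ι} {ψ : (Fin n → ℂ) → ℝ} (hψ : TestV (c.Ω i) ψ)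
    (j : Fin n) (s : S₁) : TestV (c.Ω i) (fun z => ψ z • dbv j (L.r i s) z) := by
  have hf : ContDiffOn ℝ ∞ (fderiv ℝ (L.r i s)) (c.Ω i) :=
    (L.r_smooth i s).fderiv_of_isOpen (c.isOpen i) (by simp)
  have h1 : ContDiffOn ℝ ∞ (fun z => fderiv ℝ (L.r i s) z (Pi.single j 1)) (c.Ω i) :=
    hf.clm_apply contDiffOn_const
  have h2 : ContDiffOn ℝ ∞ (fun z => fderiv ℝ (L.r i s) z (Pi.single j Complex.I)) (c.Ω i) :=
    hf.clm_apply contDiffOn_const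
  exact TestV.smul (c.isOpen i) hψ ((h1.add (h2.const_smul Complex.I)).const_smul (2 : ℂ)⁻¹)

/-- **Rellich + Gårding** for operators controlling `∂̄` on a set of sections. -/
theorem totallyBounded_of_dbar (L : LocSp volume c V₁ S₁) {B : Set S₁} {C₀ : ℝ}
    (h0 : ∀ s ∈ B, ‖s‖ ≤ C₀)
    (h1 : ∀ i j, ∃ C : ℝ, ∀ s ∈ B, n2 volume (fun z => c.χ i z • dbv j (L.r i s) z) ≤ C) :
    TotallyBounded B := by
  refine L.totallyBounded h0 fun i => ?_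
  choose C hC using h1 i
  obtain ⟨K, hK0, hK⟩ := L.exists_gard i
  refine ⟨K * (C₀ + ∑ j, C j), fun s hs => (hK s).trans ?_⟩
  gcongr with j
  · exact h0 s hs
  · exact hC j s hs

/-- the kernel sections are holomorphic -/
theorem dbv_eq_zero (L : LocSp volume c V₁ S₁) {s : S₁}
    (h : ∀ i (ψ : (Fin n → ℂ) → ℝ), TestV (c.Ω i) ψ → ∀ j,
      n2 volume (fun z => ψ z • dbv j (L.r i s) z) ≤ 0) (i : ι) {z : Fin n → ℂ} (hz : z ∈ c.Ω i)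
    (j : Fin n) : dbv j (L.r i s) z = 0 := by
  obtain ⟨ψ, hψ, hψ1, _⟩ := exists_testV (isCompact_singleton (x := z)) (c.isOpen i)
    (Set.singleton_subset_iff.2 hz)
  have ht := L.test_dbv hψ j s
  have h0 : n2 volume (fun z => ψ z • dbv j (L.r i s) z) = 0 :=
    le_antisymm (h i ψ hψ j) (n2_nonneg _)
  have h1 : eLpNorm (fun z => ψ z • dbv j (L.r i s) z) 2 volume = 0 := by
    rcases (ENNReal.toReal_eq_zero_iff _).1 h0 with h | h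
    · exact h
    · exact absurd h ht.memLp.2.ne
  rw [eLpNorm_eq_zero_iff ht.memLp.1 (by norm_num)] at h1
  have h2 := (Continuous.ae_eq_iff_eq volume ht.smooth.continuous continuous_const).1 h1
  have h3 : ψ z • dbv j (L.r i s) z = 0 := congrFun h2 z
  rwa [hψ1 z rfl, one_smul] at h3

/-- **Index theorem, strong kernels.** `D`, `D'` first order operators with smooth coefficients,
formally adjoint, `D` commutes with the projections, `D` controls `∂̄`; `κ` bounded perturbation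
making `D` invertible. -/
theorem index_strong (L₁ : LocSp volume c V₁ S₁) (L₂ : LocSp volume c V₂ S₂)
    {D : S₁ →ₗ[ℂ] S₂} {D' : S₂ →ₗ[ℂ] S₁} (A : LocOp L₁ L₂ D) (A' : LocOp L₂ L₁ D')
    (hadj : ∀ u v, inner ℂ (D u) v = inner ℂ u (D' v))
    {P₁ : S₁ →ₗ[ℂ] S₁} {P₂ : S₂ →ₗ[ℂ] S₂} (h₁ : OProj ℂ P₁) (h₂ : OProj ℂ P₂)
    (hD : ∀ u, D (P₁ u) = P₂ (D u))
    (hH : ∀ i (ψ : (Fin n → ℂ) → ℝ), TestV (c.Ω i) ψ → ∀ j, ∃ C : ℝ, ∀ s, P₁ s = s →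
      n2 volume (fun z => ψ z • dbv j (L₁.r i s) z) ≤ C * (‖s‖ + ‖D s‖))
    (κ : S₁ →ₗ[ℂ] S₂) (κ' : S₂ →ₗ[ℂ] S₁) (hκ : ∃ C : ℝ, ∀ u, ‖κ u‖ ≤ C * ‖u‖)
    (hκadj : ∀ u v, inner ℂ (κ u) v = inner ℂ u (κ' v)) (hκP : ∀ u, κ (P₁ u) = P₂ (κ u))
    {m : ℝ} (hm : 0 < m)
    (hI : ∀ u, P₁ u = u → m * ‖u‖ ≤ ‖D u + κ u‖)
    (hI' : ∀ v, P₂ v = v → m * ‖v‖ ≤ ‖D' v + κ' v‖) :
    ∃ (N₁ : Submodule ℂ (Completion (fixP P₁))) (N₂ : Submodule ℂ (Completion (fixP P₂))),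
      (∀ x, x ∈ N₁ ↔ ∃ w : ℕ → fixP P₁, Tendsto (fun n => (w n : Completion (fixP P₁))) atTop (𝓝 x) ∧
        Tendsto (fun n => D (w n)) atTop (𝓝 0)) ∧
      (∀ x, x ∈ N₂ ↔ ∃ w : ℕ → fixP P₂, Tendsto (fun n => (w n : Completion (fixP P₂))) atTop (𝓝 x) ∧
        Tendsto (fun n => D' (w n)) atTop (𝓝 0)) ∧
      FiniteDimensional ℂ N₁ ∧ FiniteDimensional ℂ N₂ ∧ finrank ℂ N₁ = finrank ℂ N₂ := by
  have hadj' : ∀ v u, inner ℂ (D' v) u = inner ℂ v (D u) := by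
    intro v u
    rw [← inner_conj_symm, ← hadj, inner_conj_symm]
  refine index_strongP hadj L₁.smoothing L₂.smoothing (LocOp.smoothingComm A' A hadj') h₁ h₂ hD
    ?_ κ κ' hκ hκadj hκP hm hI hI'
  refine L₁.totallyBounded_of_dbar (C₀ := 1) (fun s hs => hs.2.1) fun i j => ?_
  obtain ⟨C, hC⟩ := hH i (c.χ i) (c.test i) j
  refine ⟨|C| * 2, fun s hs => (hC s hs.1).trans ?_⟩
  have h1 : ‖s‖ + ‖D s‖ ≤ 2 := by linarith [hs.2.1, hs.2.2]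
  have h2 : 0 ≤ ‖s‖ + ‖D s‖ := by positivity
  calc C * (‖s‖ + ‖D s‖) ≤ |C| * (‖s‖ + ‖D s‖) := by gcongr; exact le_abs_self C
    _ ≤ _ := by gcongr

/-- **Index theorem for the kernels in the smooth sections.** -/
theorem index_smooth (L₁ : LocSp volume c V₁ S₁) (L₂ : LocSp volume c V₂ S₂)
    {D : S₁ →ₗ[ℂ] S₂} {D' : S₂ →ₗ[ℂ] S₁} (A : LocOp L₁ L₂ D) (A' : LocOp L₂ L₁ D')
    (hadj : ∀ u v, inner ℂ (D u) v = inner ℂ u (D' v))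
    {P₁ : S₁ →ₗ[ℂ] S₁} {P₂ : S₂ →ₗ[ℂ] S₂} (h₁ : OProj ℂ P₁) (h₂ : OProj ℂ P₂)
    (hD : ∀ u, D (P₁ u) = P₂ (D u))
    (hH : ∀ i (ψ : (Fin n → ℂ) → ℝ), TestV (c.Ω i) ψ → ∀ j, ∃ C : ℝ, ∀ s, P₁ s = s →
      n2 volume (fun z => ψ z • dbv j (L₁.r i s) z) ≤ C * ‖D s‖)
    (hH' : ∀ i (ψ : (Fin n → ℂ) → ℝ), TestV (c.Ω i) ψ → ∀ j, ∃ C : ℝ, ∀ s, P₂ s = s →
      n2 volume (fun z => ψ z • dbv j (L₂.r i s) z) ≤ C * ‖D' s‖)
    (κ : S₁ →ₗ[ℂ] S₂) (κ' : S₂ →ₗ[ℂ] S₁) (hκ : ∃ C : ℝ, ∀ u, ‖κ u‖ ≤ C * ‖u‖)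
    (hκadj : ∀ u v, inner ℂ (κ u) v = inner ℂ u (κ' v)) (hκP : ∀ u, κ (P₁ u) = P₂ (κ u))
    {m : ℝ} (hm : 0 < m)
    (hI : ∀ u, P₁ u = u → m * ‖u‖ ≤ ‖D u + κ u‖)
    (hI' : ∀ v, P₂ v = v → m * ‖v‖ ≤ ‖D' v + κ' v‖) :
    FiniteDimensional ℂ (kerP D P₁) ∧ FiniteDimensional ℂ (kerP D' P₂) ∧
      finrank ℂ (kerP D P₁) = finrank ℂ (kerP D' P₂) := by
  have hadj' : ∀ v u, inner ℂ (D' v) u = inner ℂ v (D u) := by
    intro v u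
    rw [← inner_conj_symm, ← hadj, inner_conj_symm]
  refine index_absP hadj L₁.smoothing L₂.smoothing (LocOp.smoothingComm A' A hadj') h₁ h₂ hD
    ?_ κ κ' hκ hκadj hκP hm hI hI' ?_ ?_
  · refine L₁.totallyBounded_of_dbar (C₀ := 1) (fun s hs => hs.2.1) fun i j => ?_
    obtain ⟨C, hC⟩ := hH i (c.χ i) (c.test i) j
    refine ⟨|C|, fun s hs => (hC s hs.1).trans ?_⟩
    calc C * ‖D s‖ ≤ |C| * ‖D s‖ := by gcongr; exact le_abs_self C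
      _ ≤ |C| * 1 := by gcongr; exact hs.2.2
      _ = _ := mul_one _
  · intro w hw hcau hDw
    refine L₁.reg hcau fun i ψ hψ j => ?_
    obtain ⟨C, hC⟩ := hH i ψ hψ j
    refine squeeze_zero (fun k => n2_nonneg _) (fun k => hC (w k) (hw k)) ?_
    simpa using hDw.norm.const_mul C
  · intro w hw hcau hDw
    refine L₂.reg hcau fun i ψ hψ j => ?_
    obtain ⟨C, hC⟩ := hH' i ψ hψ j
    refine squeeze_zero (fun k => n2_nonneg _) (fun k => hC (w k) (hw k)) ?_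
    simpa using hDw.norm.const_mul C

/-- **Index theorem**, for one symmetric operator `D` and a symmetric `κ` on one bundle, exchanging
the ranges of two projections. -/
theorem index_symm (L : LocSp volume c V₁ S₁) {D : S₁ →ₗ[ℂ] S₁} (A : LocOp L L D)
    (hsymm : ∀ u v, inner ℂ (D u) v = inner ℂ u (D v))
    {P₁ P₂ : S₁ →ₗ[ℂ] S₁} (h₁ : OProj ℂ P₁) (h₂ : OProj ℂ P₂)
    (hD : ∀ u, D (P₁ u) = P₂ (D u))
    (hH : ∀ i (ψ : (Fin n → ℂ) → ℝ), TestV (c.Ω i) ψ → ∀ j, ∃ C : ℝ, ∀ s, P₁ s = s ∨ P₂ s = s →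
      n2 volume (fun z => ψ z • dbv j (L.r i s) z) ≤ C * ‖D s‖)
    (κ : S₁ →ₗ[ℂ] S₁) (hκ : ∃ C : ℝ, ∀ u, ‖κ u‖ ≤ C * ‖u‖)
    (hκsymm : ∀ u v, inner ℂ (κ u) v = inner ℂ u (κ v)) (hκP : ∀ u, κ (P₁ u) = P₂ (κ u))
    {m : ℝ} (hm : 0 < m)
    (hI : ∀ u, P₁ u = u ∨ P₂ u = u → m * ‖u‖ ≤ ‖D u + κ u‖) :
    FiniteDimensional ℂ (kerP D P₁) ∧ FiniteDimensional ℂ (kerP D P₂) ∧
      finrank ℂ (kerP D P₁) = finrank ℂ (kerP D P₂) := by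
  refine index_smooth L L A A hsymm h₁ h₂ hD (fun i ψ hψ j => ?_) (fun i ψ hψ j => ?_) κ κ hκ
    hκsymm hκP hm (fun u hu => hI u (Or.inl hu)) (fun u hu => hI u (Or.inr hu))
  · obtain ⟨C, hC⟩ := hH i ψ hψ j
    exact ⟨C, fun s hs => hC s (Or.inl hs)⟩
  · obtain ⟨C, hC⟩ := hH i ψ hψ j
    exact ⟨C, fun s hs => hC s (Or.inr hs)⟩

end LocSp

end

end Vale.Agent.P299.H863
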