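import Vale.Agent.P299.H863.Reg
import Vale.Agent.P268.Hol

/-! # `L²` theory of sections in atlas-free axioms, part 5: regularity -/

namespace Vale.Agent.P299.H863

open MeasureTheory Filter Topology
open scoped ContDiff ENNReal
open Vale.Agent.P363.R.Sob

set_option linter.unusedSectionVars false

noncomputable section

section

variable {E : Type*} [NormedAddCommGroup E] [NormedSpace ℝ E] [FiniteDimensional ℝ E]
  [MeasurableSpace E] [BorelSpace E] {μ : Measure E}
variable {V : Type*} [NormedAddCommGroup V]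

theorem TestV.mono [NormedSpace ℝ V] {Ω Ω' : Set E} {w : E → V} (h : TestV Ω w) (hs : Ω ⊆ Ω') :
    TestV Ω' w :=
  ⟨h.smooth, h.cpt, h.supp.trans hs⟩

/-- completeness of `L²` -/
theorem exists_limit_n2 [CompleteSpace V] {g : ℕ → E → V} (hg : ∀ k, MemLp (g k) 2 μ)
    (hc : ∀ ε : ℝ, 0 < ε → ∃ N, ∀ k ≥ N, ∀ l ≥ N, n2 μ (fun x => g k x - g l x) < ε) :
    ∃ F : E → V, MemLp F 2 μ ∧ Tendsto (fun k => n2 μ (fun x => g k x - F x)) atTop (𝓝 0) := by
  set u : ℕ → Lp V 2 μ := fun k => (hg k).toLp (g k) with hu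
  have hd : ∀ k l, dist (u k) (u l) = n2 μ (fun x => g k x - g l x) := by
    intro k l
    rw [dist_edist, hu, Lp.edist_toLp_toLp]; rfl
  have hcau : CauchySeq u := Metric.cauchySeq_iff.2 fun ε hε => by
    obtain ⟨N, hN⟩ := hc ε hε
    exact ⟨N, fun k hk l hl => by rw [hd]; exact hN k hk l hl⟩
  obtain ⟨F, hF⟩ := cauchySeq_tendsto_of_complete hcau
  refine ⟨F, Lp.memLp F, ?_⟩
  have h1 := tendsto_iff_dist_tendsto_zero.1 hF
  refine h1.congr fun k => ?_
  rw [dist_edist, Lp.edist_def, n2]
  congr 1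
  refine eLpNorm_congr_ae ?_
  filter_upwards [(hg k).coeFn_toLp] with x hx
  simp [hu, hx]

end

namespace LocSp

section

variable {E ι : Type*} [NormedAddCommGroup E] [NormedSpace ℝ E] [FiniteDimensional ℝ E]
  [MeasurableSpace E] [BorelSpace E] [Fintype ι] {μ : Measure E} [μ.IsAddHaarMeasure]
  {c : Cov E ι} {V S : Type*} [NormedAddCommGroup V]
  [InnerProductSpace ℂ V] [FiniteDimensional ℂ V] [NormedAddCommGroup S] [InnerProductSpace ℂ S]
  (L : LocSp μ c V S)

theorem r_sub (i : ι) (s t : S) {x : E} (hx : x ∈ c.Ω i) :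
    L.r i (s - t) x = L.r i s x - L.r i t x := by
  rw [sub_eq_add_neg, L.r_add i _ _ x hx, ← neg_one_smul ℂ t, L.r_smul i _ _ x hx, neg_one_smul,
    sub_eq_add_neg]

theorem supp_sub_interior (i : ι) : tsupport (c.χ i) ⊆ interior (c.K i) :=
  (Metric.self_subset_thickening (stdBump c.N : ContDiffBump (0 : E)).rOut_pos _).trans
    (Metric.thickening_subset_interior_cthickening _ _)

/-- convergence is a local question -/
theorem tendsto_of_loc {w : ℕ → S} {u : ι → E → V} (hu : ∀ i, TestV (c.Ω i) (u i))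
    (hu0 : ∀ i x, x ∉ c.K i → u i x = 0)
    (h : ∀ i, Tendsto (fun k => n2 μ (fun z => L.loc i (w k) z - u i z)) atTop (𝓝 0)) :
    Tendsto w atTop (𝓝 (∑ i, L.ext i (u i))) := by
  obtain ⟨C, hC0, hC⟩ := L.exists_extK_le
  have h2 : ∀ i, Tendsto (fun k => L.ext i (L.loc i (w k))) atTop (𝓝 (L.ext i (u i))) := by
    intro i
    rw [tendsto_iff_norm_sub_tendsto_zero]
    have h3 : ∀ k, ‖L.ext i (L.loc i (w k)) - L.ext i (u i)‖ ≤
        C * n2 μ (fun x => L.loc i (w k) x - u i x) := by
      intro k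
      rw [← L.ext_sub (L.loc_test i _) (hu i)]
      refine hC i _ ((L.loc_test i _).sub (hu i)) fun x hx => ?_
      rw [hu0 i x hx, L.loc_zero i _ fun h => hx (c.supp_sub i h), sub_zero]
    refine squeeze_zero (fun n => norm_nonneg _) h3 ?_
    simpa using (h i).const_mul C
  have h4 := tendsto_finsetSum Finset.univ fun i _ => h2 i
  refine h4.congr fun k => ?_
  exact L.sum_ext (w k)

end

section

variable {n : ℕ} {ι : Type*} [Fintype ι] {c : Cov (Fin n → ℂ) ι} {V S : Type*}
  [NormedAddCommGroup V] [InnerProductSpace ℂ V] [FiniteDimensional ℂ V] [NormedAddCommGroup S]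
  [InnerProductSpace ℂ S] (L : LocSp volume c V S)

/-- **Regularity**: a Cauchy sequence of smooth sections with `∂̄ → 0` has a smooth limit. -/
theorem reg {w : ℕ → S} (hw : CauchySeq w)
    (hd : ∀ i (ψ : (Fin n → ℂ) → ℝ), TestV (c.Ω i) ψ → ∀ j,
      Tendsto (fun k => n2 volume (fun z => ψ z • dbv j (L.r i (w k)) z)) atTop (𝓝 0)) :
    ∃ s, Tendsto w atTop (𝓝 s) := by
  have hcompl := LocSp.complete V
  -- local limits
  have hloc : ∀ i, ∃ u : (Fin n → ℂ) → V, TestV (c.Ω i) u ∧ (∀ x, x ∉ c.K i → u x = 0) ∧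
      Tendsto (fun k => n2 volume (fun z => L.loc i (w k) z - u z)) atTop (𝓝 0) := by
    intro i
    obtain ⟨θ, hθ, hθ1, hθ2⟩ := exists_testV (c.K_cpt i) (c.isOpen i) (c.K_sub i)
    set U : Set (Fin n → ℂ) := interior (c.K i) with hU
    have hUo : IsOpen U := isOpen_interior
    have hUK : U ⊆ c.K i := interior_subset
    have hUΩ : U ⊆ c.Ω i := hUK.trans (c.K_sub i)
    have hχU : tsupport (c.χ i) ⊆ U := supp_sub_interior i
    set g : ℕ → (Fin n → ℂ) → V := fun k z => θ z • L.r i (w k) z with hg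
    have hgt : ∀ k, TestV (c.Ω i) (g k) := fun k =>
      TestV.smul (c.isOpen i) hθ (L.r_smooth i _)
    obtain ⟨C, hC0, hC⟩ := L.exists_r_le hθ
    have hgsub : ∀ k l, n2 volume (fun z => g k z - g l z) ≤ C * ‖w k - w l‖ := by
      intro k l
      refine le_trans (le_of_eq ?_) (hC (w k - w l))
      congr 1
      funext z
      by_cases hz : z ∈ c.Ω i
      · rw [L.r_sub i _ _ hz, smul_sub]
      · have : z ∉ tsupport θ := fun h => hz (hθ.supp h)
        simp only [hg]
        rw [hθ.zero_off this, zero_smul, zero_smul, zero_smul, sub_zero]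
    obtain ⟨F, hF, hFl⟩ := exists_limit_n2 (μ := volume) (fun k => (hgt k).memLp) (by
      intro ε hε
      obtain ⟨N, hN⟩ := Metric.cauchySeq_iff.1 hw (ε / (C + 1)) (by positivity)
      refine ⟨N, fun k hk l hl => (hgsub k l).trans_lt ?_⟩
      have h1 := hN k hk l hl
      rw [dist_eq_norm, lt_div_iff₀ (by positivity)] at h1
      nlinarith [norm_nonneg (w k - w l)])
    obtain ⟨f, hf, hfe⟩ := weyl_limit hUo (u := fun k => L.r i (w k))
      (fun k => (L.r_smooth i _).mono hUΩ) (fun k => (hgt k).memLp)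
      (fun k z hz => by rw [hg]; simp only; rw [hθ1 z (hUK hz), one_smul]) hF hFl
      (fun j ψ hψ => hd i ψ (hψ.mono hUΩ) j)
    have hfs : ContDiffOn ℝ ∞ f U := by
      have h1 := Vale.Agent.P268.analyticOnNhd_of_differentiableOn hUo hf
      exact ((h1.contDiffOn (n := ∞) hUo.uniqueDiffOn).restrict_scalars ℝ)
    have hχ : TestV U (c.χ i) := ⟨(c.test i).smooth, (c.test i).cpt, hχU⟩
    refine ⟨fun z => c.χ i z • f z, (TestV.smul hUo hχ hfs).mono hUΩ, fun x hx => ?_, ?_⟩
    · show c.χ i x • f x = 0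
      rw [(c.test i).zero_off fun h => hx (c.supp_sub i h), zero_smul]
    · obtain ⟨M, hM0, hM⟩ := exists_bound_on (c.test i).cpt.isCompact
        (c.test i).smooth.continuous.continuousOn
      have hMx : ∀ z, |c.χ i z| ≤ M := by
        intro z
        by_cases hz : z ∈ tsupport (c.χ i)
        · exact hM z hz
        · rw [(c.test i).zero_off hz, abs_zero]; exact hM0
      have hgF : ∀ k, MemLp (fun z => g k z - F z) 2 volume := fun k => (hgt k).memLp.sub hF
      have hb : ∀ k, n2 volume (fun z => L.loc i (w k) z - c.χ i z • f z) ≤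
          M * n2 volume (fun z => g k z - F z) := by
        intro k
        have e1 : n2 volume (fun z => L.loc i (w k) z - c.χ i z • f z) =
            n2 volume (fun z => c.χ i z • (g k z - F z)) := by
          rw [n2, n2]
          congr 1
          refine eLpNorm_congr_ae ?_
          filter_upwards [hfe] with z hz
          by_cases hz' : z ∈ tsupport (c.χ i)
          · have hzU := hχU hz'
            rw [hz hzU, hg]
            simp only [loc]
            rw [hθ1 z (hUK hzU), one_smul, smul_sub]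
          · rw [L.loc_zero i _ hz', (c.test i).zero_off hz', zero_smul, zero_smul, sub_zero]
        rw [e1]
        refine n2_mono_of_le hM0 (hgF k) fun z => ?_
        rw [norm_smul]
        gcongr
        exact hMx z
      refine squeeze_zero (fun n => n2_nonneg _) hb ?_
      simpa using hFl.const_mul M
  choose u hu hu0 hul using hloc
  exact ⟨_, L.tendsto_of_loc hu hu0 hul⟩

end

end LocSp

end

end Vale.Agent.P299.H863
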