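import Vale.Agent.P299.H598.IX.Gard
import Vale.Agent.P299.H863.IdxFin

/-! # The local `∂̄` control from the global Bochner inequality -/

open scoped Manifold ContDiff ComplexOrder Topology Matrix ComplexConjugate
open MeasureTheory Set Filter
open Vale.Agent.P272.K Vale.Agent.P272.K.INT Vale.Agent.P299.H863 Vale.Agent.P299.H721

noncomputable section

namespace Vale.Agent.P299.IX

section
variable {n : ℕ} {Z : Type*} [TopologicalSpace Z] [ChartedSpace (Cm n) Z]
  [IsManifold 𝓘(ℂ, Cm n) ω Z] [T2Space Z] [CompactSpace Z]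

/-- the integral of a nonnegative density is at least its integral over a compact part of a
chart -/
theorem setIntegral_le_intX {D : Chart n Z → Cm n → ℝ} (hD : IsDensity D)
    (hpos : ∀ e x, At e x → 0 ≤ D e (e x)) {e : Chart n Z} (he : e ∈ atlas (Cm n) Z)
    {K : Set (Cm n)} (hK : IsCompact K) (hKe : K ⊆ e.target) : ∫ z in K, D e z ≤ intX D := by
  have hKc : IsCompact (e.symm '' K) := hK.image_of_continuousOn (e.continuousOn_symm.mono hKe)
  have hKs : e.symm '' K ⊆ e.source := by
    rintro _ ⟨z, hz, rfl⟩; exact e.map_target (hKe hz)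
  obtain ⟨f, hf1, hf2, hf3⟩ := exists_tsupport_one_of_isOpen_isClosed e.open_source
    isClosed_closure.isCompact hKc.isClosed hKs
  have hD' : IsDensity (fun e z => f (e.symm z) * D e z) := hD.smul f.continuous
  have h0 : ∀ z ∈ e.target, 0 ≤ D e z := by
    intro z hz
    have := hpos e (e.symm z) ⟨he, e.map_target hz⟩
    rwa [e.right_inv hz] at this
  have h1 : intX (fun e z => f (e.symm z) * D e z) ≤ intX D := by
    refine intX_mono hD' hD fun e' x hx => ?_
    rw [e'.left_inv hx.2]
    have := hpos e' x hx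
    have := (hf3 x).2
    nlinarith
  have h2 : intX (fun e z => f (e.symm z) * D e z) = ∫ z in e.target, f (e.symm z) * D e z :=
    intX_of_support hD' he (isClosed_tsupport f) hf1 fun e' x hx hxK => by
      rw [e'.left_inv hx.2, image_eq_zero_of_notMem_tsupport hxK, zero_mul]
  have hint : IntegrableOn (fun z => f (e.symm z) * D e z) e.target := by
    refine integrableOn_chart (X := Z) (hD'.continuousOn he) (isClosed_tsupport f) hf1
      fun z hz hzK => ?_
    rw [image_eq_zero_of_notMem_tsupport hzK, zero_mul]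
  have h3 : ∫ z in K, D e z = ∫ z in K, f (e.symm z) * D e z := by
    refine setIntegral_congr_fun hK.measurableSet fun z hz => ?_
    show D e z = f (e.symm z) * D e z
    rw [hf2 ⟨z, hz, rfl⟩, Pi.one_apply, one_mul]
  rw [h3]
  refine le_trans ?_ (h2 ▸ h1)
  refine setIntegral_mono_set hint ?_ (LE.le.eventuallyLE hKe)
  filter_upwards [ae_restrict_mem e.open_target.measurableSet] with z hz
  exact mul_nonneg (hf3 _).1 (h0 z hz)

variable {κ : Type*} [Fintype κ] [DecidableEq κ] {B : Bun n Z κ} {w : D.FormM n Z}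

omit [IsManifold 𝓘(ℂ, Cm n) ω Z] [T2Space Z] [CompactSpace Z] in
theorem gden_nonneg (hw : Vale.Agent.P272.K.IsHermitian w) (u : Chart n Z → Cm n → κ → ℂ)
    {e : Chart n Z} {x : Z} (hx : At e x) : 0 ≤ gden w B u e (e x) :=
  en_nonneg (hw.posDef e x hx).inv.posSemidef (B.H_pos e x hx).posSemidef _

omit [IsManifold 𝓘(ℂ, Cm n) ω Z] [T2Space Z] [CompactSpace Z] in
theorem dbv_toLp (s : B.S) {e : Chart n Z} (he : e ∈ atlas (Cm n) Z) {z : Cm n}
    (hz : z ∈ e.target) (j : Fin n) :
    dbv j (fun y => (WithLp.toLp 2 (s.f e y) : EuclideanSpace ℂ κ)) z =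
      WithLp.toLp 2 (DVb j (s.f e) z) := by
  have hVC : VC 1 (s.f e) z := fun i => by
    have h2 := s.smooth (e := e) (x := e.symm z) ⟨he, e.map_target hz⟩ i
    rw [e.right_inv hz] at h2
    exact h2.of_le (by exact_mod_cast le_top)
  rw [← dzbE_fderiv hVC j]
  rfl

/-- **The hypothesis `hH` of `LocSp.index_symm`** from the Bochner inequality. -/
theorem hH_of_gden (hw : Vale.Agent.P272.K.IsHermitian w) {B' : Set B.S} {N : B.S → ℝ}
    (hN0 : ∀ s ∈ B', 0 ≤ N s)
    (h0 : ∀ s : B.S, IsDensity (gden w B s.f))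
    (h1 : ∀ s ∈ B', intX (gden w B s.f) ≤ N s ^ 2)
    (i : Fin (part n Z).N) (ψ : Cm n → ℝ) (hψ : TestV ((cov n Z).Ω i) ψ) (j : Fin n) :
    ∃ C : ℝ, ∀ s ∈ B', n2 volume (fun z => ψ z • dbv j (B.locSp.r i s) z) ≤ C * N s := by
  set e := (part n Z).e i with he
  have hem : e ∈ atlas (Cm n) Z := (part n Z).mem i
  have hKe : tsupport ψ ⊆ e.target := hψ.supp
  have hKc : IsCompact (tsupport ψ) := hψ.cpt
  obtain ⟨m, hm, hmb⟩ := exists_en_lower (B := B) hw hem hKc hKe
  obtain ⟨M, hM0, hM⟩ := exists_bound_on hKc hψ.smooth.continuous.continuousOn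
  refine ⟨M / Real.sqrt m, fun s hs => ?_⟩
  have ht : TestV ((cov n Z).Ω i) (fun z => ψ z • dbv j (B.locSp.r i s) z) :=
    B.locSp.test_dbv hψ j s
  have hcont : ContinuousOn (fun z => gden w B s.f e z) e.target := (h0 s).continuousOn hem
  have hint : IntegrableOn (fun z => gden w B s.f e z) (tsupport ψ) :=
    (hcont.mono hKe).integrableOn_compact hKc
  have key : n2 volume (fun z => ψ z • dbv j (B.locSp.r i s) z) ^ 2 ≤ M ^ 2 / m * N s ^ 2 := by
    rw [n2_sq ht.memLp]
    have e1 : ∫ z, ‖ψ z • dbv j (B.locSp.r i s) z‖ ^ 2 =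
        ∫ z in tsupport ψ, ‖ψ z • dbv j (B.locSp.r i s) z‖ ^ 2 := by
      refine (setIntegral_eq_integral_of_forall_compl_eq_zero fun z hz => ?_).symm
      rw [image_eq_zero_of_notMem_tsupport hz]; simp
    rw [e1]
    have hi : Integrable (fun z => ‖ψ z • dbv j (B.locSp.r i s) z‖ ^ 2) volume :=
      (ht.memLp (μ := volume)).integrable_norm_pow (by norm_num)
    calc ∫ z in tsupport ψ, ‖ψ z • dbv j (B.locSp.r i s) z‖ ^ 2
        ≤ ∫ z in tsupport ψ, M ^ 2 / m * gden w B s.f e z := by
          refine setIntegral_mono_on hi.integrableOn (hint.const_mul _) hKc.measurableSet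
            fun z hz => ?_
          rw [norm_smul, mul_pow]
          have k1 : ‖ψ z‖ ^ 2 ≤ M ^ 2 := pow_le_pow_left₀ (norm_nonneg _) (hM z hz) 2
          have k2 : ‖dbv j (B.locSp.r i s) z‖ ^ 2 ≤ ∑ b, ∑ i, ‖DVb b (s.f e) z i‖ ^ 2 := by
            have k3 : dbv j (B.locSp.r i s) z = WithLp.toLp 2 (DVb j (s.f e) z) :=
              dbv_toLp s hem (hKe hz) j
            rw [k3, norm_toLp_sq]
            exact Finset.single_le_sum (f := fun b => ∑ i, ‖DVb b (s.f e) z i‖ ^ 2)
              (fun b _ => Finset.sum_nonneg fun i _ => by positivity) (Finset.mem_univ j)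
          have k4 := hmb z hz fun b => DVb b (s.f e) z
          have k5 : m * ‖dbv j (B.locSp.r i s) z‖ ^ 2 ≤ gden w B s.f e z :=
            (mul_le_mul_of_nonneg_left k2 hm.le).trans k4
          have k6 : ‖dbv j (B.locSp.r i s) z‖ ^ 2 ≤ gden w B s.f e z / m := by
            rw [le_div_iff₀ hm, mul_comm]; exact k5
          calc ‖ψ z‖ ^ 2 * ‖dbv j (B.locSp.r i s) z‖ ^ 2 ≤ M ^ 2 * (gden w B s.f e z / m) := by
                gcongr
            _ = _ := by ring
      _ = M ^ 2 / m * ∫ z in tsupport ψ, gden w B s.f e z := integral_const_mul _ _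
      _ ≤ M ^ 2 / m * N s ^ 2 := by
          gcongr
          exact (setIntegral_le_intX (h0 s) (fun e' x hx => gden_nonneg hw _ hx) hem hKc hKe).trans
            (h1 s hs)
  refine le_of_sq_le_sq ?_ (by have := hN0 s hs; positivity)
  rw [mul_pow, div_pow, Real.sq_sqrt hm.le]
  exact key

/-- the form for `LocSp.index_symm` and `LocSp.index_smooth` -/
theorem hH_of_bkn (hw : Vale.Agent.P272.K.IsHermitian w) (D : B.S →ₗ[ℂ] B.S)
    (h0 : ∀ s : B.S, IsDensity (gden w B s.f))
    (h1 : ∀ s : B.S, intX (gden w B s.f) ≤ ‖D s‖ ^ 2) (i : Fin (part n Z).N) (ψ : Cm n → ℝ)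
    (hψ : TestV ((cov n Z).Ω i) ψ) (j : Fin n) :
    ∃ C : ℝ, ∀ s : B.S, n2 volume (fun z => ψ z • dbv j (B.locSp.r i s) z) ≤ C * ‖D s‖ := by
  obtain ⟨C, hC⟩ := hH_of_gden (B := B) hw (B' := Set.univ) (N := fun s => ‖D s‖)
    (fun s _ => norm_nonneg _) h0 (fun s _ => h1 s) i ψ hψ j
  exact ⟨C, fun s => hC s (Set.mem_univ s)⟩

/-- kernel sections are holomorphic: every chart of the atlas -/
theorem DVb_eq_zero (hw : Vale.Agent.P272.K.IsHermitian w) {s : B.S}
    (h0 : IsDensity (gden w B s.f)) (h1 : intX (gden w B s.f) ≤ 0) {e : Chart n Z} {x : Z}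
    (hx : At e x) (j : Fin n) : DVb j (s.f e) (e x) = 0 := by
  -- the density vanishes
  have hnn : ∀ e x, At e x → 0 ≤ gden w B s.f e (e x) := fun e x hx => gden_nonneg hw _ hx
  have hem := hx.1
  have hz := e.map_source hx.2
  have hzero : gden w B s.f e (e x) = 0 := by
    by_contra hne
    have hpos : 0 < gden w B s.f e (e x) := lt_of_le_of_ne (hnn e x hx) (Ne.symm hne)
    have hcont : ContinuousOn (fun z => gden w B s.f e z) e.target := h0.continuousOn hem
    have hca : ContinuousAt (fun z => gden w B s.f e z) (e x) :=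
      hcont.continuousAt (e.open_target.mem_nhds hz)
    have hev : ∀ᶠ z in 𝓝 (e x), gden w B s.f e (e x) / 2 < gden w B s.f e z :=
      hca.eventually (lt_mem_nhds (half_lt_self hpos))
    obtain ⟨r, hr, hrs⟩ := Metric.nhds_basis_closedBall.mem_iff.1
      (Filter.inter_mem hev (e.open_target.mem_nhds hz))
    have hKc : IsCompact (Metric.closedBall (e x) r) := isCompact_closedBall _ _
    have hKe : Metric.closedBall (e x) r ⊆ e.target := fun z hz => (hrs hz).2
    have h2 := setIntegral_le_intX h0 hnn hem hKc hKe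
    have h3 : gden w B s.f e (e x) / 2 * (volume.real (Metric.closedBall (e x) r)) ≤
        ∫ z in Metric.closedBall (e x) r, gden w B s.f e z := by
      have h4 : ∫ z in Metric.closedBall (e x) r, gden w B s.f e (e x) / 2 ≤
          ∫ z in Metric.closedBall (e x) r, gden w B s.f e z := by
        refine setIntegral_mono_on (integrableOn_const hKc.measure_lt_top.ne)
          ((hcont.mono hKe).integrableOn_compact hKc) hKc.measurableSet fun z hz => (hrs hz).1.le
      rw [setIntegral_const, smul_eq_mul, mul_comm] at h4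
      exact h4
    have h5 : 0 < volume.real (Metric.closedBall (e x) r) := by
      rw [Measure.real]
      exact ENNReal.toReal_pos (Metric.measure_closedBall_pos volume (e x) hr).ne'
        hKc.measure_lt_top.ne
    have h6 : 0 < gden w B s.f e (e x) / 2 * volume.real (Metric.closedBall (e x) r) :=
      mul_pos (half_pos hpos) h5
    linarith
  obtain ⟨m, hm, hmb⟩ := exists_en_lower (B := B) hw hem (isCompact_singleton (x := e x))
    (Set.singleton_subset_iff.2 hz)
  have h7 := hmb (e x) rfl fun b => DVb b (s.f e) (e x)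
  have h8 : ∑ b, ∑ i, ‖DVb b (s.f e) (e x) i‖ ^ 2 ≤ 0 := by
    have h9 : m * ∑ b, ∑ i, ‖DVb b (s.f e) (e x) i‖ ^ 2 ≤ 0 := h7.trans (le_of_eq hzero)
    by_contra hcon
    push Not at hcon
    have := mul_pos hm hcon
    linarith
  ext k
  have h10 : ‖DVb j (s.f e) (e x) k‖ ^ 2 ≤ ∑ b, ∑ i, ‖DVb b (s.f e) (e x) i‖ ^ 2 :=
    (Finset.single_le_sum (f := fun i => ‖DVb j (s.f e) (e x) i‖ ^ 2)
      (fun i _ => by positivity) (Finset.mem_univ k)).trans
      (Finset.single_le_sum (f := fun b => ∑ i, ‖DVb b (s.f e) (e x) i‖ ^ 2)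
        (fun b _ => Finset.sum_nonneg fun i _ => by positivity) (Finset.mem_univ j))
  have h11 : ‖DVb j (s.f e) (e x) k‖ ^ 2 = 0 := le_antisymm (h10.trans h8) (by positivity)
  simpa using h11

end

end Vale.Agent.P299.IX
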