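import Vale.Agent.P299.H863.LocJ

/-! # `L²` theory of sections in atlas-free axioms, part 3: the smoothing operators -/

namespace Vale.Agent.P299.H863

open MeasureTheory Filter Topology
open scoped ContDiff ENNReal
open Vale.Agent.P363.R.Sob

set_option linter.unusedSectionVars false

noncomputable section

section cov

variable {E ι : Type*} [NormedAddCommGroup E] [NormedSpace ℝ E] [FiniteDimensional ℝ E] [Fintype ι]

theorem stdBump_rOut_anti {m n : ℕ} (h : m ≤ n) :
    (stdBump n : ContDiffBump (0 : E)).rOut ≤ (stdBump m : ContDiffBump (0 : E)).rOut := by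
  show 1 / ((n : ℝ) + 1) ≤ 1 / ((m : ℝ) + 1)
  have : (m : ℝ) ≤ n := by exact_mod_cast h
  gcongr

theorem Cov.exists_N (c : Cov E ι) : ∃ N : ℕ, ∀ i,
    Metric.cthickening (stdBump N : ContDiffBump (0 : E)).rOut (tsupport (c.χ i)) ⊆ c.Ω i := by
  borelize E
  have h1 : ∀ i, ∃ N : ℕ, ∀ n, N ≤ n →
      Metric.cthickening (stdBump n : ContDiffBump (0 : E)).rOut (tsupport (c.χ i)) ⊆ c.Ω i := by
    intro i
    obtain ⟨δ, hδ, hs⟩ := (c.test i).cpt.isCompact.exists_cthickening_subset_open (c.isOpen i)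
      (c.test i).supp
    have h2 := (tendsto_stdBump_rOut (E := E)).eventually (ge_mem_nhds hδ)
    obtain ⟨N, hN⟩ := eventually_atTop.1 h2
    exact ⟨N, fun n hn => (Metric.cthickening_mono (hN n hn) _).trans hs⟩
  choose N hN using h1
  refine ⟨Finset.univ.sup N, fun i => hN i _ (Finset.le_sup (Finset.mem_univ i))⟩

/-- the index of the first admissible mollifier -/
def Cov.N (c : Cov E ι) : ℕ := c.exists_N.choose

/-- the mollifiers -/
def Cov.bump (c : Cov E ι) (n : ℕ) : ContDiffBump (0 : E) := stdBump (c.N + n)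

/-- a compact neighbourhood of the support of the cut-off -/
def Cov.K (c : Cov E ι) (i : ι) : Set E :=
  Metric.cthickening (stdBump c.N : ContDiffBump (0 : E)).rOut (tsupport (c.χ i))

theorem Cov.K_sub (c : Cov E ι) (i : ι) : c.K i ⊆ c.Ω i := c.exists_N.choose_spec i

theorem Cov.K_cpt (c : Cov E ι) (i : ι) : IsCompact (c.K i) :=
  (c.test i).cpt.isCompact.cthickening

theorem Cov.thick (c : Cov E ι) (i : ι) (n : ℕ) :
    Metric.cthickening (c.bump n).rOut (tsupport (c.χ i)) ⊆ c.K i :=
  Metric.cthickening_mono (stdBump_rOut_anti (Nat.le_add_right _ _)) _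

theorem Cov.supp_sub (c : Cov E ι) (i : ι) : tsupport (c.χ i) ⊆ c.K i :=
  Metric.self_subset_cthickening _

theorem Cov.tendsto_bump (c : Cov E ι) : Tendsto (fun n => (c.bump n).rOut) atTop (𝓝 0) := by
  borelize E
  have := (tendsto_stdBump_rOut (E := E)).comp (tendsto_add_atTop_nat c.N)
  refine this.congr fun n => ?_
  show (stdBump (n + c.N) : ContDiffBump (0 : E)).rOut = (stdBump (c.N + n)).rOut
  rw [add_comm]

end cov

namespace LocSp

variable {E ι : Type*} [NormedAddCommGroup E] [NormedSpace ℝ E] [FiniteDimensional ℝ E]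
  [MeasurableSpace E] [BorelSpace E] [Fintype ι] {μ : Measure E} [μ.IsAddHaarMeasure]
  {c : Cov E ι} {V S : Type*} [NormedAddCommGroup V]
  [InnerProductSpace ℂ V] [FiniteDimensional ℂ V] [NormedAddCommGroup S] [InnerProductSpace ℂ S]
  (L : LocSp μ c V S)

/-- the section cut off by `χ i`, in the chart `i` -/
def loc (i : ι) (s : S) : E → V := fun x => c.χ i x • L.r i s x

theorem loc_test (i : ι) (s : S) : TestV (c.Ω i) (L.loc i s) :=
  TestV.smul (c.isOpen i) (c.test i) (L.r_smooth i s)

theorem loc_zero (i : ι) (s : S) {x : E} (hx : x ∉ tsupport (c.χ i)) : L.loc i s x = 0 := by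
  rw [loc, (c.test i).zero_off hx, zero_smul]

theorem loc_add (i : ι) (s t : S) : L.loc i (s + t) = fun x => L.loc i s x + L.loc i t x := by
  funext x
  by_cases hx : x ∈ c.Ω i
  · simp only [loc]; rw [L.r_add i s t x hx, smul_add]
  · have : x ∉ tsupport (c.χ i) := fun h => hx ((c.test i).supp h)
    simp only [L.loc_zero i _ this, add_zero]

theorem loc_smul (i : ι) (a : ℂ) (s : S) : L.loc i (a • s) = fun x => a • L.loc i s x := by
  funext x
  by_cases hx : x ∈ c.Ω i
  · simp only [loc]; rw [L.r_smul i a s x hx, smul_comm]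
  · have : x ∉ tsupport (c.χ i) := fun h => hx ((c.test i).supp h)
    simp only [L.loc_zero i _ this, smul_zero]

theorem complete (V : Type*) [NormedAddCommGroup V] [InnerProductSpace ℂ V]
    [FiniteDimensional ℂ V] : CompleteSpace V := FiniteDimensional.complete ℂ V

/-- the mollified section in the chart `i` -/
def mol (n : ℕ) (i : ι) (s : S) : E → V := moll μ (c.bump n) (L.loc i s)

theorem mol_test (n : ℕ) (i : ι) (s : S) : TestV (c.Ω i) (L.mol n i s) := by
  have := complete V
  exact testV_moll (c.test i).cpt.isCompact _ ((c.thick i n).trans (c.K_sub i))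
    (L.loc_test i s).smooth.continuous fun x hx => L.loc_zero i s hx

theorem mol_zero (n : ℕ) (i : ι) (s : S) {x : E} (hx : x ∉ c.K i) : L.mol n i s x = 0 := by
  have := complete V
  exact moll_eq_zero (K := tsupport (c.χ i)) (fun x hx => L.loc_zero i s hx) _ le_rfl
    fun h => hx (c.thick i n h)

theorem mol_add (n : ℕ) (i : ι) (s t : S) :
    L.mol n i (s + t) = fun x => L.mol n i s x + L.mol n i t x := by
  have := complete V
  rw [mol, L.loc_add, moll_add _ (L.loc_test i s).smooth.continuous.locallyIntegrable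
    (L.loc_test i t).smooth.continuous.locallyIntegrable]
  rfl

theorem mol_smul (n : ℕ) (i : ι) (a : ℂ) (s : S) :
    L.mol n i (a • s) = fun x => a • L.mol n i s x := by
  have := complete V
  rw [mol, L.loc_smul, moll_csmul]
  rfl

/-- the smoothing operators -/
def J (n : ℕ) : S →ₗ[ℂ] S where
  toFun s := ∑ i, L.ext i (L.mol n i s)
  map_add' s t := by
    rw [← Finset.sum_add_distrib]
    refine Finset.sum_congr rfl fun i _ => ?_
    rw [L.mol_add, L.ext_add (L.mol_test n i s) (L.mol_test n i t)]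
  map_smul' a s := by
    rw [RingHom.id_apply, Finset.smul_sum]
    refine Finset.sum_congr rfl fun i _ => ?_
    rw [L.mol_smul, L.ext_smul (L.mol_test n i s)]

theorem J_apply (n : ℕ) (s : S) : L.J n s = ∑ i, L.ext i (L.mol n i s) := rfl

theorem n2_mol_le (n : ℕ) (i : ι) (s : S) : n2 μ (L.mol n i s) ≤ n2 μ (L.loc i s) := by
  have := complete V
  exact ENNReal.toReal_mono (L.loc_test i s).memLp.2.ne
    (eLpNorm_moll_le _ (L.loc_test i s).smooth.continuous.stronglyMeasurable)

/-- uniform constants -/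
theorem exists_loc_le : ∃ C : ℝ, 0 ≤ C ∧ ∀ i s, n2 μ (L.loc i s) ≤ C * ‖s‖ := by
  choose C hC0 hC using fun i => L.exists_r_le (c.test i)
  refine ⟨∑ i, C i, Finset.sum_nonneg fun i _ => hC0 i, fun i s => (hC i s).trans ?_⟩
  gcongr
  exact Finset.single_le_sum (fun j _ => hC0 j) (Finset.mem_univ i)

theorem exists_extK_le : ∃ C : ℝ, 0 ≤ C ∧ ∀ i (w : E → V), TestV (c.Ω i) w →
    (∀ x, x ∉ c.K i → w x = 0) → ‖L.ext i w‖ ≤ C * n2 μ w := by
  choose C hC0 hC using fun i => L.exists_ext_le (c.K_cpt i) (c.K_sub i)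
  refine ⟨∑ i, C i, Finset.sum_nonneg fun i _ => hC0 i, fun i w h h0 => (hC i w h h0).trans ?_⟩
  have := n2_nonneg (μ := μ) w
  gcongr
  exact Finset.single_le_sum (fun j _ => hC0 j) (Finset.mem_univ i)

theorem tendsto_mol (i : ι) (s : S) :
    Tendsto (fun n => n2 μ (fun x => L.mol n i s x - L.loc i s x)) atTop (𝓝 0) := by
  have := complete V
  have h := tendsto_moll (μ := μ) (p := 2) (by norm_num) c.tendsto_bump
    ((L.loc_test i s).memLp (μ := μ))
  have h2 := (ENNReal.tendsto_toReal (by norm_num : (0 : ℝ≥0∞) ≠ ⊤)).comp h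
  exact h2

theorem J_tendsto (s : S) : Tendsto (fun n => L.J n s) atTop (𝓝 s) := by
  obtain ⟨C, hC0, hC⟩ := L.exists_extK_le
  have h1 : ∀ n, L.J n s = ∑ i, L.ext i (L.mol n i s) := fun n => rfl
  have h2 : ∀ i, Tendsto (fun n => L.ext i (L.mol n i s)) atTop (𝓝 (L.ext i (L.loc i s))) := by
    intro i
    rw [tendsto_iff_norm_sub_tendsto_zero]
    have h3 : ∀ n, ‖L.ext i (L.mol n i s) - L.ext i (L.loc i s)‖ ≤
        C * n2 μ (fun x => L.mol n i s x - L.loc i s x) := by
      intro n
      rw [← L.ext_sub (L.mol_test n i s) (L.loc_test i s)]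
      refine hC i _ ((L.mol_test n i s).sub (L.loc_test i s)) fun x hx => ?_
      rw [L.mol_zero n i s hx, L.loc_zero i s fun h => hx (c.supp_sub i h), sub_zero]
    refine squeeze_zero (fun n => norm_nonneg _) h3 ?_
    simpa using (L.tendsto_mol i s).const_mul C
  have h4 := tendsto_finsetSum Finset.univ fun i _ => h2 i
  have h5 : ∑ i, L.ext i (L.loc i s) = s := L.sum_ext s
  rw [h5] at h4
  exact h4

/-- the adjoint of the smoothing operator preserves smooth sections -/
theorem J_adj (n : ℕ) (t : S) : ∃ t' : S, ∀ s, inner ℂ (L.J n s) t = inner ℂ s t' := by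
  have := complete V
  choose θ hθ hθ1 _ using fun i => exists_testV (c.K_cpt i) (c.isOpen i) (c.K_sub i)
  -- the inverse of the metric
  have hunit : ∀ i, ∀ x ∈ c.Ω i, IsUnit (L.G i x) := by
    intro i x hx
    rw [ContinuousLinearMap.isUnit_iff_bijective]
    have hinj : Function.Injective (L.G i x) := by
      rw [injective_iff_map_eq_zero]
      intro v hv
      by_contra h0
      have := L.G_pos i x hx v h0
      rw [hv, inner_zero_right] at this
      exact lt_irrefl _ this
    exact ⟨hinj, (LinearMap.injective_iff_surjective (f := (L.G i x : V →ₗ[ℂ] V))).1 hinj⟩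
  have hinv : ∀ i, ContDiffOn ℝ ∞ (fun x => Ring.inverse (L.G i x)) (c.Ω i) := by
    intro i x hx
    obtain ⟨u, hu⟩ := hunit i x hx
    have h1 : ContDiffAt ℝ ∞ (Ring.inverse : (V →L[ℂ] V) → (V →L[ℂ] V)) (L.G i x) := by
      rw [← hu]; exact contDiffAt_ringInverse ℝ u
    exact (h1.comp_contDiffWithinAt x (L.G_smooth i x hx))
  set g : ι → E → V := fun i x => θ i x • L.G i x (L.r i t x) with hg
  have hgt : ∀ i, TestV (c.Ω i) (g i) := fun i =>
    TestV.smul (c.isOpen i) (hθ i) (L.smooth_Gr i t)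
  set m : ι → E → V := fun i => moll μ (c.bump n) (g i) with hm
  have hms : ∀ i, ContDiff ℝ ∞ (m i) := fun i =>
    moll_contDiff _ (hgt i).smooth.continuous.locallyIntegrable
  have hmc : ∀ i, HasCompactSupport (m i) := fun i => moll_hasCompactSupport _ (hgt i).cpt
  set w : ι → E → V := fun i x => c.χ i x • Ring.inverse (L.G i x) (m i x) with hw
  have hwt : ∀ i, TestV (c.Ω i) (w i) := fun i =>
    TestV.smul (c.isOpen i) (c.test i) (smooth_clm_apply (hinv i) (hms i).contDiffOn)
  refine ⟨∑ i, L.ext i (w i), fun s => ?_⟩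
  rw [L.J_apply, sum_inner, inner_sum]
  refine Finset.sum_congr rfl fun i _ => ?_
  rw [L.inner_ext i _ _ (L.mol_test n i s)]
  have hrin : ∀ (b : ℝ) (v v' : V), inner ℂ (b • v) v' = (b : ℂ) * inner ℂ v v' := by
    intro b v v'
    rw [← Complex.coe_smul, inner_smul_left, Complex.conj_ofReal]
  have hrin' : ∀ (b : ℝ) (v v' : V), inner ℂ v (b • v') = (b : ℂ) * inner ℂ v v' := by
    intro b v v'
    rw [← Complex.coe_smul, inner_smul_right]
  have e1 : ∀ x, inner ℂ (L.mol n i s x) (L.G i x (L.r i t x)) = inner ℂ (L.mol n i s x) (g i x) := by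
    intro x
    by_cases hx : x ∈ c.K i
    · rw [hg]; simp only; rw [hθ1 i x hx, one_smul]
    · rw [L.mol_zero n i s hx, inner_zero_left, inner_zero_left]
  simp only [e1]
  rw [mol, integral_inner_moll _ (L.loc_test i s).smooth.continuous (L.loc_test i s).cpt
    (hgt i).smooth.continuous (hgt i).cpt]
  rw [← inner_conj_symm, L.inner_ext i _ _ (hwt i), ← integral_conj]
  refine integral_congr_ae (Eventually.of_forall fun x => ?_)
  show inner ℂ (L.loc i s x) (m i x) = (starRingEnd ℂ) (inner ℂ (w i x) (L.G i x (L.r i s x)))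
  rw [inner_conj_symm]
  by_cases hx : x ∈ c.Ω i
  · rw [L.G_symm i x hx]
    have h2 : L.G i x (w i x) = c.χ i x • m i x := by
      rw [hw]
      simp only
      rw [← Complex.coe_smul, map_smul, Complex.coe_smul]
      congr 1
      have h3 := Ring.mul_inverse_cancel _ (hunit i x hx)
      have h4 := congrArg (fun T : V →L[ℂ] V => T (m i x)) h3
      simpa using h4
    rw [h2, loc, hrin, hrin']
  · have hx' : x ∉ tsupport (c.χ i) := fun h => hx ((c.test i).supp h)
    rw [L.loc_zero i s hx', inner_zero_left, hw]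
    simp only
    rw [(c.test i).zero_off hx', zero_smul, inner_zero_right]

theorem smoothing : Smoothing ℂ L.J where
  bound := by
    obtain ⟨C, hC0, hC⟩ := L.exists_extK_le
    obtain ⟨C', hC'0, hC'⟩ := L.exists_loc_le
    refine ⟨∑ _i : ι, C * C', by positivity, fun n s => ?_⟩
    rw [L.J_apply, Finset.sum_mul]
    refine (norm_sum_le _ _).trans (Finset.sum_le_sum fun i _ => ?_)
    calc ‖L.ext i (L.mol n i s)‖ ≤ C * n2 μ (L.mol n i s) :=
          hC i _ (L.mol_test n i s) fun x hx => L.mol_zero n i s hx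
      _ ≤ C * (C' * ‖s‖) := by
          gcongr
          exact (L.n2_mol_le n i s).trans (hC' i s)
      _ = _ := by ring
  lim := L.J_tendsto
  adj := L.J_adj

end LocSp

end

end Vale.Agent.P299.H863
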