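import Vale.Agent.P299.H863.FO
import Vale.Agent.P299.H863.LocS

/-! # `L²` theory of sections in atlas-free axioms, part 4: first order operators -/

namespace Vale.Agent.P299.H863

open MeasureTheory Filter Topology
open scoped ContDiff ENNReal
open Vale.Agent.P363.R.Sob

set_option linter.unusedSectionVars false

noncomputable section

section coef

variable {E : Type*} [NormedAddCommGroup E] [NormedSpace ℝ E] [FiniteDimensional ℝ E]
  [MeasurableSpace E] [BorelSpace E] {μ : Measure E} [μ.IsAddHaarMeasure]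
variable {V W : Type*} [NormedAddCommGroup V] [NormedSpace ℝ V] [CompleteSpace V]
  [NormedAddCommGroup W] [NormedSpace ℝ W] [CompleteSpace W]
  {a : E → (E →L[ℝ] V) →L[ℝ] W} {b : E → V →L[ℝ] W}

theorem tendsto_n2_moll {ρ : ℕ → ContDiffBump (0 : E)} (hρ : Tendsto (fun n => (ρ n).rOut) atTop (𝓝 0))
    {f : E → V} (hf : MemLp f 2 μ) :
    Tendsto (fun n => n2 μ (fun x => moll μ (ρ n) f x - f x)) atTop (𝓝 0) := by
  have h := tendsto_moll (μ := μ) (p := 2) (by norm_num) hρ hf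
  exact (ENNReal.tendsto_toReal (by norm_num : (0 : ℝ≥0∞) ≠ ⊤)).comp h

theorem n2_sub_le {w w' : E → V} (hw : MemLp w 2 μ) (hw' : MemLp w' 2 μ) :
    n2 μ (fun x => w x - w' x) ≤ n2 μ w + n2 μ w' := by
  have e2 : eLpNorm (w - w') 2 μ ≤ eLpNorm w 2 μ + eLpNorm w' 2 μ :=
    eLpNorm_sub_le hw.1 hw'.1 (by norm_num)
  have e3 := ENNReal.toReal_mono (ENNReal.add_ne_top.2 ⟨hw.2.ne, hw'.2.ne⟩) e2
  rwa [ENNReal.toReal_add hw.2.ne hw'.2.ne] at e3

theorem Coef.tendsto_fo (h : Coef a b) {ρ : ℕ → ContDiffBump (0 : E)}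
    (hρ : Tendsto (fun n => (ρ n).rOut) atTop (𝓝 0)) {u : E → V} (hu : ContDiff ℝ ∞ u)
    (huc : HasCompactSupport u) :
    Tendsto (fun n => n2 μ (fun x => fo a b (moll μ (ρ n) u) x - fo a b u x))
      atTop (𝓝 0) := by
  obtain ⟨C, hC0, hC⟩ := h.exists_bound
  have hDu : ContDiff ℝ ∞ (fderiv ℝ u) := hu.fderiv_right (by simp)
  have hum : MemLp u 2 μ := hu.continuous.memLp_of_hasCompactSupport huc
  have hDum : MemLp (fderiv ℝ u) 2 μ :=
    hDu.continuous.memLp_of_hasCompactSupport (huc.fderiv ℝ)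
  have t1 := tendsto_n2_moll hρ hum
  have t2 := tendsto_n2_moll hρ hDum
  have hb : ∀ n, n2 μ (fun x => fo a b (moll μ (ρ n) u) x - fo a b u x) ≤
      C * (n2 μ (fun x => moll μ (ρ n) (fderiv ℝ u) x - fderiv ℝ u x) +
        n2 μ (fun x => moll μ (ρ n) u x - u x)) := by
    intro n
    have hms : ContDiff ℝ ∞ (moll μ (ρ n) u) := moll_contDiff _ hu.continuous.locallyIntegrable
    have hmc : HasCompactSupport (moll μ (ρ n) u) := moll_hasCompactSupport _ huc
    have hmD : MemLp (fun x => moll μ (ρ n) (fderiv ℝ u) x - fderiv ℝ u x) 2 μ :=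
      ((moll_contDiff _ hDu.continuous.locallyIntegrable).continuous.memLp_of_hasCompactSupport
        (moll_hasCompactSupport _ (huc.fderiv ℝ))).sub hDum
    have hmu : MemLp (fun x => moll μ (ρ n) u x - u x) 2 μ :=
      (hms.continuous.memLp_of_hasCompactSupport hmc).sub hum
    have e2 : n2 μ (fun x => fo a b (moll μ (ρ n) u) x - fo a b u x) ≤
        C * n2 μ (fun x => ‖moll μ (ρ n) (fderiv ℝ u) x - fderiv ℝ u x‖ +
          ‖moll μ (ρ n) u x - u x‖) := by
      refine n2_mono_of_le hC0 (hmD.norm.add hmu.norm) fun x => ?_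
      rw [Real.norm_of_nonneg (by positivity)]
      have e3 : fo a b (moll μ (ρ n) u) x - fo a b u x = a x (moll μ (ρ n) (fderiv ℝ u) x -
          fderiv ℝ u x) + b x (moll μ (ρ n) u x - u x) := by
        simp only [fo]
        rw [fderiv_moll' _ hu, map_sub, map_sub]
        abel
      rw [e3]
      calc _ ≤ ‖a x (moll μ (ρ n) (fderiv ℝ u) x - fderiv ℝ u x)‖ +
            ‖b x (moll μ (ρ n) u x - u x)‖ := norm_add_le _ _
        _ ≤ C * ‖moll μ (ρ n) (fderiv ℝ u) x - fderiv ℝ u x‖ +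
            C * ‖moll μ (ρ n) u x - u x‖ := by
            refine add_le_add (((a x).le_opNorm _).trans ?_) (((b x).le_opNorm _).trans ?_)
            · have := (hC x).1; gcongr
            · have := (hC x).2; gcongr
        _ = _ := by ring
    refine e2.trans ?_
    gcongr
    refine (n2_add_le hmD.norm hmu.norm).trans (le_of_eq ?_)
    rw [n2, n2, eLpNorm_norm, eLpNorm_norm]; rfl
  refine squeeze_zero (fun n => n2_nonneg _) hb ?_
  simpa using (t2.add t1).const_mul C

end coef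

/-- a first order differential operator between two spaces of sections -/
structure LocOp {E ι : Type*} [NormedAddCommGroup E] [NormedSpace ℝ E] [MeasurableSpace E]
    [Fintype ι] {μ : Measure E} {c : Cov E ι} {V₁ S₁ V₂ S₂ : Type*} [NormedAddCommGroup V₁]
    [InnerProductSpace ℂ V₁] [NormedAddCommGroup S₁] [InnerProductSpace ℂ S₁]
    [NormedAddCommGroup V₂] [InnerProductSpace ℂ V₂] [NormedAddCommGroup S₂]
    [InnerProductSpace ℂ S₂] (L₁ : LocSp μ c V₁ S₁) (L₂ : LocSp μ c V₂ S₂) (D : S₁ →ₗ[ℂ] S₂) where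
  a : ι → E → (E →L[ℝ] V₁) →L[ℝ] V₂
  b : ι → E → V₁ →L[ℝ] V₂
  a_smooth : ∀ i, ContDiffOn ℝ ∞ (a i) (c.Ω i)
  b_smooth : ∀ i, ContDiffOn ℝ ∞ (b i) (c.Ω i)
  r_D : ∀ i s, ∀ x ∈ c.Ω i, L₂.r i (D s) x = fo (a i) (b i) (L₁.r i s) x

namespace LocOp

variable {E ι : Type*} [NormedAddCommGroup E] [NormedSpace ℝ E] [FiniteDimensional ℝ E]
  [MeasurableSpace E] [BorelSpace E] [Fintype ι] {μ : Measure E} [μ.IsAddHaarMeasure]
  {c : Cov E ι} {V₁ S₁ V₂ S₂ : Type*} [NormedAddCommGroup V₁]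
    [InnerProductSpace ℂ V₁] [FiniteDimensional ℂ V₁] [NormedAddCommGroup S₁]
    [InnerProductSpace ℂ S₁]
    [NormedAddCommGroup V₂] [InnerProductSpace ℂ V₂] [FiniteDimensional ℂ V₂]
    [NormedAddCommGroup S₂]
    [InnerProductSpace ℂ S₂] {L₁ : LocSp μ c V₁ S₁} {L₂ : LocSp μ c V₂ S₂} {D : S₁ →ₗ[ℂ] S₂}
    {D' : S₂ →ₗ[ℂ] S₁}

/-- the operator is local: it commutes with the extension by zero -/
theorem D_ext (A : LocOp L₁ L₂ D) (A' : LocOp L₂ L₁ D')
    (hadj : ∀ u v, inner ℂ (D u) v = inner ℂ u (D' v)) {i : ι} {w : E → V₁}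
    (hw : TestV (c.Ω i) w) : D (L₁.ext i w) = L₂.ext i (fo (A.a i) (A.b i) w) := by
  refine ext_inner_right ℂ fun t => ?_
  have hAw : TestV (c.Ω i) (fo (A.a i) (A.b i) w) :=
    fo_test (c.isOpen i) (A.a_smooth i) (A.b_smooth i) hw
  obtain ⟨θ, h1, h2, h3, h4, h5⟩ := exists_cutoff hw.cpt.isCompact (c.isOpen i) hw.supp
  have hθ : TestV (c.Ω i) θ := ⟨h1, h2, h3⟩
  have hθt : TestV (c.Ω i) (fun x => θ x • L₂.r i t x) :=
    TestV.smul (c.isOpen i) hθ (L₂.r_smooth i t)
  have hnear : ∀ x ∈ tsupport w, ∀ᶠ y in 𝓝 x, θ y = 1 := fun x hx =>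
    (eventually_nhdsSet_iff_forall.1 h4) x hx
  -- replace `t` by the cut-off section
  have e1 : inner ℂ (L₁.ext i w) (D' t) =
      inner ℂ (L₁.ext i w) (D' (L₂.ext i (fun x => θ x • L₂.r i t x))) := by
    rw [L₁.inner_ext i w _ hw, L₁.inner_ext i w _ hw]
    refine integral_congr_ae (Eventually.of_forall fun x => ?_)
    show inner ℂ (w x) (L₁.G i x (L₁.r i (D' t) x)) = inner ℂ (w x) (L₁.G i x
      (L₁.r i (D' (L₂.ext i (fun x => θ x • L₂.r i t x))) x))
    by_cases hx : x ∈ tsupport w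
    · have hxΩ := hw.supp hx
      rw [A'.r_D i _ x hxΩ, A'.r_D i _ x hxΩ]
      congr 2
      refine fo_congr rfl rfl ?_
      filter_upwards [hnear x hx, (c.isOpen i).mem_nhds hxΩ] with y hy hyΩ
      rw [L₂.r_ext i _ hθt y hyΩ, hy, one_smul]
    · rw [hw.zero_off hx, inner_zero_left, inner_zero_left]
  rw [hadj, e1, ← hadj, ← inner_conj_symm, L₂.inner_ext i _ _ hθt, L₂.inner_ext i _ _ hAw,
    ← integral_conj]
  refine integral_congr_ae (Eventually.of_forall fun x => ?_)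
  show (starRingEnd ℂ) (inner ℂ (θ x • L₂.r i t x) (L₂.G i x (L₂.r i (D (L₁.ext i w)) x))) =
    inner ℂ (fo (A.a i) (A.b i) w x) (L₂.G i x (L₂.r i t x))
  rw [inner_conj_symm]
  by_cases hx : x ∈ c.Ω i
  · have e2 : L₂.r i (D (L₁.ext i w)) x = fo (A.a i) (A.b i) w x := by
      rw [A.r_D i _ x hx]
      refine fo_congr rfl rfl ?_
      filter_upwards [(c.isOpen i).mem_nhds hx] with y hy
      rw [L₁.r_ext i w hw y hy]
    rw [e2, L₂.G_symm i x hx]
    by_cases hxs : x ∈ tsupport w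
    · have : θ x = 1 := (hnear x hxs).self_of_nhds
      rw [this, one_smul]
    · have e3 : fo (A.a i) (A.b i) w x = 0 := by
        simp only [fo]
        rw [hw.zero_off hxs, map_zero, image_eq_zero_of_notMem_tsupport
          (fun h => hxs (tsupport_fderiv_subset ℝ h)), map_zero, add_zero]
      rw [e3, inner_zero_left, inner_zero_left]
  · have hx' : x ∉ tsupport θ := fun h => hx (h3 h)
    have e3 : fo (A.a i) (A.b i) w x = 0 := by
      have hxs : x ∉ tsupport w := fun h => hx (hw.supp h)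
      simp only [fo]
      rw [hw.zero_off hxs, map_zero, image_eq_zero_of_notMem_tsupport
        (fun h => hxs (tsupport_fderiv_subset ℝ h)), map_zero, add_zero]
    rw [image_eq_zero_of_notMem_tsupport hx', zero_smul, inner_zero_right, e3, inner_zero_left]

theorem fo_eq_zero_off {a : E → (E →L[ℝ] V₁) →L[ℝ] V₂} {b : E → V₁ →L[ℝ] V₂} {K : Set E}
    (hK : IsClosed K) {w : E → V₁} (h0 : ∀ x, x ∉ K → w x = 0) {x : E} (hx : x ∉ K) :
    fo a b w x = 0 := by
  have h1 : w =ᶠ[𝓝 x] fun _ => 0 := by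
    filter_upwards [hK.isOpen_compl.mem_nhds hx] with y hy using h0 y hy
  simp only [fo]
  rw [h1.fderiv_eq, h0 x hx, map_zero]
  simp

theorem fo_congr_on {a a' : E → (E →L[ℝ] V₁) →L[ℝ] V₂} {b b' : E → V₁ →L[ℝ] V₂} {K : Set E}
    (hK : IsClosed K) {w : E → V₁} (h0 : ∀ x, x ∉ K → w x = 0) (ha : ∀ x ∈ K, a x = a' x)
    (hb : ∀ x ∈ K, b x = b' x) : fo a b w = fo a' b' w := by
  funext x
  by_cases hx : x ∈ K
  · exact fo_congr (ha x hx) (hb x hx) (EventuallyEq.refl _ _)
  · rw [fo_eq_zero_off hK h0 hx, fo_eq_zero_off hK h0 hx]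

/-- globally defined coefficients -/
theorem exists_coef (A : LocOp L₁ L₂ D) (i : ι) : ∃ (a : E → (E →L[ℝ] V₁) →L[ℝ] V₂)
    (b : E → V₁ →L[ℝ] V₂), Coef a b ∧ (∀ x ∈ c.K i, a x = A.a i x) ∧
      ∀ x ∈ c.K i, b x = A.b i x := by
  obtain ⟨θ, hθ, hθ1, _⟩ := exists_testV (c.K_cpt i) (c.isOpen i) (c.K_sub i)
  have h1 := TestV.smul (c.isOpen i) hθ (A.a_smooth i)
  have h2 := TestV.smul (c.isOpen i) hθ (A.b_smooth i)
  refine ⟨_, _, ⟨h1.smooth, h2.smooth, h1.cpt, h2.cpt⟩, fun x hx => ?_, fun x hx => ?_⟩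
  · show θ x • A.a i x = A.a i x
    rw [hθ1 x hx, one_smul]
  · show θ x • A.b i x = A.b i x
    rw [hθ1 x hx, one_smul]

/-- the commutator with the cut-off -/
theorem exists_zero_le (A : LocOp L₁ L₂ D) (i : ι) {a : E → (E →L[ℝ] V₁) →L[ℝ] V₂}
    {b : E → V₁ →L[ℝ] V₂} (hab : Coef a b) (ha : ∀ x ∈ c.K i, a x = A.a i x)
    (hb : ∀ x ∈ c.K i, b x = A.b i x) :
    ∃ C : ℝ, 0 ≤ C ∧ ∀ s, n2 μ (fun x => fo a b (L₁.loc i s) x - L₂.loc i (D s) x) ≤ C * ‖s‖ := by
  obtain ⟨θ, hθ, hθ1, _⟩ := exists_testV (c.test i).cpt.isCompact (c.isOpen i) (c.test i).supp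
  obtain ⟨C₁, h10, h1⟩ := L₁.exists_r_le hθ
  obtain ⟨C₂, h20, h2⟩ := hab.exists_bound
  have hχ' : Continuous (fderiv ℝ (c.χ i)) := (c.test i).smooth.continuous_fderiv (by simp)
  obtain ⟨C₃, h30, h3⟩ := bdd_of_cpt hχ' ((c.test i).cpt.fderiv ℝ)
  refine ⟨C₂ * C₃ * C₁, by positivity, fun s => ?_⟩
  have hθm : MemLp (fun x => θ x • L₁.r i s x) 2 μ :=
    (TestV.smul (c.isOpen i) hθ (L₁.r_smooth i s)).memLp
  have key : n2 μ (fun x => fo a b (L₁.loc i s) x - L₂.loc i (D s) x) ≤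
      (C₂ * C₃) * n2 μ (fun x => θ x • L₁.r i s x) := by
    refine n2_mono_of_le (by positivity) hθm fun x => ?_
    by_cases hx : x ∈ tsupport (c.χ i)
    · have hxΩ := (c.test i).supp hx
      have hxK := c.supp_sub i hx
      have hd1 : DifferentiableAt ℝ (c.χ i) x := (c.test i).smooth.differentiable (by simp) x
      have hd2 : DifferentiableAt ℝ (L₁.r i s) x :=
        ((L₁.r_smooth i s).contDiffAt ((c.isOpen i).mem_nhds hxΩ)).differentiableAt (by simp)
      have e1 : fderiv ℝ (L₁.loc i s) x = c.χ i x • fderiv ℝ (L₁.r i s) x +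
          (fderiv ℝ (c.χ i) x).smulRight (L₁.r i s x) := fderiv_smul hd1 hd2
      have e2 : fo a b (L₁.loc i s) x - L₂.loc i (D s) x =
          a x ((fderiv ℝ (c.χ i) x).smulRight (L₁.r i s x)) := by
        rw [LocSp.loc, A.r_D i s x hxΩ]
        simp only [fo]
        rw [e1, ha x hxK, hb x hxK, map_add, map_smul, LocSp.loc, map_smul, smul_add]
        abel
      rw [e2, hθ1 x hx, one_smul]
      refine ((a x).le_opNorm _).trans ?_
      rw [ContinuousLinearMap.norm_smulRight_apply, mul_assoc]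
      have := (h2 x).1
      have := h3 x
      gcongr
    · have h0 : ∀ y, y ∉ tsupport (c.χ i) → L₁.loc i s y = 0 := fun y hy => L₁.loc_zero i s hy
      rw [fo_eq_zero_off (isClosed_tsupport _) h0 hx, L₂.loc_zero i _ hx, sub_zero, norm_zero]
      positivity
  calc _ ≤ (C₂ * C₃) * (C₁ * ‖s‖) := key.trans (by gcongr; exact h1 s)
    _ = _ := by ring

/-- **the commutator of a first order operator with the smoothing operators** -/
theorem smoothingComm (A : LocOp L₁ L₂ D) (A' : LocOp L₂ L₁ D')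
    (hadj : ∀ u v, inner ℂ (D u) v = inner ℂ u (D' v)) : SmoothingComm D L₁.J L₂.J := by
  have := LocSp.complete V₁
  have := LocSp.complete V₂
  choose a b hab ha hb using fun i => A.exists_coef i
  obtain ⟨CL, hCL0, hCL⟩ := L₁.exists_loc_le
  obtain ⟨CE, hCE0, hCE⟩ := L₂.exists_extK_le
  have hKc : ∀ i, IsClosed (c.K i) := fun i => (c.K_cpt i).isClosed
  have hmol0 : ∀ n i s x, x ∉ c.K i → L₁.mol n i s x = 0 := fun n i s x hx => L₁.mol_zero n i s hx
  have hloc0 : ∀ i s x, x ∉ c.K i → L₁.loc i s x = 0 := fun i s x hx =>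
    L₁.loc_zero i s fun h => hx (c.supp_sub i h)
  -- the local form of `D (J s)`
  have hfo : ∀ i (w : E → V₁), TestV (c.Ω i) w → (∀ x, x ∉ c.K i → w x = 0) →
      D (L₁.ext i w) = L₂.ext i (fo (a i) (b i) w) ∧ TestV (c.Ω i) (fo (a i) (b i) w) ∧
      ∀ x, x ∉ c.K i → fo (a i) (b i) w x = 0 := by
    intro i w hw h0
    have e : fo (a i) (b i) w = fo (A.a i) (A.b i) w :=
      fo_congr_on (hKc i) h0 (ha i) (hb i)
    refine ⟨?_, ?_, fun x hx => fo_eq_zero_off (hKc i) h0 hx⟩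
    · rw [e, A.D_ext A' hadj hw]
    · rw [e]; exact fo_test (c.isOpen i) (A.a_smooth i) (A.b_smooth i) hw
  have hDJ : ∀ n s, D (L₁.J n s) = ∑ i, L₂.ext i (fo (a i) (b i) (L₁.mol n i s)) := by
    intro n s
    rw [L₁.J_apply, map_sum]
    exact Finset.sum_congr rfl fun i _ => (hfo i _ (L₁.mol_test n i s) (hmol0 n i s)).1
  refine ⟨fun n => ?_, ?_, fun s => ?_⟩
  · choose C hC0 hC using fun i => (hab i).exists_moll_le (μ := μ) (c.bump n)
    refine ⟨∑ i, CE * (C i * CL), Finset.sum_nonneg fun i _ => by have := hC0 i; positivity,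
      fun s => ?_⟩
    rw [hDJ, Finset.sum_mul]
    refine (norm_sum_le _ _).trans (Finset.sum_le_sum fun i _ => ?_)
    obtain ⟨_, h2, h3⟩ := hfo i _ (L₁.mol_test n i s) (hmol0 n i s)
    have := hC0 i
    calc _ ≤ CE * n2 μ (fo (a i) (b i) (L₁.mol n i s)) := hCE i _ h2 h3
      _ ≤ CE * (C i * (CL * ‖s‖)) := by
        gcongr
        exact (hC i _ (L₁.loc_test i s).smooth (L₁.loc_test i s).cpt).trans
          (by gcongr; exact hCL i s)
      _ = _ := by ring
  · choose C hC0 hC using fun i => (hab i).exists_comm_le (μ := μ)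
    choose C' hC'0 hC' using fun i => A.exists_zero_le i (hab i) (ha i) (hb i)
    refine ⟨∑ i, CE * (C i * CL + C' i), Finset.sum_nonneg fun i _ => by
      have := hC0 i; have := hC'0 i; positivity, fun n s => ?_⟩
    rw [hDJ, L₂.J_apply, ← Finset.sum_sub_distrib, Finset.sum_mul]
    refine (norm_sum_le _ _).trans (Finset.sum_le_sum fun i _ => ?_)
    obtain ⟨_, h2, h3⟩ := hfo i _ (L₁.mol_test n i s) (hmol0 n i s)
    rw [← L₂.ext_sub h2 (L₂.mol_test n i (D s))]
    have h4 : TestV (c.Ω i) (fun x => fo (a i) (b i) (L₁.mol n i s) x - L₂.mol n i (D s) x) :=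
      h2.sub (L₂.mol_test n i (D s))
    have h5 : ∀ x, x ∉ c.K i → fo (a i) (b i) (L₁.mol n i s) x - L₂.mol n i (D s) x = 0 := by
      intro x hx; rw [h3 x hx, L₂.mol_zero n i _ hx, sub_zero]
    refine (hCE i _ h4 h5).trans ?_
    have hls := (L₁.loc_test i s).smooth
    have hlc := (L₁.loc_test i s).cpt
    have hfs : ContDiff ℝ ∞ (fo (a i) (b i) (L₁.loc i s)) := (hab i).smooth hls
    have hfc : HasCompactSupport (fo (a i) (b i) (L₁.loc i s)) := (hab i).cpt _
    have hzs := hfs.sub (L₂.loc_test i (D s)).smooth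
    -- splitting
    have e1 : (fun x => fo (a i) (b i) (L₁.mol n i s) x - L₂.mol n i (D s) x) = fun x =>
        (fo (a i) (b i) (moll μ (c.bump n) (L₁.loc i s)) x -
          moll μ (c.bump n) (fo (a i) (b i) (L₁.loc i s)) x) +
        moll μ (c.bump n) (fun y => fo (a i) (b i) (L₁.loc i s) y - L₂.loc i (D s) y) x := by
      funext x
      rw [moll_sub _ hfs.continuous.locallyIntegrable
        (L₂.loc_test i (D s)).smooth.continuous.locallyIntegrable]
      simp only [LocSp.mol]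
      abel
    have hm1 : MemLp (fun x => fo (a i) (b i) (moll μ (c.bump n) (L₁.loc i s)) x -
          moll μ (c.bump n) (fo (a i) (b i) (L₁.loc i s)) x) 2 μ := by
      refine MemLp.sub ?_ ?_
      · exact (hab i).memLp (moll_contDiff _ hls.continuous.locallyIntegrable)
      · exact (moll_contDiff _ hfs.continuous.locallyIntegrable).continuous.memLp_of_hasCompactSupport
          (moll_hasCompactSupport _ hfc)
    have hzc : HasCompactSupport (fun y => fo (a i) (b i) (L₁.loc i s) y - L₂.loc i (D s) y) :=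
      hfc.sub (L₂.loc_test i (D s)).cpt
    have hm2 : MemLp (moll μ (c.bump n) (fun y => fo (a i) (b i) (L₁.loc i s) y -
        L₂.loc i (D s) y)) 2 μ :=
      (moll_contDiff _ hzs.continuous.locallyIntegrable).continuous.memLp_of_hasCompactSupport
          (moll_hasCompactSupport _ hzc)
    have hz2 : n2 μ (moll μ (c.bump n) (fun y => fo (a i) (b i) (L₁.loc i s) y -
        L₂.loc i (D s) y)) ≤ C' i * ‖s‖ := by
      refine le_trans ?_ (hC' i s)
      exact ENNReal.toReal_mono (hzs.continuous.memLp_of_hasCompactSupport hzc).2.ne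
        (eLpNorm_moll_le _ hzs.continuous.stronglyMeasurable)
    have hz1 := hC i (c.N + n) (L₁.loc i s) hls hlc
    have := hC0 i
    rw [e1]
    calc CE * n2 μ _ ≤ CE * (C i * (CL * ‖s‖) + C' i * ‖s‖) := by
          gcongr
          refine (n2_add_le hm1 hm2).trans (add_le_add (hz1.trans ?_) hz2)
          gcongr
          exact hCL i s
      _ = _ := by ring
  · have h1 : Tendsto (fun n => D (L₁.J n s)) atTop (𝓝 (D s)) := by
      have h2 : ∀ i, Tendsto (fun n => L₂.ext i (fo (a i) (b i) (L₁.mol n i s))) atTop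
          (𝓝 (L₂.ext i (fo (a i) (b i) (L₁.loc i s)))) := by
        intro i
        rw [tendsto_iff_norm_sub_tendsto_zero]
        obtain ⟨_, l2, l3⟩ := hfo i _ (L₁.loc_test i s) (hloc0 i s)
        have h3 : ∀ n, ‖L₂.ext i (fo (a i) (b i) (L₁.mol n i s)) -
            L₂.ext i (fo (a i) (b i) (L₁.loc i s))‖ ≤ CE * n2 μ (fun x =>
              fo (a i) (b i) (moll μ (c.bump n) (L₁.loc i s)) x - fo (a i) (b i) (L₁.loc i s) x) := by
          intro n
          obtain ⟨_, m2, m3⟩ := hfo i _ (L₁.mol_test n i s) (hmol0 n i s)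
          rw [← L₂.ext_sub m2 l2]
          exact hCE i _ (m2.sub l2) fun x hx => by rw [m3 x hx, l3 x hx, sub_zero]
        refine squeeze_zero (fun n => norm_nonneg _) h3 ?_
        simpa using ((hab i).tendsto_fo (μ := μ) c.tendsto_bump (L₁.loc_test i s).smooth
          (L₁.loc_test i s).cpt).const_mul CE
      have h4 := tendsto_finsetSum Finset.univ fun i _ => h2 i
      have h5 : ∑ i, L₂.ext i (fo (a i) (b i) (L₁.loc i s)) = D s := by
        rw [← L₁.sum_ext s, map_sum]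
        refine Finset.sum_congr rfl fun i _ => ?_
        rw [L₁.sum_ext s]
        exact ((hfo i _ (L₁.loc_test i s) (hloc0 i s)).1).symm
      rw [h5] at h4
      exact h4.congr fun n => (hDJ n s).symm
    have h2 := h1.sub (L₂.J_tendsto (D s))
    simpa using h2

end LocOp

end

end Vale.Agent.P299.H863
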