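import Vale.Agent.P299.H863.IdxAbs

/-! # The abstract index theorem on the image of an orthogonal projection -/

namespace Vale.Agent.P299.H863

open Filter Topology Module UniformSpace
open scoped InnerProductSpace

noncomputable section

variable {𝕜 S S₁ S₂ : Type*} [RCLike 𝕜] [NormedAddCommGroup S] [InnerProductSpace 𝕜 S]
  [NormedAddCommGroup S₁] [InnerProductSpace 𝕜 S₁]
  [NormedAddCommGroup S₂] [InnerProductSpace 𝕜 S₂]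

/-- the vectors fixed by `P` -/
def fixP (P : S →ₗ[𝕜] S) : Submodule 𝕜 S := LinearMap.eqLocus P LinearMap.id

theorem mem_fixP {P : S →ₗ[𝕜] S} {u : S} : u ∈ fixP P ↔ P u = u := Iff.rfl

/-- the kernel of `D` in the vectors fixed by `P` -/
def kerP (D : S₁ →ₗ[𝕜] S₂) (P : S₁ →ₗ[𝕜] S₁) : Submodule 𝕜 S₁ := LinearMap.ker D ⊓ fixP P

theorem mem_kerP {D : S₁ →ₗ[𝕜] S₂} {P : S₁ →ₗ[𝕜] S₁} {u : S₁} :
    u ∈ kerP D P ↔ D u = 0 ∧ P u = u := Iff.rfl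

variable (𝕜) in
/-- an orthogonal projection (not necessarily continuous a priori) -/
structure OProj (P : S →ₗ[𝕜] S) : Prop where
  idem : ∀ u, P (P u) = P u
  symm : ∀ u v, inner 𝕜 (P u) v = inner 𝕜 u (P v)

namespace OProj

theorem norm_le {P : S →ₗ[𝕜] S} (h : OProj 𝕜 P) (u : S) : ‖P u‖ ≤ ‖u‖ := by
  by_cases h0 : P u = 0
  · rw [h0, norm_zero]; positivity
  have hpos : 0 < ‖P u‖ := norm_pos_iff.2 h0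
  have h1 : ‖P u‖ * ‖P u‖ ≤ ‖u‖ * ‖P u‖ := by
    calc ‖P u‖ * ‖P u‖ = ‖inner 𝕜 (P u) (P u)‖ := by
          rw [inner_self_eq_norm_sq_to_K, norm_pow, RCLike.norm_ofReal, abs_norm, sq]
      _ = ‖inner 𝕜 u (P u)‖ := by rw [h.symm, h.idem]
      _ ≤ ‖u‖ * ‖P u‖ := norm_inner_le_norm _ _
  exact le_of_mul_le_mul_right h1 hpos

/-- the projection as a map to its image -/
def cod {P : S →ₗ[𝕜] S} (h : OProj 𝕜 P) : S →ₗ[𝕜] fixP P := P.codRestrict (fixP P) h.idem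

theorem coe_cod {P : S →ₗ[𝕜] S} (h : OProj 𝕜 P) (u : S) : (h.cod u : S) = P u := rfl

theorem cod_coe {P : S →ₗ[𝕜] S} (h : OProj 𝕜 P) (u : fixP P) : h.cod u = u :=
  Subtype.ext u.2

theorem inner_cod {P : S →ₗ[𝕜] S} (h : OProj 𝕜 P) (u : S) (v : fixP P) :
    inner 𝕜 (h.cod u) v = inner 𝕜 u (v : S) := by
  show inner 𝕜 (P u) (v : S) = _
  rw [h.symm, show P (v : S) = v from v.2]

theorem inner_cod' {P : S →ₗ[𝕜] S} (h : OProj 𝕜 P) (u : S) (v : fixP P) :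
    inner 𝕜 v (h.cod u) = inner 𝕜 (v : S) u := by
  rw [← inner_conj_symm, h.inner_cod, inner_conj_symm]

theorem tendsto {P : S →ₗ[𝕜] S} (h : OProj 𝕜 P) {w : ℕ → S} {s : S} (hw : Tendsto w atTop (𝓝 s)) :
    Tendsto (fun n => P (w n)) atTop (𝓝 (P s)) := by
  rw [tendsto_iff_norm_sub_tendsto_zero] at hw ⊢
  refine squeeze_zero (fun n => norm_nonneg _) (fun n => ?_) hw
  rw [← map_sub]; exact h.norm_le _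

theorem fix_of_tendsto {P : S →ₗ[𝕜] S} (h : OProj 𝕜 P) {w : ℕ → S} {s : S}
    (hw : Tendsto w atTop (𝓝 s)) (hf : ∀ n, P (w n) = w n) : P s = s :=
  tendsto_nhds_unique (h.tendsto hw) (by simpa only [hf] using hw)

/-- the smoothing operators on the image -/
def sm {P : S →ₗ[𝕜] S} (h : OProj 𝕜 P) (J : ℕ → S →ₗ[𝕜] S) (n : ℕ) : fixP P →ₗ[𝕜] fixP P :=
  h.cod ∘ₗ J n ∘ₗ (fixP P).subtype

theorem sm_apply {P : S →ₗ[𝕜] S} (h : OProj 𝕜 P) (J : ℕ → S →ₗ[𝕜] S) (n : ℕ) (u : fixP P) :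
    (h.sm J n u : S) = P (J n u) := rfl

theorem smoothing {P : S →ₗ[𝕜] S} (h : OProj 𝕜 P) {J : ℕ → S →ₗ[𝕜] S} (hJ : Smoothing 𝕜 J) :
    Smoothing 𝕜 (h.sm J) where
  bound := by
    obtain ⟨C, hC0, hC⟩ := hJ.bound
    exact ⟨C, hC0, fun n s => (h.norm_le _).trans (hC n s)⟩
  lim s := by
    rw [tendsto_subtype_rng]
    have h1 := h.tendsto (hJ.lim s)
    rw [show P (s : S) = s from s.2] at h1
    exact h1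
  adj n t := by
    obtain ⟨t', ht'⟩ := hJ.adj n t
    refine ⟨h.cod t', fun s => ?_⟩
    rw [h.inner_cod']
    show inner 𝕜 (h.cod (J n s)) t = _
    rw [h.inner_cod, ht']

end OProj

/-- the restriction of `D` to the fixed vectors -/
def resP {D : S₁ →ₗ[𝕜] S₂} {P₁ : S₁ →ₗ[𝕜] S₁} {P₂ : S₂ →ₗ[𝕜] S₂}
    (hD : ∀ u, D (P₁ u) = P₂ (D u)) : fixP P₁ →ₗ[𝕜] fixP P₂ :=
  D.restrict fun u hu => by rw [mem_fixP, ← hD, mem_fixP.1 hu]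

theorem coe_resP {D : S₁ →ₗ[𝕜] S₂} {P₁ : S₁ →ₗ[𝕜] S₁} {P₂ : S₂ →ₗ[𝕜] S₂}
    (hD : ∀ u, D (P₁ u) = P₂ (D u)) (u : fixP P₁) : (resP hD u : S₂) = D u := rfl

theorem SmoothingComm.res {D : S₁ →ₗ[𝕜] S₂} {J₁ : ℕ → S₁ →ₗ[𝕜] S₁} {J₂ : ℕ → S₂ →ₗ[𝕜] S₂}
    (h : SmoothingComm D J₁ J₂) {P₁ : S₁ →ₗ[𝕜] S₁} {P₂ : S₂ →ₗ[𝕜] S₂} (h₁ : OProj 𝕜 P₁)
    (h₂ : OProj 𝕜 P₂) (hD : ∀ u, D (P₁ u) = P₂ (D u)) :
    SmoothingComm (resP hD) (h₁.sm J₁) (h₂.sm J₂) where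
  bdd n := by
    obtain ⟨C, hC0, hC⟩ := h.bdd n
    refine ⟨C, hC0, fun s => ?_⟩
    show ‖D (P₁ (J₁ n s))‖ ≤ C * ‖(s : S₁)‖
    rw [hD]
    exact (h₂.norm_le _).trans (hC s)
  comm := by
    obtain ⟨C, hC0, hC⟩ := h.comm
    refine ⟨C, hC0, fun n s => ?_⟩
    show ‖D (P₁ (J₁ n s)) - P₂ (J₂ n (D s))‖ ≤ C * ‖(s : S₁)‖
    rw [hD, ← map_sub]
    exact (h₂.norm_le _).trans (hC n s)
  lim s := by
    rw [tendsto_subtype_rng]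
    have h1 := h₂.tendsto (h.lim s)
    rw [map_zero] at h1
    refine h1.congr fun n => ?_
    show P₂ (D (J₁ n s) - J₂ n (D s)) = D (P₁ (J₁ n s)) - P₂ (J₂ n (D s))
    rw [hD, ← map_sub]

theorem adj_comm {D : S₁ →ₗ[𝕜] S₂} {D' : S₂ →ₗ[𝕜] S₁}
    (hadj : ∀ u v, inner 𝕜 (D u) v = inner 𝕜 u (D' v)) {P₁ : S₁ →ₗ[𝕜] S₁} {P₂ : S₂ →ₗ[𝕜] S₂}
    (h₁ : OProj 𝕜 P₁) (h₂ : OProj 𝕜 P₂) (hD : ∀ u, D (P₁ u) = P₂ (D u)) (v : S₂) :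
    D' (P₂ v) = P₁ (D' v) := by
  refine ext_inner_left 𝕜 fun u => ?_
  rw [← hadj, ← h₂.symm, ← hD, hadj, ← h₁.symm]

/-- **The index theorem on the fixed vectors, strong kernels.** -/
theorem index_strongP {D : S₁ →ₗ[𝕜] S₂} {D' : S₂ →ₗ[𝕜] S₁}
    (hadj : ∀ u v, inner 𝕜 (D u) v = inner 𝕜 u (D' v)) {J₁ : ℕ → S₁ →ₗ[𝕜] S₁}
    {J₂ : ℕ → S₂ →ₗ[𝕜] S₂} (hJ₁ : Smoothing 𝕜 J₁) (hJ₂ : Smoothing 𝕜 J₂)
    (hc : SmoothingComm D' J₂ J₁)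
    {P₁ : S₁ →ₗ[𝕜] S₁} {P₂ : S₂ →ₗ[𝕜] S₂} (h₁ : OProj 𝕜 P₁) (h₂ : OProj 𝕜 P₂)
    (hD : ∀ u, D (P₁ u) = P₂ (D u))
    (hR : TotallyBounded {u : S₁ | P₁ u = u ∧ ‖u‖ ≤ 1 ∧ ‖D u‖ ≤ 1})
    (κ : S₁ →ₗ[𝕜] S₂) (κ' : S₂ →ₗ[𝕜] S₁) (hκ : ∃ C : ℝ, ∀ u, ‖κ u‖ ≤ C * ‖u‖)
    (hκadj : ∀ u v, inner 𝕜 (κ u) v = inner 𝕜 u (κ' v)) (hκP : ∀ u, κ (P₁ u) = P₂ (κ u))
    {m : ℝ} (hm : 0 < m)
    (hI : ∀ u, P₁ u = u → m * ‖u‖ ≤ ‖D u + κ u‖)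
    (hI' : ∀ v, P₂ v = v → m * ‖v‖ ≤ ‖D' v + κ' v‖) :
    ∃ (N₁ : Submodule 𝕜 (Completion (fixP P₁))) (N₂ : Submodule 𝕜 (Completion (fixP P₂))),
      (∀ x, x ∈ N₁ ↔ ∃ w : ℕ → fixP P₁, Tendsto (fun n => (w n : Completion (fixP P₁))) atTop (𝓝 x) ∧
        Tendsto (fun n => D (w n)) atTop (𝓝 0)) ∧
      (∀ x, x ∈ N₂ ↔ ∃ w : ℕ → fixP P₂, Tendsto (fun n => (w n : Completion (fixP P₂))) atTop (𝓝 x) ∧
        Tendsto (fun n => D' (w n)) atTop (𝓝 0)) ∧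
      FiniteDimensional 𝕜 N₁ ∧ FiniteDimensional 𝕜 N₂ ∧ finrank 𝕜 N₁ = finrank 𝕜 N₂ := by
  have hD' : ∀ v, D' (P₂ v) = P₁ (D' v) := adj_comm hadj h₁ h₂ hD
  have hκP' : ∀ v, κ' (P₂ v) = P₁ (κ' v) := adj_comm hκadj h₁ h₂ hκP
  obtain ⟨N₁, N₂, e1, e2, e3⟩ := index_strong (D := resP hD) (D' := resP hD')
    (fun u v => hadj u v) (h₁.smoothing hJ₁) (h₂.smoothing hJ₂) (hc.res h₂ h₁ hD')
    (by
      have h3 := totallyBounded_preimage (isUniformInducing_val (fixP P₁ : Set S₁)) hR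
      refine h3.subset ?_
      rintro u ⟨hu1, hu2⟩
      exact ⟨u.2, hu1, hu2⟩)
    (resP hκP) (resP hκP') (by
      obtain ⟨C, hC⟩ := hκ
      exact ⟨C, fun u => hC u⟩) (fun u v => hκadj u v) hm (fun u => hI u u.2) (fun v => hI' v v.2)
  refine ⟨N₁, N₂, fun x => ?_, fun x => ?_, e3⟩
  · rw [e1]
    refine exists_congr fun w => and_congr_right fun _ => ?_
    rw [tendsto_subtype_rng]; rfl
  · rw [e2]
    refine exists_congr fun w => and_congr_right fun _ => ?_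
    rw [tendsto_subtype_rng]; rfl

/-- the kernel of the restriction -/
def kerResEquiv {D : S₁ →ₗ[𝕜] S₂} {P₁ : S₁ →ₗ[𝕜] S₁} {P₂ : S₂ →ₗ[𝕜] S₂}
    (hD : ∀ u, D (P₁ u) = P₂ (D u)) : LinearMap.ker (resP hD) ≃ₗ[𝕜] kerP D P₁ :=
  (Submodule.equivMapOfInjective (fixP P₁).subtype (fixP P₁).injective_subtype _).trans
    (LinearEquiv.ofEq _ _ (by
      ext x
      constructor
      · rintro ⟨s, hs, rfl⟩
        exact ⟨congrArg Subtype.val hs, s.2⟩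
      · rintro ⟨h1, h2⟩
        exact ⟨⟨x, h2⟩, Subtype.ext h1, rfl⟩))

/-- **The index theorem on the fixed vectors.** -/
theorem index_absP {D : S₁ →ₗ[𝕜] S₂} {D' : S₂ →ₗ[𝕜] S₁}
    (hadj : ∀ u v, inner 𝕜 (D u) v = inner 𝕜 u (D' v)) {J₁ : ℕ → S₁ →ₗ[𝕜] S₁}
    {J₂ : ℕ → S₂ →ₗ[𝕜] S₂} (hJ₁ : Smoothing 𝕜 J₁) (hJ₂ : Smoothing 𝕜 J₂)
    (hc : SmoothingComm D' J₂ J₁)
    {P₁ : S₁ →ₗ[𝕜] S₁} {P₂ : S₂ →ₗ[𝕜] S₂} (h₁ : OProj 𝕜 P₁) (h₂ : OProj 𝕜 P₂)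
    (hD : ∀ u, D (P₁ u) = P₂ (D u))
    (hR : TotallyBounded {u : S₁ | P₁ u = u ∧ ‖u‖ ≤ 1 ∧ ‖D u‖ ≤ 1})
    (κ : S₁ →ₗ[𝕜] S₂) (κ' : S₂ →ₗ[𝕜] S₁) (hκ : ∃ C : ℝ, ∀ u, ‖κ u‖ ≤ C * ‖u‖)
    (hκadj : ∀ u v, inner 𝕜 (κ u) v = inner 𝕜 u (κ' v)) (hκP : ∀ u, κ (P₁ u) = P₂ (κ u))
    {m : ℝ} (hm : 0 < m)
    (hI : ∀ u, P₁ u = u → m * ‖u‖ ≤ ‖D u + κ u‖)
    (hI' : ∀ v, P₂ v = v → m * ‖v‖ ≤ ‖D' v + κ' v‖)
    (hreg : ∀ w : ℕ → S₁, (∀ n, P₁ (w n) = w n) → CauchySeq w →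
      Tendsto (fun n => D (w n)) atTop (𝓝 0) → ∃ s, Tendsto w atTop (𝓝 s))
    (hreg' : ∀ w : ℕ → S₂, (∀ n, P₂ (w n) = w n) → CauchySeq w →
      Tendsto (fun n => D' (w n)) atTop (𝓝 0) → ∃ s, Tendsto w atTop (𝓝 s)) :
    FiniteDimensional 𝕜 (kerP D P₁) ∧ FiniteDimensional 𝕜 (kerP D' P₂) ∧
      finrank 𝕜 (kerP D P₁) = finrank 𝕜 (kerP D' P₂) := by
  have hD' : ∀ v, D' (P₂ v) = P₁ (D' v) := adj_comm hadj h₁ h₂ hD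
  have hκP' : ∀ v, κ' (P₂ v) = P₁ (κ' v) := adj_comm hκadj h₁ h₂ hκP
  obtain ⟨f1, f2, f3⟩ := index_abs (D := resP hD) (D' := resP hD')
    (fun u v => hadj u v) (h₁.smoothing hJ₁) (h₂.smoothing hJ₂) (hc.res h₂ h₁ hD')
    (by
      have h3 := totallyBounded_preimage (isUniformInducing_val (fixP P₁ : Set S₁)) hR
      refine h3.subset ?_
      rintro u ⟨hu1, hu2⟩
      exact ⟨u.2, hu1, hu2⟩)
    (resP hκP) (resP hκP') (by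
      obtain ⟨C, hC⟩ := hκ
      exact ⟨C, fun u => hC u⟩) (fun u v => hκadj u v) hm (fun u => hI u u.2) (fun v => hI' v v.2)
    (fun w hw hDw => by
      obtain ⟨s, hs⟩ := hreg (fun n => w n) (fun n => (w n).2)
        ((isUniformInducing_val (fixP P₁ : Set S₁)).cauchy_map_iff.2 hw)
        ((tendsto_subtype_rng.1 hDw))
      exact ⟨⟨s, h₁.fix_of_tendsto hs fun n => (w n).2⟩, tendsto_subtype_rng.2 hs⟩)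
    (fun w hw hDw => by
      obtain ⟨s, hs⟩ := hreg' (fun n => w n) (fun n => (w n).2)
        ((isUniformInducing_val (fixP P₂ : Set S₂)).cauchy_map_iff.2 hw)
        ((tendsto_subtype_rng.1 hDw))
      exact ⟨⟨s, h₂.fix_of_tendsto hs fun n => (w n).2⟩, tendsto_subtype_rng.2 hs⟩)
  have g₁ := kerResEquiv hD
  have g₂ := kerResEquiv hD'
  refine ⟨Module.Finite.equiv g₁, Module.Finite.equiv g₂, ?_⟩
  rw [← g₁.finrank_eq, ← g₂.finrank_eq, f3]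

end

end Vale.Agent.P299.H863
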