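import Vale.Agent.P299.H835.IX.KzGlob
import Vale.Agent.P299.H585.Lift
import Vale.Agent.P299.H435.Avg.Pb
import Vale.Agent.P299.H954.IX.Glob
import Vale.Agent.P299.H863.IdxP

/-!
# P299, index theorem: the kernel count

If there are no nonzero `T`-invariant holomorphic sections of `(Ω¹)^{⊗p} ⊗ (-(1 + j k₀)K)` for
`1 ≤ j ≤ N`, `p ≤ n`, then the `T`-invariant kernel of `D' + δ` on the total bundle is spanned by the
tautological section of the block `S = ∅`.
-/

open scoped Manifold ContDiff ComplexOrder Topology Matrix Kronecker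
open Vale.Agent.P272.K Vale.Agent.P272.K.C2 Vale.Agent.P299.H863

noncomputable section

namespace Vale.Agent.P299.IX

open Fock Kz

section
variable {n N : ℕ} {Z : Type*} [TopologicalSpace Z] [ChartedSpace (Cm n) Z]
  [IsManifold 𝓘(ℂ, Cm n) ω Z] {w : D.FormM n Z} {hw : IsKahler w} {k0 : ℕ}

/-- the tautological section of the block `S = ∅`, in local functions -/
def uTf (n N : ℕ) (Z : Type*) [TopologicalSpace Z] : Chart n Z → Cm n → FI n × FI N → ℂ :=
  fun e z q => if q.2 = ∅ then uTop n Z e z q.1 else 0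

omit [ChartedSpace (Cm n) Z] [IsManifold 𝓘(ℂ, Cm n) ω Z] in
theorem blk_uTf_empty : Bun.blk (uTf n N Z) ∅ = uTop n Z := by
  funext e z I
  simp [Bun.blk, uTf]

omit [ChartedSpace (Cm n) Z] [IsManifold 𝓘(ℂ, Cm n) ω Z] in
theorem blk_uTf_of_ne {S : FI N} (hS : S ≠ ∅) : Bun.blk (uTf n N Z) S = fun _ _ => 0 := by
  funext e z I
  simp [Bun.blk, uTf, hS]

theorem isSec_uTf : (Btot (N := N) hw k0).IsSec (uTf n N Z) := by
  refine Bun.isSec_of_blk fun S => ?_
  rw [isSec_FB_iff]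
  rcases Finset.eq_empty_or_nonempty S with hS | hS
  · subst hS
    rw [blk_uTf_empty]
    simpa using (isSec_uTop (n := n) (Z := Z))
  · rw [blk_uTf_of_ne hS.ne_empty]
    exact ⟨fun _ _ _ _ => contDiffAt_const, fun _ _ _ _ _ => by simp⟩

variable (N hw k0) in
/-- the tautological section of the block `S = ∅` -/
def uT : (Btot (N := N) hw k0).S := Bun.mkS (uTf n N Z) isSec_uTf

theorem uT_at {e : Chart n Z} {x : Z} (hx : At e x) : (uT N hw k0).f e (e x) = uTf n N Z e (e x) :=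
  Bun.cut_at hx

theorem blk_uT_near {e : Chart n Z} {x : Z} (hx : At e x) (S : FI N) :
    Bun.blk (uT N hw k0).f S e =ᶠ[𝓝 (e x)] Bun.blk (uTf n N Z) S e := by
  filter_upwards [Bun.cut_near (u := uTf n N Z) hx] with z hz
  funext I
  show Bun.cut (uTf n N Z) e z (I, S) = _
  rw [hz]; rfl

theorem uT_ne_zero [Nonempty Z] : uT N hw k0 ≠ 0 := by
  intro h
  obtain ⟨x⟩ := ‹Nonempty Z›
  have hx : At (chartAt (Cm n) x) x := ⟨chart_mem_atlas _ x, mem_chart_source _ x⟩
  have h1 := uT_at (N := N) (hw := hw) (k0 := k0) hx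
  rw [h] at h1
  have h2 := congrFun h1 (Finset.univ, ∅)
  have h3 : (0 : ℂ) = 1 := by
    refine h2.trans ?_
    simp [uTf, uTop, ev]
  exact zero_ne_one h3

omit [ChartedSpace (Cm n) Z] [IsManifold 𝓘(ℂ, Cm n) ω Z] in
theorem DDX_congr {g h : Frm n Z} {e : Chart n Z} {z : Cm n} (k : ℕ)
    (H : g e =ᶠ[𝓝 z] h e) : DDX k w g e z = DDX k w h e z := by
  unfold DDX Dp De
  rw [H.self_of_nhds]
  congr 1
  · exact Finset.sum_congr rfl fun l _ => by rw [DV_congr H]
  · congr 1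
    exact Finset.sum_congr rfl fun l _ => by rw [DVb_congr H]

omit [ChartedSpace (Cm n) Z] [IsManifold 𝓘(ℂ, Cm n) ω Z] in
theorem DDX_zero (k : ℕ) (e : Chart n Z) (z : Cm n) : DDX k w (fun _ _ => 0) e z = 0 := by
  have h1 : ∀ l, DV l (fun _ : Cm n => (0 : FI n → ℂ)) z = 0 := by
    intro l; ext i; exact dz_const l 0
  have h2 : ∀ l, DVb l (fun _ : Cm n => (0 : FI n → ℂ)) z = 0 := by
    intro l; ext i; exact dzb_const l 0
  unfold DDX Dp De
  simp [h1, h2]

/-- the tautological section is in the kernel -/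
theorem DDX_uT {e : Chart n Z} {x : Z} (hx : At e x) (S : FI N) :
    DDX (1 + S.card * k0) w (Bun.blk (uT N hw k0).f S) e (e x) = 0 := by
  rw [DDX_congr _ (blk_uT_near hx S)]
  rcases Finset.eq_empty_or_nonempty S with hS | hS
  · subst hS
    rw [blk_uTf_empty]
    simpa using DDX_uTop (w := w) e (e x)
  · rw [blk_uTf_of_ne hS.ne_empty, DDX_zero]

end

section
variable {r n N : ℕ} {Z : Type} [TopologicalSpace Z] [ChartedSpace (Cm n) Z]
  [IsManifold 𝓘(ℂ, Cm n) ω Z] {w : D.FormM n Z} {hw : IsKahler w} {k0 : ℕ}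

/-- the lift of the torus action to the total bundle -/
abbrev Lt (T : D.TorusAct r n Z w) (hw : IsKahler w) (k0 N : ℕ) : Lift T (Btot (N := N) hw k0) :=
  Lift.sum fun S : FI N => liftFB T (1 + S.card * k0) hw

/-- the tautological section is invariant -/
theorem pb_uT (T : D.TorusAct r n Z w) (t : Fin r → ℝ) :
    (Lt T hw k0 N).pb t (uT N hw k0) = uT N hw k0 := by
  refine Bun.S.ext_f fun e x hx => ?_
  have hc : At (chartAt (Cm n) (T.a t x)) (T.a t x) := at_chartAt' _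
  rw [Lift.pb_at _ _ hx hc, uT_at hx, uT_at hc]
  funext ⟨I, S⟩
  rw [Lift.sum_mulVec]
  rcases Finset.eq_empty_or_nonempty S with hS | hS
  · subst hS
    have h1 : (fun J => uTf n N Z (chartAt (Cm n) (T.a t x))
        (chartAt (Cm n) (T.a t x) (T.a t x)) (J, ∅)) = uTop n Z (chartAt (Cm n) (T.a t x))
        (chartAt (Cm n) (T.a t x) (T.a t x)) := by
      funext J; simp [uTf]
    have h2 : uTf n N Z e (e x) (I, ∅) = uTop n Z e (e x) I := by simp [uTf]
    rw [h1, h2, (liftFB_iff T _ hw t hx hc _ _).2 _]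
    simpa using uTop_inv (Z := Z) (D.jacF (T.a t) e (chartAt (Cm n) (T.a t x)) x) e
      (chartAt (Cm n) (T.a t x)) (e x) (chartAt (Cm n) (T.a t x) (T.a t x))
  · have h1 : (fun J => uTf n N Z (chartAt (Cm n) (T.a t x))
        (chartAt (Cm n) (T.a t x) (T.a t x)) (J, S)) = 0 := by
      funext J; simp [uTf, hS.ne_empty]
    have h2 : uTf n N Z e (e x) (I, S) = 0 := by simp [uTf, hS.ne_empty]
    rw [h1, h2, Matrix.mulVec_zero, Pi.zero_apply]

variable [T2Space Z] [CompactSpace Z] [ConnectedSpace Z]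

/-- **the kernel count**: the `T`-invariant kernel is spanned by the tautological section -/
theorem ker_span (hric : D.RicNonneg w)
    (hten : ∀ p : ℕ, 1 ≤ p → ∀ s : D.Ten n p Z, D.IsTen p 0 s → ∀ e z I, At e z → s e (e z) I = 0)
    (T : D.TorusAct r n Z w)
    (hno : ∀ j, 1 ≤ j → j ≤ N → ∀ p ≤ n, ∀ s : D.Ten n p Z, D.IsTen p (1 + j * k0) s →
      (∀ t, D.TenInv (1 + j * k0) (T.a t) s) → ¬ D.TenNZ s)
    {u : (Btot (N := N) hw k0).S} (hker : ∀ e x, At e x → ∀ S : FI N,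
      DDX (1 + S.card * k0) w (Bun.blk u.f S) e (e x) = 0)
    (hinv : ∀ t, (Lt T hw k0 N).pb t u = u) : ∃ c : ℂ, u = c • uT N hw k0 := by
  have hsec : ∀ S : FI N, IsSec (1 + S.card * k0) (Bun.blk u.f S) := fun S =>
    isSec_FB_iff.1 (Bun.isSec_blk u.isSec S)
  -- the blocks `S ≠ ∅` vanish
  have hne : ∀ S : FI N, S ≠ ∅ → ∀ e x, At e x → Bun.blk u.f S e (e x) = 0 := by
    intro S hS e x hx
    have hdb : ∀ e x, At e x → ∀ b, DVb b (Bun.blk u.f S e) (e x) = 0 := fun e x hx b =>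
      dbar_eq_zero hw hric (hsec S) (fun e x hx => hker e x hx S) hx b
    refine eq_zero_of_ten_all fun p hp I => ?_
    by_contra hne
    refine hno S.card (Finset.card_pos.2 (Finset.nonempty_iff_ne_empty.2 hS))
      (by simpa using Finset.card_le_univ S) p hp _ (ten_hol (hsec S) hdb p) (fun t => ?_)
      ⟨e, x, I, hx, hne⟩
    refine tenInv_of_lift T _ hw t (fun e e' x hx hx' => ?_) p
    have h1 := (Lt T hw k0 N).pb_at u hx hx'
    rw [hinv t] at h1
    funext I
    have h2 := congrFun h1 (I, S)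
    rw [Lift.sum_mulVec] at h2
    exact h2.symm
  -- the block `S = ∅`
  obtain ⟨c, hc⟩ := ker_one_of hw
    (fun g hg h0 e x hx b => dbar_eq_zero hw hric hg h0 hx b) hten
    (u := Bun.blk u.f ∅) (by simpa using hsec ∅) (fun e x hx => by simpa using hker e x hx ∅)
  refine ⟨c, Bun.S.ext_f fun e x hx => ?_⟩
  rw [Bun.S.smul_f, Pi.smul_apply, Pi.smul_apply, uT_at hx]
  funext ⟨I, S⟩
  rw [Pi.smul_apply]
  by_cases hS : S = ∅
  · subst hS
    have h1 := congrFun (hc e x hx) I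
    rw [Bun.blk_apply] at h1
    rw [h1]
    simp [uTf, uTop]
  · have h1 := congrFun (hne S hS e x hx) I
    rw [Bun.blk_apply] at h1
    rw [h1]
    simp [uTf, hS]

/-- **(F4)** the end of the proof of the index theorem -/
theorem end_of (hric : D.RicNonneg w)
    (hten : ∀ p : ℕ, 1 ≤ p → ∀ s : D.Ten n p Z, D.IsTen p 0 s → ∀ e z I, At e z → s e (e z) I = 0)
    (T : D.TorusAct r n Z w)
    (DD : (Btot (N := N) hw k0).S →ₗ[ℂ] (Btot (N := N) hw k0).S)
    (hDD : ∀ s e x, At e x → ∀ S : FI N,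
      Bun.blk (DD s).f S e (e x) = DDX (1 + S.card * k0) w (Bun.blk s.f S) e (e x))
    (Q : (Btot (N := N) hw k0).S →ₗ[ℂ] (Btot (N := N) hw k0).S)
    (hQ : ∀ s e x, At e x →
      (Q s).f e (e x) = ((par : FM n) ⊗ₖ (par : FM N)) *ᵥ s.f e (e x))
    {P1 P2 : (Btot (N := N) hw k0).S →ₗ[ℂ] (Btot (N := N) hw k0).S}
    (h1 : ∀ u, P1 u = u ↔ (∀ t, (Lt T hw k0 N).pb t u = u) ∧ Q u = u)
    (h2 : ∀ u, P2 u = u ↔ (∀ t, (Lt T hw k0 N).pb t u = u) ∧ Q u = -u)
    (hfin : Module.finrank ℂ (kerP DD P1) = Module.finrank ℂ (kerP DD P2)) :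
    ∃ j, 1 ≤ j ∧ j ≤ N ∧ ∃ p ≤ n, ∃ s : D.Ten n p Z, D.IsTen p (1 + j * k0) s ∧ D.TenNZ s ∧
      ∀ t, D.TenInv (1 + j * k0) (T.a t) s := by
  by_contra hcon
  have hno : ∀ j, 1 ≤ j → j ≤ N → ∀ p ≤ n, ∀ s : D.Ten n p Z, D.IsTen p (1 + j * k0) s →
      (∀ t, D.TenInv (1 + j * k0) (T.a t) s) → ¬ D.TenNZ s := fun j hj hjN p hp s hs ht hnz =>
    hcon ⟨j, hj, hjN, p, hp, s, hs, hnz, ht⟩
  set U := uT N hw k0 with hU
  have hU0 : U ≠ 0 := uT_ne_zero
  -- every invariant kernel element is a multiple of `U`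
  have hspan : ∀ u, DD u = 0 → (∀ t, (Lt T hw k0 N).pb t u = u) → ∃ c : ℂ, u = c • U := by
    intro u hu hinv
    refine ker_span hric hten T hno (fun e x hx S => ?_) hinv
    rw [← hDD u e x hx S, hu]
    rfl
  have hDU : DD U = 0 := by
    refine Bun.S.ext_f fun e x hx => ?_
    funext ⟨I, S⟩
    have := congrFun (hDD U e x hx S) I
    rw [DDX_uT hx S] at this
    exact this
  have hinvU : ∀ t, (Lt T hw k0 N).pb t U = U := fun t => pb_uT T t
  have hQU : Q U = ((-1 : ℂ) ^ n) • U := by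
    refine Bun.S.ext_f fun e x hx => ?_
    rw [hQ U e x hx, Bun.S.smul_f, Pi.smul_apply, Pi.smul_apply, uT_at hx]
    funext ⟨I, S⟩
    have h3 : ((par : FM n) ⊗ₖ (par : FM N)) *ᵥ uTf n N Z e (e x) = fun q =>
        ((-1 : ℂ) ^ q.1.card * (-1) ^ q.2.card) * uTf n N Z e (e x) q := by
      unfold par dgl
      rw [Matrix.diagonal_kronecker_diagonal]
      funext q
      rw [Matrix.mulVec_diagonal]
    rw [h3, Pi.smul_apply, smul_eq_mul]
    by_cases hS : S = ∅
    · by_cases hI : I = Finset.univ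
      · subst hS hI
        simp
      · simp [uTf, uTop, ev, hI]
    · simp [uTf, hS]
  have hlt : ∀ (P : (Btot (N := N) hw k0).S →ₗ[ℂ] (Btot (N := N) hw k0).S) (c : ℂ),
      (∀ u, P u = u ↔ (∀ t, (Lt T hw k0 N).pb t u = u) ∧ Q u = c • u) →
      (c = (-1) ^ n → Module.finrank ℂ (kerP DD P) = 1) ∧
      (c ≠ (-1) ^ n → Module.finrank ℂ (kerP DD P) = 0) := by
    intro P c hP
    constructor
    · intro hc
      have : kerP DD P = ℂ ∙ U := by
        apply le_antisymm
        · intro u hu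
          obtain ⟨hu1, hu2⟩ := mem_kerP.1 hu
          obtain ⟨a, ha⟩ := hspan u hu1 ((hP u).1 hu2).1
          rw [ha]
          exact Submodule.smul_mem _ _ (Submodule.mem_span_singleton_self U)
        · rw [Submodule.span_singleton_le_iff_mem, mem_kerP]
          exact ⟨hDU, (hP U).2 ⟨hinvU, by rw [hQU, hc]⟩⟩
      rw [this, finrank_span_singleton hU0]
    · intro hc
      have : kerP DD P = ⊥ := by
        rw [Submodule.eq_bot_iff]
        intro u hu
        obtain ⟨hu1, hu2⟩ := mem_kerP.1 hu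
        obtain ⟨a, ha⟩ := hspan u hu1 ((hP u).1 hu2).1
        have h3 := ((hP u).1 hu2).2
        rw [ha, map_smul, hQU, smul_comm, ← sub_eq_zero, ← sub_smul, smul_comm] at h3
        rw [ha]
        rcases smul_eq_zero.1 h3 with h4 | h4
        · rw [h4, zero_smul]
        · rcases smul_eq_zero.1 h4 with h5 | h5
          · exact absurd (sub_eq_zero.1 h5).symm hc
          · exact absurd h5 hU0
      rw [this, finrank_bot]
  obtain ⟨a1, a2⟩ := hlt P1 1 (by simpa using h1)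
  obtain ⟨b1, b2⟩ := hlt P2 (-1) (by simpa using h2)
  rcases neg_one_pow_eq_or ℂ n with hn | hn
  · rw [a1 hn.symm, b2 (by rw [hn]; norm_num)] at hfin
    exact one_ne_zero hfin
  · rw [b1 hn.symm, a2 (by rw [hn]; norm_num)] at hfin
    exact zero_ne_one hfin

end

end Vale.Agent.P299.IX
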