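import Vale.Agent.P299.H863.Index
import Mathlib.Analysis.InnerProductSpace.Completion

/-! # Abstract Friedrichs lemma: weak solutions are strong solutions -/

namespace Vale.Agent.P299.H863

open Filter Topology Module UniformSpace
open scoped InnerProductSpace

noncomputable section

variable {𝕜 S₁ S₂ : Type*} [RCLike 𝕜] [NormedAddCommGroup S₁] [InnerProductSpace 𝕜 S₁]
  [NormedAddCommGroup S₂] [InnerProductSpace 𝕜 S₂]

/-- a family of smoothing operators on `S` -/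
structure Smoothing (𝕜 : Type*) {S : Type*} [RCLike 𝕜] [NormedAddCommGroup S]
    [InnerProductSpace 𝕜 S] (J : ℕ → S →ₗ[𝕜] S) : Prop where
  bound : ∃ C : ℝ, 0 ≤ C ∧ ∀ n s, ‖J n s‖ ≤ C * ‖s‖
  lim : ∀ s, Tendsto (fun n => J n s) atTop (𝓝 s)
  adj : ∀ n (t : S), ∃ t' : S, ∀ s, inner 𝕜 (J n s) t = inner 𝕜 s t'

/-- the commutator of `D` with smoothing operators -/
structure SmoothingComm (D : S₁ →ₗ[𝕜] S₂) (J₁ : ℕ → S₁ →ₗ[𝕜] S₁) (J₂ : ℕ → S₂ →ₗ[𝕜] S₂) :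
    Prop where
  bdd : ∀ n, ∃ C : ℝ, 0 ≤ C ∧ ∀ s, ‖D (J₁ n s)‖ ≤ C * ‖s‖
  comm : ∃ C : ℝ, 0 ≤ C ∧ ∀ n s, ‖D (J₁ n s) - J₂ n (D s)‖ ≤ C * ‖s‖
  lim : ∀ s, Tendsto (fun n => D (J₁ n s) - J₂ n (D s)) atTop (𝓝 0)

theorem Smoothing.adj_norm {S : Type*} [NormedAddCommGroup S] [InnerProductSpace 𝕜 S]
    {J : ℕ → S →ₗ[𝕜] S} {C : ℝ} (hC0 : 0 ≤ C) (hC : ∀ n s, ‖J n s‖ ≤ C * ‖s‖)
    {n : ℕ} {t t' : S} (h : ∀ s, inner 𝕜 (J n s) t = inner 𝕜 s t') : ‖t'‖ ≤ C * ‖t‖ := by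
  by_cases h0 : t' = 0
  · rw [h0, norm_zero]; positivity
  have hpos : 0 < ‖t'‖ := norm_pos_iff.2 h0
  have h1 : ‖t'‖ * ‖t'‖ ≤ C * ‖t'‖ * ‖t‖ := by
    calc ‖t'‖ * ‖t'‖ = ‖inner 𝕜 t' t'‖ := by
          rw [inner_self_eq_norm_sq_to_K, norm_pow, RCLike.norm_ofReal, abs_norm, sq]
      _ = ‖inner 𝕜 (J n t') t‖ := by rw [h]
      _ ≤ ‖J n t'‖ * ‖t‖ := norm_inner_le_norm _ _
      _ ≤ C * ‖t'‖ * ‖t‖ := by gcongr; exact hC _ _
  nlinarith

/-- the inner product with an element of the completion is the limit -/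
theorem norm_le_of_inner_le {H : Type*} [NormedAddCommGroup H] [InnerProductSpace 𝕜 H]
    {T : Set H} (hT : Dense T) {x : H} {M : ℝ} (hM : 0 ≤ M)
    (h : ∀ t ∈ T, ‖inner 𝕜 x t‖ ≤ M * ‖t‖) : ‖x‖ ≤ M := by
  have h1 : ∀ t : H, ‖inner 𝕜 x t‖ ≤ M * ‖t‖ := by
    intro t
    have hcl : IsClosed {t : H | ‖inner 𝕜 x t‖ ≤ M * ‖t‖} :=
      isClosed_le (by fun_prop) (by fun_prop)
    exact (closure_minimal h hcl) (hT t)
  have h2 := h1 x
  rw [inner_self_eq_norm_sq_to_K, norm_pow, RCLike.norm_ofReal, abs_norm, sq] at h2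
  by_cases h0 : ‖x‖ = 0
  · rw [h0]; exact hM
  · have hpos : 0 < ‖x‖ := lt_of_le_of_ne (norm_nonneg _) (Ne.symm h0)
    nlinarith

/-- **Abstract Friedrichs lemma.** `D'` is the formal adjoint of `D`, weak solutions of `D' v = f`
are strong solutions. -/
theorem weak_eq_strong {D : S₁ →ₗ[𝕜] S₂} {D' : S₂ →ₗ[𝕜] S₁}
    (hadj : ∀ u v, inner 𝕜 (D u) v = inner 𝕜 u (D' v)) {J₁ : ℕ → S₁ →ₗ[𝕜] S₁}
    {J₂ : ℕ → S₂ →ₗ[𝕜] S₂} (h₁ : Smoothing 𝕜 J₁) (h₂ : Smoothing 𝕜 J₂)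
    (hc : SmoothingComm D' J₂ J₁) (v : Completion S₂) (f : Completion S₁)
    (hw : ∀ u : S₁, inner 𝕜 ((D u : S₂) : Completion S₂) v = inner 𝕜 (u : Completion S₁) f)
    {ε : ℝ} (hε : 0 < ε) :
    ∃ w : S₂, ‖(w : Completion S₂) - v‖ ≤ ε ∧ ‖((D' w : S₁) : Completion S₁) - f‖ ≤ ε := by
  obtain ⟨C₁, hC₁0, hC₁⟩ := h₁.bound
  obtain ⟨C₂, hC₂0, hC₂⟩ := h₂.bound
  obtain ⟨C₃, hC₃0, hC₃⟩ := hc.comm
  set B : ℝ := C₁ + C₂ + C₃ + 2 with hB
  have hB0 : 0 < B := by positivity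
  set δ : ℝ := ε / (8 * B) with hδ
  have hδ0 : 0 < δ := by positivity
  have hδB : B * δ = ε / 8 := by rw [hδ]; field_simp
  -- approximations
  have hd₂ : DenseRange ((↑) : S₂ → Completion S₂) := Completion.denseRange_coe
  have hd₁ : DenseRange ((↑) : S₁ → Completion S₁) := Completion.denseRange_coe
  have happ₂ : ∀ η : ℝ, 0 < η → ∃ s : S₂, ‖(s : Completion S₂) - v‖ < η := by
    intro η hη
    obtain ⟨s, hs⟩ := hd₂.exists_dist_lt v hη
    exact ⟨s, by rwa [dist_comm, dist_eq_norm] at hs⟩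
  have happ₁ : ∀ η : ℝ, 0 < η → ∃ s : S₁, ‖(s : Completion S₁) - f‖ < η := by
    intro η hη
    obtain ⟨s, hs⟩ := hd₁.exists_dist_lt f hη
    exact ⟨s, by rwa [dist_comm, dist_eq_norm] at hs⟩
  obtain ⟨v₀, hv₀⟩ := happ₂ δ hδ0
  obtain ⟨f₀, hf₀⟩ := happ₁ δ hδ0
  -- the choice of `n`
  obtain ⟨n, hn1, hn2, hn3⟩ : ∃ n, ‖J₂ n v₀ - v₀‖ < δ ∧ ‖J₁ n f₀ - f₀‖ < δ ∧
      ‖D' (J₂ n v₀) - J₁ n (D' v₀)‖ < δ := by
    have e1 : ∀ᶠ n in atTop, ‖J₂ n v₀ - v₀‖ < δ := by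
      have := (h₂.lim v₀).eventually (Metric.ball_mem_nhds v₀ hδ0)
      exact this.mono fun n hn => by rwa [dist_eq_norm] at hn
    have e2 : ∀ᶠ n in atTop, ‖J₁ n f₀ - f₀‖ < δ := by
      have := (h₁.lim f₀).eventually (Metric.ball_mem_nhds f₀ hδ0)
      exact this.mono fun n hn => by rwa [dist_eq_norm] at hn
    have e3 : ∀ᶠ n in atTop, ‖D' (J₂ n v₀) - J₁ n (D' v₀)‖ < δ := by
      have := (hc.lim v₀).eventually (Metric.ball_mem_nhds 0 hδ0)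
      exact this.mono fun n hn => by rwa [dist_zero_right] at hn
    exact (e1.and (e2.and e3)).exists
  -- the choice of `v₁`
  obtain ⟨C₄, hC₄0, hC₄⟩ := hc.bdd n
  set η : ℝ := min δ (δ / (C₄ + C₃ + 1)) with hη
  have hη0 : 0 < η := lt_min hδ0 (by positivity)
  obtain ⟨v₁, hv₁⟩ := happ₂ (η / 2) (by positivity)
  have hη1 : η ≤ δ := min_le_left _ _
  have hη2 : (C₄ + C₃) * η ≤ δ := by
    have : η ≤ δ / (C₄ + C₃ + 1) := min_le_right _ _
    calc (C₄ + C₃) * η ≤ (C₄ + C₃ + 1) * (δ / (C₄ + C₃ + 1)) :=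
          mul_le_mul (by linarith) this hη0.le (by positivity)
      _ = δ := by field_simp
  have hv01 : ‖v₁ - v₀‖ ≤ 2 * δ := by
    rw [← Completion.norm_coe, Completion.coe_sub]
    calc ‖(v₁ : Completion S₂) - v₀‖ = ‖((v₁ : Completion S₂) - v) - ((v₀ : Completion S₂) - v)‖ := by
          congr 1; abel
      _ ≤ ‖(v₁ : Completion S₂) - v‖ + ‖(v₀ : Completion S₂) - v‖ := norm_sub_le _ _
      _ ≤ η / 2 + δ := add_le_add hv₁.le hv₀.le
      _ ≤ 2 * δ := by linarith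
  refine ⟨J₂ n v₁, ?_, ?_⟩
  · have h1 : ‖J₂ n v₁ - v₁‖ ≤ C₂ * (2 * δ) + δ + 2 * δ := by
      have : J₂ n v₁ - v₁ = J₂ n (v₁ - v₀) + (J₂ n v₀ - v₀) - (v₁ - v₀) := by
        rw [map_sub]; abel
      rw [this]
      refine (norm_sub_le _ _).trans (add_le_add ((norm_add_le _ _).trans (add_le_add ?_ hn1.le)) hv01)
      exact (hC₂ n _).trans (by gcongr)
    calc ‖(J₂ n v₁ : Completion S₂) - v‖
        = ‖((J₂ n v₁ - v₁ : S₂) : Completion S₂) + ((v₁ : Completion S₂) - v)‖ := by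
          rw [Completion.coe_sub]; congr 1; abel
      _ ≤ ‖J₂ n v₁ - v₁‖ + ‖(v₁ : Completion S₂) - v‖ := by
          refine (norm_add_le _ _).trans ?_
          rw [Completion.norm_coe]
      _ ≤ (C₂ * (2 * δ) + δ + 2 * δ) + η / 2 := add_le_add h1 hv₁.le
      _ ≤ ε := by nlinarith
  · -- duality
    refine norm_le_of_inner_le (𝕜 := 𝕜) (T := Set.range ((↑) : S₁ → Completion S₁)) hd₁ hε.le ?_
    rintro _ ⟨φ, rfl⟩
    obtain ⟨ψ, hψ⟩ := h₁.adj n φ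
    have hψn : ‖ψ‖ ≤ C₁ * ‖φ‖ := Smoothing.adj_norm hC₁0 hC₁ hψ
    -- the identity
    have key : inner 𝕜 (((D' (J₂ n v₁) : S₁) : Completion S₁) - f) (φ : Completion S₁) =
        inner 𝕜 (D' (J₂ n v₁) - J₁ n (D' v₁)) φ +
        (inner 𝕜 ((v₁ : Completion S₂) - v) ((D ψ : S₂) : Completion S₂) +
          (inner 𝕜 (f - (f₀ : Completion S₁)) ((ψ : Completion S₁) - φ) +
            inner 𝕜 (J₁ n f₀ - f₀) φ)) := by
      have e1 : inner 𝕜 (D' (J₂ n v₁) - J₁ n (D' v₁)) φ =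
          inner 𝕜 (D' (J₂ n v₁)) φ - inner 𝕜 (D' v₁) ψ := by
        rw [inner_sub_left, hψ]
      have e2 : inner 𝕜 (D' v₁) ψ = inner 𝕜 v₁ (D ψ) := by
        rw [← inner_conj_symm, ← hadj, inner_conj_symm]
      have e3 : inner 𝕜 v ((D ψ : S₂) : Completion S₂) = inner 𝕜 f (ψ : Completion S₁) := by
        rw [← inner_conj_symm, hw, inner_conj_symm]
      have e4 : inner 𝕜 (J₁ n f₀ - f₀) φ = inner 𝕜 f₀ ψ - inner 𝕜 f₀ φ := by
        rw [inner_sub_left, hψ]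
      rw [e1, e2, e4, inner_sub_left, inner_sub_left, inner_sub_left, inner_sub_right,
        inner_sub_right, e3]
      simp only [Completion.inner_coe]
      ring
    -- the second term
    have hterm2 : ‖inner 𝕜 ((v₁ : Completion S₂) - v) ((D ψ : S₂) : Completion S₂)‖
        ≤ ((C₄ + C₃) * η) * ‖φ‖ := by
      -- approximate `v` by `s`
      refine le_of_forall_pos_le_add fun κ hκ => ?_
      obtain ⟨s, hs⟩ := happ₂ (min (η / 2) (κ / (‖D ψ‖ + 1))) (lt_min (by positivity) (by positivity))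
      have hs1 : ‖(s : Completion S₂) - v‖ < η / 2 := hs.trans_le (min_le_left _ _)
      have hs2 : ‖(s : Completion S₂) - v‖ < κ / (‖D ψ‖ + 1) := hs.trans_le (min_le_right _ _)
      have hvs : ‖v₁ - s‖ ≤ η := by
        rw [← Completion.norm_coe, Completion.coe_sub]
        calc ‖(v₁ : Completion S₂) - s‖
            = ‖((v₁ : Completion S₂) - v) - ((s : Completion S₂) - v)‖ := by congr 1; abel
          _ ≤ ‖(v₁ : Completion S₂) - v‖ + ‖(s : Completion S₂) - v‖ := norm_sub_le _ _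
          _ ≤ η / 2 + η / 2 := add_le_add hv₁.le hs1.le
          _ = η := by ring
      have e1 : inner 𝕜 (v₁ - s) (D ψ) = inner 𝕜 (J₁ n (D' (v₁ - s))) φ := by
        rw [hψ, ← inner_conj_symm, hadj, inner_conj_symm]
      have e2 : ‖inner 𝕜 (v₁ - s) (D ψ)‖ ≤ ((C₄ + C₃) * η) * ‖φ‖ := by
        rw [e1]
        refine (norm_inner_le_norm _ _).trans ?_
        gcongr
        have e3 : J₁ n (D' (v₁ - s)) = D' (J₂ n (v₁ - s)) -
            (D' (J₂ n (v₁ - s)) - J₁ n (D' (v₁ - s))) := by abel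
        rw [e3]
        refine (norm_sub_le _ _).trans ?_
        calc _ ≤ C₄ * ‖v₁ - s‖ + C₃ * ‖v₁ - s‖ := add_le_add (hC₄ _) (hC₃ _ _)
          _ = (C₄ + C₃) * ‖v₁ - s‖ := by ring
          _ ≤ _ := by gcongr
      have e4 : (v₁ : Completion S₂) - v = ((v₁ - s : S₂) : Completion S₂) +
          ((s : Completion S₂) - v) := by rw [Completion.coe_sub]; abel
      rw [e4, inner_add_left, Completion.inner_coe]
      refine (norm_add_le _ _).trans (add_le_add e2 ?_)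
      refine (norm_inner_le_norm _ _).trans ?_
      rw [Completion.norm_coe]
      calc ‖(s : Completion S₂) - v‖ * ‖D ψ‖ ≤ κ / (‖D ψ‖ + 1) * (‖D ψ‖ + 1) := by
            gcongr; linarith
        _ = κ := by field_simp
    rw [key]
    have t1 : ‖inner 𝕜 (D' (J₂ n v₁) - J₁ n (D' v₁)) φ‖ ≤ (C₃ * (2 * δ) + δ) * ‖φ‖ := by
      refine (norm_inner_le_norm _ _).trans ?_
      gcongr
      have : D' (J₂ n v₁) - J₁ n (D' v₁) = (D' (J₂ n (v₁ - v₀)) - J₁ n (D' (v₁ - v₀))) +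
          (D' (J₂ n v₀) - J₁ n (D' v₀)) := by simp only [map_sub]; abel
      rw [this]
      refine (norm_add_le _ _).trans (add_le_add ((hC₃ n _).trans ?_) hn3.le)
      gcongr
    have t3 : ‖inner 𝕜 (f - (f₀ : Completion S₁)) ((ψ : Completion S₁) - φ)‖ ≤
        (δ * (C₁ + 1)) * ‖φ‖ := by
      refine (norm_inner_le_norm _ _).trans ?_
      have a1 : ‖f - (f₀ : Completion S₁)‖ ≤ δ := by rw [norm_sub_rev]; exact hf₀.le
      have a2 : ‖(ψ : Completion S₁) - φ‖ ≤ (C₁ + 1) * ‖φ‖ := by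
        rw [← Completion.coe_sub, Completion.norm_coe]
        refine (norm_sub_le _ _).trans ?_
        linarith
      calc _ ≤ δ * ((C₁ + 1) * ‖φ‖) := by gcongr
        _ = _ := by ring
    have t4 : ‖inner 𝕜 (J₁ n f₀ - f₀) φ‖ ≤ δ * ‖φ‖ := by
      refine (norm_inner_le_norm _ _).trans ?_
      gcongr
    refine (norm_add_le _ _).trans ((add_le_add t1 ((norm_add_le _ _).trans (add_le_add hterm2
      ((norm_add_le _ _).trans (add_le_add t3 t4))))).trans ?_)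
    have hfin : (C₃ * (2 * δ) + δ) + ((C₄ + C₃) * η + (δ * (C₁ + 1) + δ)) ≤ ε := by nlinarith
    calc _ = ((C₃ * (2 * δ) + δ) + ((C₄ + C₃) * η + (δ * (C₁ + 1) + δ))) * ‖φ‖ := by ring
      _ ≤ ε * ‖φ‖ := by gcongr
      _ = ε * ‖(φ : Completion S₁)‖ := by rw [Completion.norm_coe]

end

end Vale.Agent.P299.H863
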