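import Vale.Agent.P363.R.Sob.Mollify
import Vale.Agent.P363.R.Sob.S01

/-! # Friedrichs' commutator lemma for first order operators with smooth coefficients -/

namespace Vale.Agent.P299.H863

open MeasureTheory Filter Topology
open scoped ContDiff ENNReal
open Vale.Agent.P363.R.Sob

noncomputable section

variable {E : Type*} [NormedAddCommGroup E] [NormedSpace ℝ E] [FiniteDimensional ℝ E]
  [MeasurableSpace E] [BorelSpace E]
variable {V W : Type*} [NormedAddCommGroup V] [NormedSpace ℝ V]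
  [NormedAddCommGroup W] [NormedSpace ℝ W]
variable {μ : Measure E}

omit [NormedAddCommGroup E] [NormedSpace ℝ E] [FiniteDimensional ℝ E] [BorelSpace E] in
theorem lintegral_mul_sq_le {g h : E → ℝ≥0∞} (hg : AEMeasurable g μ) (hh : AEMeasurable h μ) :
    (∫⁻ z, g z * h z ∂μ) ^ (2 : ℝ) ≤ (∫⁻ z, g z ∂μ) * ∫⁻ z, g z * h z ^ (2 : ℝ) ∂μ := by
  have h1 := ENNReal.lintegral_mul_le_Lp_mul_Lq μ Real.HolderConjugate.two_two
    (f := fun z => g z ^ (1 / 2 : ℝ)) (g := fun z => g z ^ (1 / 2 : ℝ) * h z)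
    (hg.pow_const _) ((hg.pow_const _).mul hh)
  have e1 : ∀ z, ((fun z => g z ^ (1 / 2 : ℝ)) * (fun z => g z ^ (1 / 2 : ℝ) * h z)) z
      = g z * h z := by
    intro z
    simp only [Pi.mul_apply]
    rw [← mul_assoc, ← ENNReal.rpow_add_of_nonneg _ _ (by norm_num) (by norm_num)]
    norm_num
  have e2 : ∀ z, (g z ^ (1 / 2 : ℝ)) ^ (2 : ℝ) = g z := by
    intro z
    rw [← ENNReal.rpow_mul]; norm_num
  have e3 : ∀ z, (g z ^ (1 / 2 : ℝ) * h z) ^ (2 : ℝ) = g z * h z ^ (2 : ℝ) := by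
    intro z
    rw [ENNReal.mul_rpow_of_nonneg _ _ (by norm_num), e2]
  simp only [e1, e2, e3] at h1
  have h2 := ENNReal.rpow_le_rpow h1 (z := 2) (by norm_num)
  rw [ENNReal.mul_rpow_of_nonneg _ _ (by norm_num), ← ENNReal.rpow_mul, ← ENNReal.rpow_mul] at h2
  norm_num at h2
  simpa using h2

variable [μ.IsAddHaarMeasure]

/-- Young's inequality for kernel operators in `L²`. -/
theorem eLpNorm_kernel_le {k : E → E → V →L[ℝ] W} {g : E → ℝ≥0∞} (hg : Measurable g)
    (hk : ∀ x z, ‖k x z‖ₑ ≤ g z) {u : E → V} (hu : StronglyMeasurable u) :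
    eLpNorm (fun x => ∫ z, k x z (u (x - z)) ∂μ) 2 μ ≤ (∫⁻ z, g z ∂μ) * eLpNorm u 2 μ := by
  have h2 : (2 : ℝ≥0∞).toReal = 2 := by norm_num
  rw [eLpNorm_eq_lintegral_rpow_enorm_toReal (by norm_num) (by norm_num),
    eLpNorm_eq_lintegral_rpow_enorm_toReal (by norm_num) (by norm_num), h2]
  have hm : Measurable (fun q : E × E => ‖u (q.1 - q.2)‖ₑ) :=
    (hu.comp_measurable (measurable_fst.sub measurable_snd)).enorm
  have hpt : ∀ x, ‖∫ z, k x z (u (x - z)) ∂μ‖ₑ ≤ ∫⁻ z, g z * ‖u (x - z)‖ₑ ∂μ := by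
    intro x
    refine (enorm_integral_le_lintegral_enorm _).trans (lintegral_mono fun z => ?_)
    calc ‖k x z (u (x - z))‖ₑ ≤ ‖k x z‖ₑ * ‖u (x - z)‖ₑ := (k x z).le_opENorm _
      _ ≤ _ := by gcongr; exact hk x z
  have h3 : ∫⁻ x, ‖∫ z, k x z (u (x - z)) ∂μ‖ₑ ^ (2 : ℝ) ∂μ ≤
      (∫⁻ z, g z ∂μ) ^ (2 : ℝ) * ∫⁻ x, ‖u x‖ₑ ^ (2 : ℝ) ∂μ := by
    calc ∫⁻ x, ‖∫ z, k x z (u (x - z)) ∂μ‖ₑ ^ (2 : ℝ) ∂μ
        ≤ ∫⁻ x, (∫⁻ z, g z ∂μ) * ∫⁻ z, g z * ‖u (x - z)‖ₑ ^ (2 : ℝ) ∂μ ∂μ := by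
          refine lintegral_mono fun x => ?_
          refine (ENNReal.rpow_le_rpow (hpt x) (by norm_num)).trans ?_
          exact lintegral_mul_sq_le hg.aemeasurable
            (hm.comp (measurable_const.prodMk measurable_id)).aemeasurable
      _ = (∫⁻ z, g z ∂μ) * ∫⁻ x, ∫⁻ z, g z * ‖u (x - z)‖ₑ ^ (2 : ℝ) ∂μ ∂μ := by
          have hmm : Measurable (fun q : E × E => g q.2 * ‖u (q.1 - q.2)‖ₑ ^ (2 : ℝ)) :=
            (hg.comp measurable_snd).mul (hm.pow_const _)
          rw [lintegral_const_mul]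
          exact hmm.lintegral_prod_right'
      _ = (∫⁻ z, g z ∂μ) * ∫⁻ z, ∫⁻ x, g z * ‖u (x - z)‖ₑ ^ (2 : ℝ) ∂μ ∂μ := by
          rw [lintegral_lintegral_swap]
          exact ((hg.comp measurable_snd).mul (hm.pow_const _)).aemeasurable
      _ = (∫⁻ z, g z ∂μ) * ∫⁻ z, g z * ∫⁻ x, ‖u x‖ₑ ^ (2 : ℝ) ∂μ ∂μ := by
          congr 1
          refine lintegral_congr fun z => ?_
          rw [lintegral_const_mul]
          · congr 1
            exact lintegral_sub_right_eq_self (fun x => ‖u x‖ₑ ^ (2 : ℝ)) z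
          · exact (hm.comp (measurable_id.prodMk measurable_const)).pow_const _
      _ = (∫⁻ z, g z ∂μ) ^ (2 : ℝ) * ∫⁻ x, ‖u x‖ₑ ^ (2 : ℝ) ∂μ := by
          rw [lintegral_mul_const _ hg, ← mul_assoc]
          congr 1
          rw [ENNReal.rpow_two, sq]
  calc (∫⁻ x, ‖∫ z, k x z (u (x - z)) ∂μ‖ₑ ^ (2 : ℝ) ∂μ) ^ (1 / 2 : ℝ)
      ≤ ((∫⁻ z, g z ∂μ) ^ (2 : ℝ) * ∫⁻ x, ‖u x‖ₑ ^ (2 : ℝ) ∂μ) ^ (1 / 2 : ℝ) :=
        ENNReal.rpow_le_rpow h3 (by norm_num)
    _ = _ := by
        rw [ENNReal.mul_rpow_of_nonneg _ _ (by norm_num), ← ENNReal.rpow_mul]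
        norm_num

/-! ### scaling of the standard mollifiers -/

omit [MeasurableSpace E] [BorelSpace E] in
theorem stdBump_scale (n : ℕ) (t : E) :
    (stdBump n : ContDiffBump (0 : E)) t = (stdBump 0 : ContDiffBump (0 : E)) (((n : ℝ) + 1) • t) := by
  have hn : (0 : ℝ) < (n : ℝ) + 1 := by positivity
  rw [ContDiffBump.apply, ContDiffBump.apply]
  have e1 : (stdBump n : ContDiffBump (0 : E)).rOut / (stdBump n : ContDiffBump (0 : E)).rIn = 2 := by
    show (1 / ((n : ℝ) + 1)) / (1 / (2 * ((n : ℝ) + 1))) = 2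
    field_simp
  have e2 : (stdBump 0 : ContDiffBump (0 : E)).rOut / (stdBump 0 : ContDiffBump (0 : E)).rIn = 2 := by
    show (1 / (((0 : ℕ) : ℝ) + 1)) / (1 / (2 * (((0 : ℕ) : ℝ) + 1))) = 2
    norm_num
  rw [e1, e2]
  congr 1
  show (1 / (2 * ((n : ℝ) + 1)))⁻¹ • (t - 0) = (1 / (2 * (((0 : ℕ) : ℝ) + 1)))⁻¹ • (((n : ℝ) + 1) • t - 0)
  rw [sub_zero, sub_zero, smul_smul]
  congr 1
  norm_num

theorem normed_stdBump_scale (n : ℕ) (t : E) :
    (stdBump n : ContDiffBump (0 : E)).normed μ t = ((n : ℝ) + 1) ^ Module.finrank ℝ E *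
      (stdBump 0 : ContDiffBump (0 : E)).normed μ (((n : ℝ) + 1) • t) := by
  have hn : (0 : ℝ) < (n : ℝ) + 1 := by positivity
  have h1 : ∫ x, (stdBump n : ContDiffBump (0 : E)) x ∂μ = (((n : ℝ) + 1) ^ Module.finrank ℝ E)⁻¹ *
      ∫ x, (stdBump 0 : ContDiffBump (0 : E)) x ∂μ := by
    simp only [stdBump_scale n]
    rw [Measure.integral_comp_smul_of_nonneg μ (fun x => (stdBump 0 : ContDiffBump (0 : E)) x) _
      (hR := hn.le)]
    rfl
  rw [ContDiffBump.normed_def, ContDiffBump.normed_def, h1, stdBump_scale]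
  have h2 : (0 : ℝ) < ∫ x, (stdBump 0 : ContDiffBump (0 : E)) x ∂μ := ContDiffBump.integral_pos _
  field_simp

/-- the derivative of the normalised bump -/
theorem fderiv_normed_scale (n : ℕ) (t : E) :
    fderiv ℝ ((stdBump n : ContDiffBump (0 : E)).normed μ) t =
      (((n : ℝ) + 1) ^ Module.finrank ℝ E * ((n : ℝ) + 1)) •
      fderiv ℝ ((stdBump 0 : ContDiffBump (0 : E)).normed μ) (((n : ℝ) + 1) • t) := by
  have h0 : (stdBump n : ContDiffBump (0 : E)).normed μ = fun t => ((n : ℝ) + 1) ^ Module.finrank ℝ E *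
      (stdBump 0 : ContDiffBump (0 : E)).normed μ (((n : ℝ) + 1) • t) := by
    funext t; exact normed_stdBump_scale n t
  rw [h0]
  have hd : HasFDerivAt ((stdBump 0 : ContDiffBump (0 : E)).normed μ)
      (fderiv ℝ ((stdBump 0 : ContDiffBump (0 : E)).normed μ) (((n : ℝ) + 1) • t))
      (((n : ℝ) + 1) • t) :=
    (((stdBump 0 : ContDiffBump (0 : E)).contDiff_normed (n := 1)).differentiable (by simp) _).hasFDerivAt
  have h1 := (hd.comp t ((hasFDerivAt_id t).const_smul ((n : ℝ) + 1))).const_mul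
    (((n : ℝ) + 1) ^ Module.finrank ℝ E)
  have h2 := h1.fderiv
  simp only [Function.comp_def] at h2
  rw [h2]
  ext w
  simp [mul_assoc]

/-- the constant in Friedrichs' lemma -/
def frC (μ : Measure E) : ℝ≥0∞ :=
  ∫⁻ t, ENNReal.ofReal (‖t‖ * ‖fderiv ℝ ((stdBump 0 : ContDiffBump (0 : E)).normed μ) t‖) ∂μ

theorem continuous_fr (n : ℕ) : Continuous (fun t : E =>
    ‖t‖ * ‖fderiv ℝ ((stdBump n : ContDiffBump (0 : E)).normed μ) t‖) :=
  continuous_norm.mul (((stdBump n : ContDiffBump (0 : E)).contDiff_normed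
    (n := 1)).continuous_fderiv (by simp)).norm

theorem integrable_fr (n : ℕ) : Integrable (fun t : E =>
    ‖t‖ * ‖fderiv ℝ ((stdBump n : ContDiffBump (0 : E)).normed μ) t‖) μ := by
  refine (continuous_fr n).integrable_of_hasCompactSupport ?_
  exact ((((stdBump n : ContDiffBump (0 : E)).hasCompactSupport_normed (μ := μ)).fderiv ℝ).norm).mul_left

theorem frC_ne_top : frC μ ≠ ⊤ := by
  have h := (integrable_fr (μ := μ) 0).2
  rw [hasFiniteIntegral_iff_ofReal (Eventually.of_forall fun t => by positivity)] at h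
  exact h.ne

theorem lintegral_fr (n : ℕ) :
    ∫⁻ t, ENNReal.ofReal (‖t‖ * ‖fderiv ℝ ((stdBump n : ContDiffBump (0 : E)).normed μ) t‖) ∂μ
      = frC μ := by
  have hn : (0 : ℝ) < (n : ℝ) + 1 := by positivity
  rw [frC, ← ofReal_integral_eq_lintegral_ofReal (integrable_fr n)
      (Eventually.of_forall fun t => by positivity),
    ← ofReal_integral_eq_lintegral_ofReal (integrable_fr 0)
      (Eventually.of_forall fun t => by positivity)]
  congr 1
  set F : E → ℝ := fun s => ‖s‖ *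
    ‖fderiv ℝ ((stdBump 0 : ContDiffBump (0 : E)).normed μ) s‖ with hF
  have e : (fun t : E => ‖t‖ * ‖fderiv ℝ ((stdBump n : ContDiffBump (0 : E)).normed μ) t‖) =
      fun t => ((n : ℝ) + 1) ^ Module.finrank ℝ E * F (((n : ℝ) + 1) • t) := by
    funext t
    simp only [hF]
    rw [fderiv_normed_scale, norm_smul, norm_smul, Real.norm_of_nonneg (by positivity),
      Real.norm_of_nonneg hn.le]
    ring
  rw [e, integral_const_mul, Measure.integral_comp_smul_of_nonneg μ F _ (hR := hn.le), smul_eq_mul]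
  field_simp

/-! ### the commutator -/

variable [CompleteSpace V] [CompleteSpace W]

/-- the kernel of the commutator of `a D_v` with the mollification -/
def commK (μ : Measure E) (a : E → V →L[ℝ] W) (v : E) (n : ℕ) (x z : E) : V →L[ℝ] W :=
  (fderiv ℝ ((stdBump n : ContDiffBump (0 : E)).normed μ) z v) • (a x - a (x - z)) +
    (stdBump n : ContDiffBump (0 : E)).normed μ z • (fderiv ℝ a (x - z) v)

theorem comm_eq {a : E → V →L[ℝ] W} (ha : ContDiff ℝ ∞ a) {u : E → V} (hu : ContDiff ℝ ∞ u)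
    (v : E) (n : ℕ) (x : E) :
    a x (fderiv ℝ (moll μ (stdBump n) u) x v) -
      moll μ (stdBump n) (fun y => a y (fderiv ℝ u y v)) x
      = ∫ z, commK μ a v n x z (u (x - z)) ∂μ := by
  set ρ := (stdBump n : ContDiffBump (0 : E)).normed μ with hρ
  have hρt : Test ρ := ⟨(stdBump n : ContDiffBump (0 : E)).contDiff_normed,
    (stdBump n : ContDiffBump (0 : E)).hasCompactSupport_normed⟩
  have hud : ContDiff ℝ ∞ (fun y => fderiv ℝ u y v) :=
    (hu.fderiv_right (m := ∞) (by simp)).clm_apply contDiff_const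
  have had : ContDiff ℝ ∞ (fun y => fderiv ℝ a y v) :=
    (ha.fderiv_right (m := ∞) (by simp)).clm_apply contDiff_const
  have hwd : IsWD μ v u (fun y => fderiv ℝ u y v) :=
    isWD_of_differentiable hu.continuous
      (fun x => ((hu.differentiable (by simp)) x).hasFDerivAt.hasLineDerivAt v)
      hud.continuous.locallyIntegrable
  rw [fderiv_moll _ hwd hu.continuous.locallyIntegrable, moll_apply, moll_apply]
  have hsub : ContDiff ℝ ∞ (fun z : E => x - z) := contDiff_const.sub contDiff_id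
  have i1 : Integrable (fun t => ρ t • fderiv ℝ u (x - t) v) μ :=
    hρt.integrable_smul (hud.comp hsub).continuous.locallyIntegrable
  rw [← (a x).integral_comp_comm i1]
  simp only [map_smul]
  have hax : ContDiff ℝ ∞ (fun z => (a x - a (x - z))) := contDiff_const.sub (ha.comp hsub)
  have i2 : Integrable (fun t => ρ t • (a x) (fderiv ℝ u (x - t) v)) μ :=
    hρt.integrable_smul ((contDiff_const.clm_apply (hud.comp hsub)).continuous.locallyIntegrable)
  have i3 : Integrable (fun t => ρ t • (a (x - t)) (fderiv ℝ u (x - t) v)) μ :=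
    hρt.integrable_smul (((ha.comp hsub).clm_apply (hud.comp hsub)).continuous.locallyIntegrable)
  rw [← integral_sub i2 i3]
  -- the function `g`
  set g : E → W := fun z => (a x - a (x - z)) (u (x - z)) with hg
  have hgc : ContDiff ℝ ∞ g := hax.clm_apply (hu.comp hsub)
  have hgd : ∀ z, HasLineDerivAt ℝ g ((fderiv ℝ a (x - z) v) (u (x - z)) -
      (a x - a (x - z)) (fderiv ℝ u (x - z) v)) z v := by
    intro z
    have h1 : HasFDerivAt (fun z : E => x - z) (-ContinuousLinearMap.id ℝ E) z := by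
      have h0 := (hasFDerivAt_const (𝕜 := ℝ) x z).sub (hasFDerivAt_id (𝕜 := ℝ) z)
      rw [zero_sub] at h0
      exact h0
    have h2 : HasFDerivAt (fun z => a x - a (x - z)) (-((fderiv ℝ a (x - z)).comp
        (-ContinuousLinearMap.id ℝ E))) z := by
      have h3 := (((ha.differentiable (by simp)) (x - z)).hasFDerivAt).comp z h1
      have h6 := (hasFDerivAt_const (a x) z).sub h3
      rw [zero_sub] at h6
      exact h6
    have h4 : HasFDerivAt (fun z => u (x - z)) ((fderiv ℝ u (x - z)).comp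
        (-ContinuousLinearMap.id ℝ E)) z :=
      (((hu.differentiable (by simp)) (x - z)).hasFDerivAt).comp z h1
    have h5 := (h2.clm_apply h4).hasLineDerivAt v
    convert h5 using 1
    simp
    abel
  have hgwd : IsWD μ v g (fun z => (fderiv ℝ a (x - z) v) (u (x - z)) -
      (a x - a (x - z)) (fderiv ℝ u (x - z) v)) := by
    refine isWD_of_differentiable hgc.continuous hgd ?_
    exact ((((had.comp hsub).clm_apply (hu.comp hsub)).sub
      (hax.clm_apply (hud.comp hsub))).continuous).locallyIntegrable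
  have key := hgwd ρ hρt
  simp only [smul_sub] at key
  have i4 : Integrable (fun t => ρ t • (fderiv ℝ a (x - t) v) (u (x - t))) μ :=
    hρt.integrable_smul (((had.comp hsub).clm_apply (hu.comp hsub)).continuous.locallyIntegrable)
  have i5 : Integrable (fun t => ρ t • (a x - a (x - t)) (fderiv ℝ u (x - t) v)) μ :=
    hρt.integrable_smul ((hax.clm_apply (hud.comp hsub)).continuous.locallyIntegrable)
  have i6 : Integrable (fun t => (fderiv ℝ ρ t v) • g t) μ :=
    (hρt.fderiv v).integrable_smul hgc.continuous.locallyIntegrable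
  rw [integral_sub i4 i5] at key
  have e1 : ∀ t, ρ t • (a x) (fderiv ℝ u (x - t) v) - ρ t • (a (x - t)) (fderiv ℝ u (x - t) v)
      = ρ t • (a x - a (x - t)) (fderiv ℝ u (x - t) v) := by
    intro t
    rw [← smul_sub, sub_apply]
  have e2 : ∀ t, commK μ a v n x t (u (x - t)) = (fderiv ℝ ρ t v) • g t +
      ρ t • (fderiv ℝ a (x - t) v) (u (x - t)) := by
    intro t
    simp only [commK, hg, add_apply, smul_apply]
    rfl
  simp only [e1, e2]
  rw [integral_add i6 i4, key]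
  abel

/-- **Friedrichs' commutator estimate** for `a D_v`. -/
theorem comm_bound {a : E → V →L[ℝ] W} (ha : ContDiff ℝ ∞ a) {L : NNReal} (hL : LipschitzWith L a)
    {u : E → V} (hu : ContDiff ℝ ∞ u) (v : E) (n : ℕ) :
    eLpNorm (fun x => a x (fderiv ℝ (moll μ (stdBump n) u) x v) -
      moll μ (stdBump n) (fun y => a y (fderiv ℝ u y v)) x) 2 μ ≤
      (L * ‖v‖ₑ * (frC μ + 1)) * eLpNorm u 2 μ := by
  have h0 : (fun x => a x (fderiv ℝ (moll μ (stdBump n) u) x v) -
      moll μ (stdBump n) (fun y => a y (fderiv ℝ u y v)) x) =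
      fun x => ∫ z, commK μ a v n x z (u (x - z)) ∂μ := by
    funext x; exact comm_eq ha hu v n x
  rw [h0]
  set ρ := (stdBump n : ContDiffBump (0 : E)).normed μ with hρ
  set g : E → ℝ≥0∞ := fun z => L * ‖v‖ₑ * (ENNReal.ofReal (‖z‖ * ‖fderiv ℝ ρ z‖) +
    ENNReal.ofReal (ρ z)) with hg
  have hgm : Measurable g := by
    have h1 : Measurable (fun z => ENNReal.ofReal (‖z‖ * ‖fderiv ℝ ρ z‖)) :=
      (continuous_fr n).measurable.ennreal_ofReal
    have h2 : Measurable (fun z => ENNReal.ofReal (ρ z)) :=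
      ((stdBump n : ContDiffBump (0 : E)).continuous_normed).measurable.ennreal_ofReal
    exact (h1.add h2).const_mul _
  have hk : ∀ x z, ‖commK μ a v n x z‖ₑ ≤ g z := by
    intro x z
    have hρ0 : 0 ≤ ρ z := (stdBump n : ContDiffBump (0 : E)).nonneg_normed z
    have h1 : ‖commK μ a v n x z‖ ≤ L * ‖v‖ * (‖z‖ * ‖fderiv ℝ ρ z‖ + ρ z) := by
      have h2 : ‖a x - a (x - z)‖ ≤ L * ‖z‖ := by
        have := hL.dist_le_mul x (x - z)
        rwa [dist_eq_norm, dist_eq_norm, sub_sub_cancel] at this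
      have h3 : ‖fderiv ℝ a (x - z) v‖ ≤ L * ‖v‖ :=
        ((fderiv ℝ a (x - z)).le_opNorm v).trans (by
          gcongr; exact norm_fderiv_le_of_lipschitz ℝ hL)
      calc ‖commK μ a v n x z‖ ≤ ‖(fderiv ℝ ρ z v) • (a x - a (x - z))‖ +
            ‖ρ z • (fderiv ℝ a (x - z) v)‖ := norm_add_le _ _
        _ ≤ (‖fderiv ℝ ρ z‖ * ‖v‖) * (L * ‖z‖) + ρ z * (L * ‖v‖) := by
            rw [norm_smul, norm_smul, Real.norm_of_nonneg hρ0]
            gcongr
            exact (fderiv ℝ ρ z).le_opNorm v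
        _ = _ := by ring
    calc ‖commK μ a v n x z‖ₑ = ENNReal.ofReal ‖commK μ a v n x z‖ := (ofReal_norm _).symm
      _ ≤ ENNReal.ofReal (L * ‖v‖ * (‖z‖ * ‖fderiv ℝ ρ z‖ + ρ z)) := ENNReal.ofReal_le_ofReal h1
      _ = g z := by
        rw [hg]
        simp only
        rw [ENNReal.ofReal_mul (by positivity), ENNReal.ofReal_mul (by positivity),
          ENNReal.ofReal_add (by positivity) hρ0, ofReal_norm, ENNReal.ofReal_coe_nnreal]
  refine (eLpNorm_kernel_le hgm hk hu.continuous.stronglyMeasurable).trans (le_of_eq ?_)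
  congr 1
  have hm2 : Measurable (fun z : E => ENNReal.ofReal (‖z‖ * ‖fderiv ℝ ρ z‖) +
      ENNReal.ofReal (ρ z)) :=
    ((continuous_fr n).measurable.ennreal_ofReal).add
    ((stdBump n : ContDiffBump (0 : E)).continuous_normed).measurable.ennreal_ofReal
  rw [hg, lintegral_const_mul _ hm2,
    lintegral_add_left ((continuous_fr n).measurable.ennreal_ofReal), lintegral_fr]
  congr 2
  rw [← ofReal_integral_eq_lintegral_ofReal (stdBump n : ContDiffBump (0 : E)).integrable_normed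
        (Eventually.of_forall fun x => (stdBump n : ContDiffBump (0 : E)).nonneg_normed x),
    (stdBump n : ContDiffBump (0 : E)).integral_normed, ENNReal.ofReal_one]

end

end Vale.Agent.P299.H863
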