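import Vale.Agent.P299.H863.LocJ

/-! # First order operators and mollification -/

namespace Vale.Agent.P299.H863

open MeasureTheory Filter Topology
open scoped ContDiff ENNReal
open Vale.Agent.P363.R.Sob

set_option linter.unusedSectionVars false

noncomputable section

variable {E : Type*} [NormedAddCommGroup E] [NormedSpace ℝ E] [FiniteDimensional ℝ E]
  [MeasurableSpace E] [BorelSpace E] {μ : Measure E} [μ.IsAddHaarMeasure]
variable {V W : Type*} [NormedAddCommGroup V] [NormedSpace ℝ V] [CompleteSpace V]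
  [NormedAddCommGroup W] [NormedSpace ℝ W] [CompleteSpace W]

/-- the first order operator `u ↦ a(x)(Du(x)) + b(x) u(x)` -/
def fo (a : E → (E →L[ℝ] V) →L[ℝ] W) (b : E → V →L[ℝ] W) (u : E → V) (x : E) : W :=
  a x (fderiv ℝ u x) + b x (u x)

theorem fo_add (a : E → (E →L[ℝ] V) →L[ℝ] W) (b : E → V →L[ℝ] W) {u v : E → V}
    (hu : Differentiable ℝ u) (hv : Differentiable ℝ v) :
    fo a b (fun x => u x + v x) = fun x => fo a b u x + fo a b v x := by
  funext x
  simp only [fo]
  rw [show (fun x => u x + v x) = u + v from rfl, fderiv_add (hu x) (hv x)]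
  simp only [map_add]
  abel

theorem fo_sub (a : E → (E →L[ℝ] V) →L[ℝ] W) (b : E → V →L[ℝ] W) {u v : E → V}
    (hu : Differentiable ℝ u) (hv : Differentiable ℝ v) :
    fo a b (fun x => u x - v x) = fun x => fo a b u x - fo a b v x := by
  funext x
  simp only [fo]
  rw [show (fun x => u x - v x) = u - v from rfl, fderiv_sub (hu x) (hv x)]
  simp only [map_sub]
  abel

theorem fo_test {Ω : Set E} (hΩ : IsOpen Ω) {a : E → (E →L[ℝ] V) →L[ℝ] W} {b : E → V →L[ℝ] W}
    (ha : ContDiffOn ℝ ∞ a Ω) (hb : ContDiffOn ℝ ∞ b Ω) {u : E → V} (hu : TestV Ω u) :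
    TestV Ω (fo a b u) := by
  refine TestV.mk' hΩ hu.cpt hu.supp ?_ fun x hx => ?_
  · have hf : ContDiff ℝ ∞ (fderiv ℝ u) := hu.smooth.fderiv_right (by simp)
    exact (ha.clm_apply hf.contDiffOn).add (hb.clm_apply hu.smooth.contDiffOn)
  · simp only [fo]
    rw [hu.zero_off hx, map_zero, image_eq_zero_of_notMem_tsupport
      (fun h => hx (tsupport_fderiv_subset ℝ h)), map_zero, add_zero]

/-- locality -/
theorem fo_congr {a a' : E → (E →L[ℝ] V) →L[ℝ] W} {b b' : E → V →L[ℝ] W} {u u' : E → V} {x : E}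
    (ha : a x = a' x) (hb : b x = b' x) (hu : u =ᶠ[𝓝 x] u') : fo a b u x = fo a' b' u' x := by
  simp only [fo]
  rw [ha, hb, hu.fderiv_eq, hu.self_of_nhds]

theorem norm_fo_le {a : E → (E →L[ℝ] V) →L[ℝ] W} {b : E → V →L[ℝ] W} {C : ℝ}
    {u : E → V} {x : E} (ha : ‖a x‖ ≤ C) (hb : ‖b x‖ ≤ C) :
    ‖fo a b u x‖ ≤ C * (‖fderiv ℝ u x‖ + ‖u x‖) := by
  have hC : 0 ≤ C := (norm_nonneg (a x)).trans ha
  calc ‖fo a b u x‖ ≤ ‖a x (fderiv ℝ u x)‖ + ‖b x (u x)‖ := norm_add_le _ _
    _ ≤ C * ‖fderiv ℝ u x‖ + C * ‖u x‖ := by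
        refine add_le_add (((a x).le_opNorm _).trans ?_) (((b x).le_opNorm _).trans ?_)
        · gcongr
        · gcongr
    _ = _ := by ring

/-- the derivative of the mollification -/
theorem fderiv_moll' (ρ : ContDiffBump (0 : E)) {u : E → V} (hu : ContDiff ℝ ∞ u) (x : E) :
    fderiv ℝ (moll μ ρ u) x = moll μ ρ (fderiv ℝ u) x := by
  have hf : ContDiff ℝ ∞ (fderiv ℝ u) := hu.fderiv_right (by simp)
  ext v
  have hwd : IsWD μ v u (fun y => fderiv ℝ u y v) :=
    isWD_of_differentiable hu.continuous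
      (fun x => ((hu.differentiable (by simp)) x).hasFDerivAt.hasLineDerivAt v)
      (hf.clm_apply contDiff_const).continuous.locallyIntegrable
  rw [fderiv_moll _ hwd hu.continuous.locallyIntegrable, moll_apply', moll_apply']
  rw [ContinuousLinearMap.integral_apply
    ((test_normed_sub ρ x).integrable_smul hf.continuous.locallyIntegrable)]
  rfl

theorem enorm_clm_le (T : V →L[ℝ] W) {C : ℝ} (hC : 0 ≤ C) (h : ∀ v, ‖T v‖ ≤ C * ‖v‖) :
    ‖T‖ₑ ≤ ENNReal.ofReal C := by
  rw [← ofReal_norm]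
  exact ENNReal.ofReal_le_ofReal (T.opNorm_le_bound hC h)

/-- `L²` bound for the derivative of the mollification, for a fixed mollifier -/
theorem exists_fderiv_moll_le (ρ : ContDiffBump (0 : E)) : ∃ C : ℝ, 0 ≤ C ∧ ∀ u : E → V,
    ContDiff ℝ ∞ u → HasCompactSupport u → n2 μ (fderiv ℝ (moll μ ρ u)) ≤ C * n2 μ u := by
  set D : E → (E →L[ℝ] ℝ) := fderiv ℝ (ρ.normed μ) with hD
  have hDc : Continuous D := (ρ.contDiff_normed (n := 1)).continuous_fderiv (by simp)
  have hDs : HasCompactSupport D := (ρ.hasCompactSupport_normed (μ := μ)).fderiv ℝ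
  have hgi : Integrable (fun z => ‖D z‖) μ :=
    (hDc.norm).integrable_of_hasCompactSupport hDs.norm
  set g : E → ℝ≥0∞ := fun z => ENNReal.ofReal ‖D z‖ with hg
  have hgt : ∫⁻ z, g z ∂μ ≠ ⊤ := by
    rw [hg, ← ofReal_integral_eq_lintegral_ofReal hgi (Eventually.of_forall fun z => norm_nonneg _)]
    exact ENNReal.ofReal_ne_top
  refine ⟨(∫⁻ z, g z ∂μ).toReal, ENNReal.toReal_nonneg, fun u hu huc => ?_⟩
  have h0 : fderiv ℝ (moll μ ρ u) =
      fun x => ∫ z, ContinuousLinearMap.smulRightL ℝ E V (D z) (u (x - z)) ∂μ := by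
    funext x
    have h1 := (ρ.hasCompactSupport_normed (μ := μ)).hasFDerivAt_convolution_left
      (ContinuousLinearMap.lsmul ℝ ℝ) (ρ.contDiff_normed (n := 1))
      (hu.continuous.locallyIntegrable (μ := μ)) x
    rw [moll, h1.fderiv, convolution_def]
    refine integral_congr_ae (Eventually.of_forall fun z => ?_)
    ext v
    rfl
  have h1 := eLpNorm_kernel_le (μ := μ)
    (k := fun _ z => ContinuousLinearMap.smulRightL ℝ E V (D z)) (g := g)
    (hDc.norm.measurable.ennreal_ofReal)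
    (fun x z => enorm_clm_le _ (norm_nonneg _) fun v =>
      (ContinuousLinearMap.norm_smulRight_apply (D z) v).le) hu.continuous.stronglyMeasurable
  rw [← h0] at h1
  have hm : MemLp u 2 μ := hu.continuous.memLp_of_hasCompactSupport huc
  have h2 := ENNReal.toReal_mono (ENNReal.mul_ne_top hgt hm.2.ne) h1
  rwa [ENNReal.toReal_mul] at h2

theorem bdd_of_cpt {X : Type*} [NormedAddCommGroup X] {f : E → X} (hf : Continuous f)
    (hc : HasCompactSupport f) : ∃ C : ℝ, 0 ≤ C ∧ ∀ x, ‖f x‖ ≤ C := by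
  obtain ⟨C, h⟩ := hc.exists_bound_of_continuous hf
  exact ⟨max C 0, le_max_right _ _, fun x => (h x).trans (le_max_left _ _)⟩

/-- compactly supported smooth coefficients -/
structure Coef (a : E → (E →L[ℝ] V) →L[ℝ] W) (b : E → V →L[ℝ] W) : Prop where
  ha : ContDiff ℝ ∞ a
  hb : ContDiff ℝ ∞ b
  hac : HasCompactSupport a
  hbc : HasCompactSupport b

variable {a : E → (E →L[ℝ] V) →L[ℝ] W} {b : E → V →L[ℝ] W}

theorem Coef.exists_bound (h : Coef a b) : ∃ C : ℝ, 0 ≤ C ∧ ∀ x, ‖a x‖ ≤ C ∧ ‖b x‖ ≤ C := by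
  have ha := h.ha.continuous
  have hb := h.hb.continuous
  obtain ⟨C₁, h₁0, h₁⟩ := bdd_of_cpt (f := a) ha h.hac
  obtain ⟨C₂, h₂0, h₂⟩ := bdd_of_cpt (f := b) hb h.hbc
  exact ⟨C₁ + C₂, add_nonneg h₁0 h₂0, fun x =>
    ⟨(h₁ x).trans (le_add_of_nonneg_right h₂0), (h₂ x).trans (le_add_of_nonneg_left h₁0)⟩⟩

theorem Coef.cont (h : Coef a b) {u : E → V} (hu : ContDiff ℝ ∞ u) : Continuous (fo a b u) := by
  have hf : ContDiff ℝ ∞ (fderiv ℝ u) := hu.fderiv_right (by simp)
  exact (h.ha.continuous.clm_apply hf.continuous).add (h.hb.continuous.clm_apply hu.continuous)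

theorem Coef.smooth (h : Coef a b) {u : E → V} (hu : ContDiff ℝ ∞ u) : ContDiff ℝ ∞ (fo a b u) := by
  have hf : ContDiff ℝ ∞ (fderiv ℝ u) := hu.fderiv_right (by simp)
  exact (h.ha.clm_apply hf).add (h.hb.clm_apply hu)

theorem Coef.cpt (h : Coef a b) (u : E → V) : HasCompactSupport (fo a b u) := by
  refine HasCompactSupport.intro (h.hac.isCompact.union h.hbc.isCompact) fun x hx => ?_
  simp only [Set.mem_union, not_or] at hx
  simp only [fo]
  rw [image_eq_zero_of_notMem_tsupport hx.1, image_eq_zero_of_notMem_tsupport hx.2]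
  simp

theorem Coef.memLp (h : Coef a b) {u : E → V} (hu : ContDiff ℝ ∞ u) : MemLp (fo a b u) 2 μ :=
  (h.cont hu).memLp_of_hasCompactSupport (h.cpt u)

/-- `L²` bound for `A (moll u)`, for a fixed mollifier -/
theorem Coef.exists_moll_le (h : Coef a b) (ρ : ContDiffBump (0 : E)) : ∃ C : ℝ, 0 ≤ C ∧
    ∀ u : E → V, ContDiff ℝ ∞ u → HasCompactSupport u → n2 μ (fo a b (moll μ ρ u)) ≤ C * n2 μ u := by
  obtain ⟨C, hC0, hC⟩ := h.exists_bound
  obtain ⟨C', hC'0, hC'⟩ := exists_fderiv_moll_le (μ := μ) (V := V) ρ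
  refine ⟨C * (C' + 1), by positivity, fun u hu huc => ?_⟩
  have hms : ContDiff ℝ ∞ (moll μ ρ u) := moll_contDiff ρ hu.continuous.locallyIntegrable
  have hmc : HasCompactSupport (moll μ ρ u) := moll_hasCompactSupport ρ huc
  have hm : MemLp (moll μ ρ u) 2 μ := hms.continuous.memLp_of_hasCompactSupport hmc
  have hfm : MemLp (fderiv ℝ (moll μ ρ u)) 2 μ :=
    (hms.continuous_fderiv (by simp)).memLp_of_hasCompactSupport (hmc.fderiv ℝ)
  have h1 : n2 μ (fo a b (moll μ ρ u)) ≤
      C * n2 μ (fun x => ‖fderiv ℝ (moll μ ρ u) x‖ + ‖moll μ ρ u x‖) := by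
    refine n2_mono_of_le hC0 (hfm.norm.add hm.norm) fun x => ?_
    rw [Real.norm_of_nonneg (by positivity)]
    exact norm_fo_le (hC x).1 (hC x).2
  have h2 : n2 μ (fun x => ‖fderiv ℝ (moll μ ρ u) x‖ + ‖moll μ ρ u x‖) ≤
      n2 μ (fderiv ℝ (moll μ ρ u)) + n2 μ (moll μ ρ u) := by
    refine (n2_add_le hfm.norm hm.norm).trans (le_of_eq ?_)
    rw [n2, n2, eLpNorm_norm, eLpNorm_norm]; rfl
  have h3 : n2 μ (moll μ ρ u) ≤ n2 μ u :=
    ENNReal.toReal_mono (hu.continuous.memLp_of_hasCompactSupport huc).2.ne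
      (eLpNorm_moll_le _ hu.continuous.stronglyMeasurable)
  calc _ ≤ C * (C' * n2 μ u + n2 μ u) := h1.trans (by
        gcongr
        exact h2.trans (add_le_add (hC' u hu huc) h3))
    _ = _ := by ring

/-- the one-direction coefficients -/
theorem Coef.exists_comm_le (h : Coef a b) : ∃ C : ℝ, 0 ≤ C ∧ ∀ n, ∀ u : E → V,
    ContDiff ℝ ∞ u → HasCompactSupport u →
    n2 μ (fun x => fo a b (moll μ (stdBump n) u) x - moll μ (stdBump n) (fo a b u) x)
      ≤ C * n2 μ u := by
  obtain ⟨C₀, hC₀0, hC₀⟩ := h.exists_bound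
  set bs := Module.finBasis ℝ E with hbs
  set co : Fin (Module.finrank ℝ E) → (E →L[ℝ] ℝ) := fun j =>
    LinearMap.toContinuousLinearMap (bs.coord j) with hco
  set aj : Fin (Module.finrank ℝ E) → E → V →L[ℝ] W := fun j x =>
    (a x).comp (ContinuousLinearMap.smulRightL ℝ E V (co j)) with haj
  have hajs : ∀ j, ContDiff ℝ ∞ (aj j) := fun j =>
    h.ha.clm_comp contDiff_const
  have hajc : ∀ j, HasCompactSupport (aj j) := fun j =>
    HasCompactSupport.intro h.hac fun x hx => by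
      rw [haj]; simp only; rw [image_eq_zero_of_notMem_tsupport hx, ContinuousLinearMap.zero_comp]
  have hdec : ∀ x (T : E →L[ℝ] V), a x T = ∑ j, aj j x (T (bs j)) := by
    intro x T
    have hT : T = ∑ j, ContinuousLinearMap.smulRightL ℝ E V (co j) (T (bs j)) := by
      ext v
      rw [sum_apply]
      conv_lhs => rw [← bs.sum_repr v]
      rw [map_sum]
      refine Finset.sum_congr rfl fun j _ => ?_
      rw [map_smul]
      rfl
    conv_lhs => rw [hT]
    rw [map_sum]
    rfl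
  choose Lj hLj using fun j => ContDiff.lipschitzWith_of_hasCompactSupport (hajc j)
    ((hajs j).of_le (by simp) : ContDiff ℝ 1 (aj j)) (by simp)
  set Cj : Fin (Module.finrank ℝ E) → ℝ := fun j => (Lj j * ‖bs j‖ₑ * (frC μ + 1)).toReal with hCj
  have hCt : ∀ j, Lj j * ‖bs j‖ₑ * (frC μ + 1) ≠ ⊤ := fun j =>
    ENNReal.mul_ne_top (ENNReal.mul_ne_top ENNReal.coe_ne_top enorm_ne_top)
      (ENNReal.add_ne_top.2 ⟨frC_ne_top, ENNReal.one_ne_top⟩)
  refine ⟨∑ j, Cj j + 2 * C₀, by
    have : 0 ≤ ∑ j, Cj j := Finset.sum_nonneg fun j _ => ENNReal.toReal_nonneg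
    positivity, fun n u hu huc => ?_⟩
  have hum : MemLp u 2 μ := hu.continuous.memLp_of_hasCompactSupport huc
  set m := moll μ (stdBump n) u with hm
  have hms : ContDiff ℝ ∞ m := moll_contDiff _ hu.continuous.locallyIntegrable
  have hmc : HasCompactSupport m := moll_hasCompactSupport _ huc
  have hmm : MemLp m 2 μ := hms.continuous.memLp_of_hasCompactSupport hmc
  have hDu : ∀ v, ContDiff ℝ ∞ (fun y => fderiv ℝ u y v) := fun v =>
    (hu.fderiv_right (m := ∞) (by simp)).clm_apply contDiff_const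
  have hDm : ∀ v, ContDiff ℝ ∞ (fun y => fderiv ℝ m y v) := fun v =>
    (hms.fderiv_right (m := ∞) (by simp)).clm_apply contDiff_const
  -- decomposition
  set cj : Fin (Module.finrank ℝ E) → E → W := fun j x => aj j x (fderiv ℝ m x (bs j)) -
    moll μ (stdBump n) (fun y => aj j y (fderiv ℝ u y (bs j))) x with hcj
  set d : E → W := fun x => b x (m x) - moll μ (stdBump n) (fun y => b y (u y)) x with hd
  have hfj : ∀ j, ContDiff ℝ ∞ (fun y => aj j y (fderiv ℝ u y (bs j))) := fun j =>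
    (hajs j).clm_apply (hDu _)
  have hfjc : ∀ j, HasCompactSupport (fun y => aj j y (fderiv ℝ u y (bs j))) := fun j =>
    HasCompactSupport.intro (hajc j) fun x hx => by
      rw [image_eq_zero_of_notMem_tsupport hx]; simp
  have hbu : ContDiff ℝ ∞ (fun y => b y (u y)) := h.hb.clm_apply hu
  have hbuc : HasCompactSupport (fun y => b y (u y)) :=
    HasCompactSupport.intro h.hbc fun x hx => by
      rw [image_eq_zero_of_notMem_tsupport hx]; simp
  have hfo : ∀ v : E → V, fo a b v = fun x => ∑ j, aj j x (fderiv ℝ v x (bs j)) + b x (v x) := by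
    intro v; funext x; rw [fo, hdec]
  have hkey : (fun x => fo a b m x - moll μ (stdBump n) (fo a b u) x) =
      fun x => ∑ j, cj j x + d x := by
    funext x
    have e1 : moll μ (stdBump n) (fo a b u) x =
        ∑ j, moll μ (stdBump n) (fun y => aj j y (fderiv ℝ u y (bs j))) x +
          moll μ (stdBump n) (fun y => b y (u y)) x := by
      rw [hfo u]
      have hint : ∀ (f : E → W), ContDiff ℝ ∞ f →
          Integrable (fun s => (stdBump n : ContDiffBump (0 : E)).normed μ (x - s) • f s) μ :=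
        fun f hf => (test_normed_sub _ x).integrable_smul hf.continuous.locallyIntegrable
      simp only [moll_apply', smul_add, Finset.smul_sum]
      rw [integral_add (integrable_finsetSum _ fun j _ => hint _ (hfj j)) (hint _ hbu),
        integral_finsetSum _ fun j _ => hint _ (hfj j)]
    rw [e1, hfo m]
    simp only [hcj, hd, Finset.sum_sub_distrib]
    abel
  rw [hkey]
  have hcjm : ∀ j, MemLp (cj j) 2 μ := by
    intro j
    refine MemLp.sub ?_ ?_
    · exact ((hajs j).clm_apply (hDm _)).continuous.memLp_of_hasCompactSupport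
        (HasCompactSupport.intro (hajc j) fun x hx => by
          rw [image_eq_zero_of_notMem_tsupport hx]; simp)
    · exact (moll_contDiff _ (hfj j).continuous.locallyIntegrable).continuous.memLp_of_hasCompactSupport
        (moll_hasCompactSupport _ (hfjc j))
  have hbm : MemLp (fun x => b x (m x)) 2 μ :=
    (h.hb.clm_apply hms).continuous.memLp_of_hasCompactSupport
      (HasCompactSupport.intro h.hbc fun x hx => by
          rw [image_eq_zero_of_notMem_tsupport hx]; simp)
  have hmb : MemLp (moll μ (stdBump n) (fun y => b y (u y))) 2 μ :=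
    (moll_contDiff _ hbu.continuous.locallyIntegrable).continuous.memLp_of_hasCompactSupport
        (moll_hasCompactSupport _ hbuc)
  have hsum : MemLp (fun x => ∑ j, cj j x) 2 μ := memLp_finsetSum _ fun j _ => hcjm j
  have h1 : n2 μ (fun x => ∑ j, cj j x) ≤ ∑ j, Cj j * n2 μ u := by
    have e1 : eLpNorm (∑ j, cj j) 2 μ ≤ ∑ j, eLpNorm (cj j) 2 μ :=
      eLpNorm_sum_le (fun j _ => (hcjm j).1) (by norm_num)
    have e2 : (∑ j, cj j) = fun x => ∑ j, cj j x := by funext x; simp
    rw [e2] at e1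
    have e3 := ENNReal.toReal_mono (ENNReal.sum_ne_top.2 fun j _ => (hcjm j).2.ne) e1
    rw [ENNReal.toReal_sum fun j _ => (hcjm j).2.ne] at e3
    refine e3.trans (Finset.sum_le_sum fun j _ => ?_)
    have e4 := comm_bound (μ := μ) (hajs j) (hLj j) hu (bs j) n
    have e5 := ENNReal.toReal_mono (ENNReal.mul_ne_top (hCt j) hum.2.ne) e4
    rwa [ENNReal.toReal_mul] at e5
  have h2 : n2 μ d ≤ 2 * C₀ * n2 μ u := by
    have e1 : n2 μ d ≤ n2 μ (fun x => b x (m x)) + n2 μ (moll μ (stdBump n) (fun y => b y (u y))) := by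
      have e2 : eLpNorm d 2 μ ≤ eLpNorm (fun x => b x (m x)) 2 μ +
          eLpNorm (moll μ (stdBump n) (fun y => b y (u y))) 2 μ :=
        eLpNorm_sub_le hbm.1 hmb.1 (by norm_num)
      have e3 := ENNReal.toReal_mono (ENNReal.add_ne_top.2 ⟨hbm.2.ne, hmb.2.ne⟩) e2
      rwa [ENNReal.toReal_add hbm.2.ne hmb.2.ne] at e3
    have e2 : n2 μ (fun x => b x (m x)) ≤ C₀ * n2 μ m :=
      n2_mono_of_le hC₀0 hmm fun x => ((b x).le_opNorm _).trans (by
        have := (hC₀ x).2; gcongr)
    have e3 : n2 μ m ≤ n2 μ u := ENNReal.toReal_mono hum.2.ne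
      (eLpNorm_moll_le _ hu.continuous.stronglyMeasurable)
    have e4 : n2 μ (moll μ (stdBump n) (fun y => b y (u y))) ≤ n2 μ (fun y => b y (u y)) :=
      ENNReal.toReal_mono (hbu.continuous.memLp_of_hasCompactSupport hbuc).2.ne
        (eLpNorm_moll_le _ hbu.continuous.stronglyMeasurable)
    have e5 : n2 μ (fun y => b y (u y)) ≤ C₀ * n2 μ u :=
      n2_mono_of_le hC₀0 hum fun x => ((b x).le_opNorm _).trans (by
        have := (hC₀ x).2; gcongr)
    calc n2 μ d ≤ C₀ * n2 μ u + C₀ * n2 μ u := e1.trans (add_le_add (e2.trans (by gcongr))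
          (e4.trans e5))
      _ = _ := by ring
  have h3 := n2_add_le hsum (hbm.sub hmb)
  refine h3.trans ((add_le_add h1 h2).trans (le_of_eq ?_))
  rw [← Finset.sum_mul]; ring

end

end Vale.Agent.P299.H863
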