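import Vale.Agent.P299.H863.Abs
import Mathlib.Analysis.Normed.Operator.Extend

/-! # The index theorem on smooth sections, abstract form -/

namespace Vale.Agent.P299.H863

open Filter Topology Module UniformSpace
open scoped InnerProductSpace

noncomputable section

variable {𝕜 S₁ S₂ : Type*} [RCLike 𝕜] [NormedAddCommGroup S₁] [InnerProductSpace 𝕜 S₁]
  [NormedAddCommGroup S₂] [InnerProductSpace 𝕜 S₂]

/-- **The index theorem with the strong kernels in the completions.** -/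
theorem index_strong {D : S₁ →ₗ[𝕜] S₂} {D' : S₂ →ₗ[𝕜] S₁}
    (hadj : ∀ u v, inner 𝕜 (D u) v = inner 𝕜 u (D' v)) {J₁ : ℕ → S₁ →ₗ[𝕜] S₁}
    {J₂ : ℕ → S₂ →ₗ[𝕜] S₂} (h₁ : Smoothing 𝕜 J₁) (h₂ : Smoothing 𝕜 J₂)
    (hc : SmoothingComm D' J₂ J₁)
    (hR : TotallyBounded {u : S₁ | ‖u‖ ≤ 1 ∧ ‖D u‖ ≤ 1})
    (κ : S₁ →ₗ[𝕜] S₂) (κ' : S₂ →ₗ[𝕜] S₁) (hκ : ∃ C : ℝ, ∀ u, ‖κ u‖ ≤ C * ‖u‖)
    (hκadj : ∀ u v, inner 𝕜 (κ u) v = inner 𝕜 u (κ' v)) {m : ℝ} (hm : 0 < m)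
    (hI : ∀ u, m * ‖u‖ ≤ ‖D u + κ u‖) (hI' : ∀ v, m * ‖v‖ ≤ ‖D' v + κ' v‖) :
    ∃ (N₁ : Submodule 𝕜 (Completion S₁)) (N₂ : Submodule 𝕜 (Completion S₂)),
      (∀ x, x ∈ N₁ ↔ ∃ w : ℕ → S₁, Tendsto (fun n => (w n : Completion S₁)) atTop (𝓝 x) ∧
        Tendsto (fun n => D (w n)) atTop (𝓝 0)) ∧
      (∀ x, x ∈ N₂ ↔ ∃ w : ℕ → S₂, Tendsto (fun n => (w n : Completion S₂)) atTop (𝓝 x) ∧
        Tendsto (fun n => D' (w n)) atTop (𝓝 0)) ∧
      FiniteDimensional 𝕜 N₁ ∧ FiniteDimensional 𝕜 N₂ ∧ finrank 𝕜 N₁ = finrank 𝕜 N₂ := by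
  set i₁ : S₁ →ₗᵢ[𝕜] Completion S₁ := Completion.toComplₗᵢ with hi₁
  set i₂ : S₂ →ₗᵢ[𝕜] Completion S₂ := Completion.toComplₗᵢ with hi₂
  have hd₁ : DenseRange i₁ := Completion.denseRange_coe
  have hd₂ : DenseRange i₂ := Completion.denseRange_coe
  set T₁ : Submodule 𝕜 (Completion S₁) := LinearMap.range i₁.toLinearMap with hT₁
  set T₂ : Submodule 𝕜 (Completion S₂) := LinearMap.range i₂.toLinearMap with hT₂
  let e₁ : S₁ ≃ₗ[𝕜] T₁ := LinearEquiv.ofInjective i₁.toLinearMap i₁.injective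
  let e₂ : S₂ ≃ₗ[𝕜] T₂ := LinearEquiv.ofInjective i₂.toLinearMap i₂.injective
  have he₁ : ∀ s, ((e₁ s : T₁) : Completion S₁) = i₁ s := fun s => rfl
  have he₂ : ∀ s, ((e₂ s : T₂) : Completion S₂) = i₂ s := fun s => rfl
  let DD : T₁ →ₗ[𝕜] Completion S₂ := i₂.toLinearMap ∘ₗ D ∘ₗ e₁.symm.toLinearMap
  let DD' : T₂ →ₗ[𝕜] Completion S₁ := i₁.toLinearMap ∘ₗ D' ∘ₗ e₂.symm.toLinearMap
  have hDD : ∀ s, DD (e₁ s) = i₂ (D s) := fun s => by
    show i₂ (D (e₁.symm (e₁ s))) = _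
    rw [e₁.symm_apply_apply]
  have hDD' : ∀ s, DD' (e₂ s) = i₁ (D' s) := fun s => by
    show i₁ (D' (e₂.symm (e₂ s))) = _
    rw [e₂.symm_apply_apply]
  -- the bounded operator
  obtain ⟨C, hC⟩ := hκ
  set K : Completion S₁ →L[𝕜] Completion S₂ :=
    (i₂.toLinearMap ∘ₗ κ).extendOfNorm i₁.toLinearMap with hK
  have hKe : ∀ s, K (i₁ s) = i₂ (κ s) := by
    intro s
    exact LinearMap.extendOfNorm_eq (f := i₂.toLinearMap ∘ₗ κ) (e := i₁.toLinearMap) hd₁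
      ⟨C, fun x => by
        show ‖i₂ (κ x)‖ ≤ C * ‖i₁ x‖
        rw [i₂.norm_map, i₁.norm_map]; exact hC x⟩ s
  have hKadj : ∀ v, ContinuousLinearMap.adjoint K (i₂ v) = i₁ (κ' v) := by
    intro v
    refine ext_inner_left 𝕜 fun u => ?_
    rw [ContinuousLinearMap.adjoint_inner_right]
    refine hd₁.induction_on (p := fun u => inner 𝕜 (K u) (i₂ v) = inner 𝕜 u (i₁ (κ' v))) u
      (isClosed_eq (by fun_prop) (by fun_prop)) fun s => ?_
    rw [hKe, i₂.inner_map_map, i₁.inner_map_map, hκadj]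
  -- weak = strong
  have hws : ∀ (v : Completion S₂) (f : Completion S₁),
      (∀ u : T₁, inner 𝕜 (DD u) v = inner 𝕜 (u : Completion S₁) f) →
      ∃ w : ℕ → S₂, Tendsto (fun n => i₂ (w n)) atTop (𝓝 v) ∧
        Tendsto (fun n => i₁ (D' (w n))) atTop (𝓝 f) := by
    intro v f h
    have h' : ∀ u : S₁, inner 𝕜 ((D u : S₂) : Completion S₂) v = inner 𝕜 (u : Completion S₁) f := by
      intro u
      have := h (e₁ u)
      rwa [hDD] at this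
    choose w hw1 hw2 using fun n : ℕ => weak_eq_strong hadj h₁ h₂ hc v f h'
      (ε := 1 / ((n : ℝ) + 1)) (by positivity)
    refine ⟨w, ?_, ?_⟩
    · rw [tendsto_iff_norm_sub_tendsto_zero]
      exact squeeze_zero (fun n => norm_nonneg _) hw1 tendsto_one_div_add_atTop_nhds_zero_nat
    · rw [tendsto_iff_norm_sub_tendsto_zero]
      exact squeeze_zero (fun n => norm_nonneg _) hw2 tendsto_one_div_add_atTop_nhds_zero_nat
  -- application of the abstract index theorem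
  obtain ⟨N₁, N₂, hN₁, hN₂, f1, f2, hN⟩ := index_eq (S₁ := T₁) (S₂ := T₂) DD DD'
    (by
      intro v f h
      obtain ⟨w, hw1, hw2⟩ := hws v f h
      refine ⟨fun n => e₂ (w n), hw1, ?_⟩
      exact hw2.congr fun n => (hDD' (w n)).symm)
    (by
      refine (hR.image i₁.isometry.uniformContinuous).subset ?_
      rintro x ⟨u, hu, hx, hDu⟩
      obtain ⟨s, rfl⟩ := e₁.surjective u
      refine ⟨s, ⟨?_, ?_⟩, hu⟩
      · rw [← hu, he₁, i₁.norm_map] at hx; exact hx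
      · rw [hDD, i₂.norm_map] at hDu; exact hDu)
    K hm
    (by
      intro u
      obtain ⟨s, rfl⟩ := e₁.surjective u
      rw [hDD, he₁, hKe, ← map_add, i₁.norm_map, i₂.norm_map]
      exact hI s)
    (by
      intro v
      obtain ⟨s, rfl⟩ := e₂.surjective v
      rw [hDD', he₂, hKadj, ← map_add, i₁.norm_map, i₂.norm_map]
      exact hI' s)
  refine ⟨N₁, N₂, ?_, ?_, f1, f2, hN⟩
  · intro x
    rw [hN₁]
    constructor
    · rintro ⟨w, hw1, hw2⟩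
      refine ⟨fun n => e₁.symm (w n), ?_, ?_⟩
      · refine hw1.congr fun n => ?_
        show ((w n : T₁) : Completion S₁) = i₁ (e₁.symm (w n))
        rw [← he₁, e₁.apply_symm_apply]
      · rw [tendsto_zero_iff_norm_tendsto_zero]
        have := tendsto_zero_iff_norm_tendsto_zero.1 hw2
        refine this.congr fun n => ?_
        show ‖i₂ (D (e₁.symm (w n)))‖ = _
        rw [i₂.norm_map]
    · rintro ⟨w, hw1, hw2⟩
      refine ⟨fun n => e₁ (w n), hw1, ?_⟩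
      rw [tendsto_zero_iff_norm_tendsto_zero]
      have := tendsto_zero_iff_norm_tendsto_zero.1 hw2
      refine this.congr fun n => ?_
      rw [hDD, i₂.norm_map]
  · intro x
    rw [hN₂]
    constructor
    · intro h
      obtain ⟨w, hw1, hw2⟩ := hws x 0 (fun u => by rw [inner_zero_right]; exact h u)
      refine ⟨w, hw1, ?_⟩
      rw [tendsto_zero_iff_norm_tendsto_zero]
      have := tendsto_zero_iff_norm_tendsto_zero.1 hw2
      refine this.congr fun n => ?_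
      rw [i₁.norm_map]
    · rintro ⟨w, hw1, hw2⟩ u
      obtain ⟨t, rfl⟩ := e₁.surjective u
      rw [hDD]
      have h1 : Tendsto (fun n => inner 𝕜 (i₂ (D t)) (w n : Completion S₂)) atTop
          (𝓝 (inner 𝕜 (i₂ (D t)) x)) := tendsto_const_nhds.inner hw1
      have h2 : Tendsto (fun n => inner 𝕜 t (D' (w n))) atTop (𝓝 (inner 𝕜 t (0 : S₁))) :=
        tendsto_const_nhds.inner hw2
      rw [inner_zero_right] at h2
      refine tendsto_nhds_unique h1 (h2.congr fun n => ?_)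
      rw [← hadj]
      exact (i₂.inner_map_map _ _).symm

/-- the kernel in the smooth sections is the strong kernel -/
def kerEquiv {D : S₁ →ₗ[𝕜] S₂} {D' : S₂ →ₗ[𝕜] S₁}
    (hadj : ∀ u v, inner 𝕜 (D u) v = inner 𝕜 u (D' v))
    (hreg : ∀ w : ℕ → S₁, CauchySeq w → Tendsto (fun n => D (w n)) atTop (𝓝 0) →
      ∃ s, Tendsto w atTop (𝓝 s))
    {N₁ : Submodule 𝕜 (Completion S₁)}
    (hN₁ : ∀ x, x ∈ N₁ ↔ ∃ w : ℕ → S₁, Tendsto (fun n => (w n : Completion S₁)) atTop (𝓝 x) ∧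
      Tendsto (fun n => D (w n)) atTop (𝓝 0)) :
    LinearMap.ker D ≃ₗ[𝕜] N₁ :=
  (Submodule.equivMapOfInjective (Completion.toComplₗᵢ : S₁ →ₗᵢ[𝕜] Completion S₁).toLinearMap
    (Completion.toComplₗᵢ : S₁ →ₗᵢ[𝕜] Completion S₁).injective _).trans (LinearEquiv.ofEq _ _ (by
  set i₁ : S₁ →ₗᵢ[𝕜] Completion S₁ := Completion.toComplₗᵢ with hi₁
  have hclo : ∀ (w : ℕ → S₁) s, Tendsto w atTop (𝓝 s) → Tendsto (fun n => D (w n)) atTop (𝓝 0) →
      D s = 0 := by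
    intro w s h1 h2
    refine ext_inner_right 𝕜 fun v => ?_
    rw [inner_zero_left, hadj]
    have h3 : Tendsto (fun n => inner 𝕜 (w n) (D' v)) atTop (𝓝 (inner 𝕜 s (D' v))) :=
      h1.inner tendsto_const_nhds
    have h4 : Tendsto (fun n => inner 𝕜 (D (w n)) v) atTop (𝓝 (inner 𝕜 (0 : S₂) v)) :=
      h2.inner tendsto_const_nhds
    rw [inner_zero_left] at h4
    refine tendsto_nhds_unique h3 (h4.congr fun n => ?_)
    rw [hadj]
  ext x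
  rw [hN₁]
  constructor
  · rintro ⟨s, hs, rfl⟩
    refine ⟨fun _ => s, tendsto_const_nhds, ?_⟩
    have : D s = 0 := hs
    simp only [this]
    exact tendsto_const_nhds
  · rintro ⟨w, hw1, hw2⟩
    have hcau : CauchySeq w := i₁.isometry.isUniformInducing.cauchy_map_iff.1 hw1.cauchySeq
    obtain ⟨s, hs⟩ := hreg w hcau hw2
    refine ⟨s, hclo w s hs hw2, ?_⟩
    exact tendsto_nhds_unique ((i₁.continuous.tendsto s).comp hs) hw1))

/-- **The index theorem for the kernels in the smooth sections.** -/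
theorem index_abs {D : S₁ →ₗ[𝕜] S₂} {D' : S₂ →ₗ[𝕜] S₁}
    (hadj : ∀ u v, inner 𝕜 (D u) v = inner 𝕜 u (D' v)) {J₁ : ℕ → S₁ →ₗ[𝕜] S₁}
    {J₂ : ℕ → S₂ →ₗ[𝕜] S₂} (h₁ : Smoothing 𝕜 J₁) (h₂ : Smoothing 𝕜 J₂)
    (hc : SmoothingComm D' J₂ J₁)
    (hR : TotallyBounded {u : S₁ | ‖u‖ ≤ 1 ∧ ‖D u‖ ≤ 1})
    (κ : S₁ →ₗ[𝕜] S₂) (κ' : S₂ →ₗ[𝕜] S₁) (hκ : ∃ C : ℝ, ∀ u, ‖κ u‖ ≤ C * ‖u‖)
    (hκadj : ∀ u v, inner 𝕜 (κ u) v = inner 𝕜 u (κ' v)) {m : ℝ} (hm : 0 < m)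
    (hI : ∀ u, m * ‖u‖ ≤ ‖D u + κ u‖) (hI' : ∀ v, m * ‖v‖ ≤ ‖D' v + κ' v‖)
    (hreg : ∀ w : ℕ → S₁, CauchySeq w → Tendsto (fun n => D (w n)) atTop (𝓝 0) →
      ∃ s, Tendsto w atTop (𝓝 s))
    (hreg' : ∀ w : ℕ → S₂, CauchySeq w → Tendsto (fun n => D' (w n)) atTop (𝓝 0) →
      ∃ s, Tendsto w atTop (𝓝 s)) :
    FiniteDimensional 𝕜 (LinearMap.ker D) ∧ FiniteDimensional 𝕜 (LinearMap.ker D') ∧
      finrank 𝕜 (LinearMap.ker D) = finrank 𝕜 (LinearMap.ker D') := by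
  obtain ⟨N₁, N₂, hN₁, hN₂, f1, f2, hN⟩ := index_strong hadj h₁ h₂ hc hR κ κ' hκ hκadj hm hI hI'
  have hadj' : ∀ v u, inner 𝕜 (D' v) u = inner 𝕜 v (D u) := by
    intro v u
    rw [← inner_conj_symm, ← hadj, inner_conj_symm]
  have g₁ := kerEquiv hadj hreg hN₁
  have g₂ := kerEquiv hadj' hreg' hN₂
  refine ⟨Module.Finite.equiv g₁.symm, Module.Finite.equiv g₂.symm, ?_⟩
  rw [g₁.finrank_eq, g₂.finrank_eq, hN]

end

end Vale.Agent.P299.H863
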