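import Mathlib.Analysis.InnerProductSpace.Projection.FiniteDimensional
import Mathlib.Analysis.InnerProductSpace.Adjoint
import Mathlib.Analysis.Normed.Operator.Banach
import Mathlib.Topology.Algebra.Module.FiniteDimension

/-! # An abstract index lemma

`H₁, H₂` Hilbert spaces, `D : S₁ → H₂`, `D' : S₂ → H₁` formally adjoint operators on subspaces.
If weak solutions of `D'` are strong, the unit ball of the graph norm of `D` is precompact in `H₁`
and a bounded perturbation `D + κ` (with `D' + κ†`) is bounded below, then the strong kernel of `D`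
and the weak kernel of `D'` are finite dimensional, of the same dimension. -/

namespace Vale.Agent.P299.H863

open Filter Topology Module
open scoped InnerProductSpace

noncomputable section

section algebra

variable {𝕜 G : Type*} [Field 𝕜] [AddCommGroup G] [Module 𝕜 G]

/-- `1 - F` with `F` of finite rank has index `0`. -/
theorem index_one_sub (F : G →ₗ[𝕜] G) [FiniteDimensional 𝕜 (LinearMap.range F)] :
    FiniteDimensional 𝕜 (LinearMap.ker (LinearMap.id - F)) ∧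
    FiniteDimensional 𝕜 (G ⧸ LinearMap.range (LinearMap.id - F)) ∧
    finrank 𝕜 (LinearMap.ker (LinearMap.id - F)) =
      finrank 𝕜 (G ⧸ LinearMap.range (LinearMap.id - F)) := by
  set T : G →ₗ[𝕜] G := LinearMap.id - F with hT
  set R := LinearMap.range F with hR
  have hTa : ∀ x, T x = x - F x := fun x => rfl
  have hTR : ∀ x ∈ R, T x ∈ R := fun x hx => R.sub_mem hx (LinearMap.mem_range_self F x)
  let TR : R →ₗ[𝕜] R := T.restrict hTR
  have hker : ∀ x, T x = 0 → x ∈ R := fun x hx => by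
    rw [hTa, sub_eq_zero] at hx
    rw [hx]; exact LinearMap.mem_range_self F x
  -- kernels
  have e1 : LinearMap.ker T ≃ₗ[𝕜] LinearMap.ker TR := by
    refine LinearEquiv.ofBijective (LinearMap.codRestrict _ (LinearMap.codRestrict R
      (LinearMap.ker T).subtype fun x => hker x x.2) fun x => ?_) ⟨?_, ?_⟩
    · rw [LinearMap.mem_ker]
      apply Subtype.ext
      exact x.2
    · intro x y hxy
      have := congrArg (fun z : LinearMap.ker TR => ((z : R) : G)) hxy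
      exact Subtype.ext this
    · intro y
      refine ⟨⟨((y : R) : G), ?_⟩, ?_⟩
      · have := y.2
        rw [LinearMap.mem_ker] at this
        exact congrArg Subtype.val this
      · apply Subtype.ext; apply Subtype.ext; rfl
  -- cokernels
  let q : R →ₗ[𝕜] (G ⧸ LinearMap.range T) := (LinearMap.range T).mkQ ∘ₗ R.subtype
  have hq : Function.Surjective q := by
    intro y
    obtain ⟨x, rfl⟩ := Submodule.mkQ_surjective _ y
    refine ⟨⟨F x, LinearMap.mem_range_self F x⟩, ?_⟩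
    show (LinearMap.range T).mkQ (F x) = _
    rw [← sub_eq_zero, ← map_sub, Submodule.mkQ_apply, Submodule.Quotient.mk_eq_zero]
    refine ⟨-x, ?_⟩
    rw [hTa, map_neg]; abel
  have hqk : LinearMap.ker q = LinearMap.range TR := by
    ext y
    rw [LinearMap.mem_ker]
    show (LinearMap.range T).mkQ (y : G) = 0 ↔ _
    rw [Submodule.mkQ_apply, Submodule.Quotient.mk_eq_zero]
    constructor
    · rintro ⟨x, hx⟩
      have hxR : x ∈ R := by
        have : x = (y : G) + F x := by rw [← hx, hTa]; abel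
        rw [this]; exact R.add_mem y.2 (LinearMap.mem_range_self F x)
      exact ⟨⟨x, hxR⟩, Subtype.ext hx⟩
    · rintro ⟨x, hx⟩
      exact ⟨x, congrArg Subtype.val hx⟩
  have e2 : (R ⧸ LinearMap.range TR) ≃ₗ[𝕜] (G ⧸ LinearMap.range T) :=
    (Submodule.quotEquivOfEq _ _ hqk.symm).trans (q.quotKerEquivOfSurjective hq)
  refine ⟨e1.symm.finiteDimensional, e2.finiteDimensional, ?_⟩
  rw [e1.finrank_eq, ← e2.finrank_eq]
  have h1 := LinearMap.finrank_range_add_finrank_ker TR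
  have h2 := Submodule.finrank_quotient_add_finrank (LinearMap.range TR)
  omega

end algebra

section fin

variable {𝕜 G H : Type*} [RCLike 𝕜] [NormedAddCommGroup G] [NormedSpace 𝕜 G]
  [NormedAddCommGroup H] [InnerProductSpace 𝕜 H]

/-- Approximation of an operator with precompact image of the ball by finite rank operators. -/
theorem exists_finrank_approx (B : G →L[𝕜] H) (hB : TotallyBounded (B '' Metric.closedBall 0 1))
    {ε : ℝ} (hε : 0 < ε) :
    ∃ F : G →L[𝕜] H, FiniteDimensional 𝕜 (LinearMap.range (F : G →ₗ[𝕜] H)) ∧ ‖B - F‖ ≤ ε := by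
  obtain ⟨t, ht, hcov⟩ := Metric.totallyBounded_iff.1 hB ε hε
  set U : Submodule 𝕜 H := Submodule.span 𝕜 t with hU
  have : FiniteDimensional 𝕜 U := FiniteDimensional.span_of_finite 𝕜 ht
  set P : H →L[𝕜] H := U.starProjection with hP
  have key : ∀ x, ‖x‖ ≤ 1 → ‖B x - P (B x)‖ ≤ ε := by
    intro x hx
    have h1 : B x ∈ ⋃ y ∈ t, Metric.ball y ε := hcov ⟨x, by simpa using hx, rfl⟩
    simp only [Set.mem_iUnion, Metric.mem_ball, exists_prop] at h1
    obtain ⟨y, hy, hd⟩ := h1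
    have hyU : y ∈ U := Submodule.subset_span hy
    have h2 : ‖B x - P (B x)‖ ≤ ‖B x - y‖ := by
      rw [hP, U.starProjection_minimal (B x)]
      exact ciInf_le ⟨0, by rintro _ ⟨z, rfl⟩; exact norm_nonneg _⟩ (⟨y, hyU⟩ : U)
    rw [dist_eq_norm] at hd
    exact h2.trans hd.le
  refine ⟨P ∘L B, ?_, ?_⟩
  · refine Submodule.finiteDimensional_of_le (S₂ := U) ?_
    rintro _ ⟨x, rfl⟩
    exact U.starProjection_apply_mem (B x)
  · refine ContinuousLinearMap.opNorm_le_bound _ hε.le fun x => ?_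
    by_cases hx : x = 0
    · simp [hx]
    have hx0 : 0 < ‖x‖ := norm_pos_iff.2 hx
    have h3 := key (((‖x‖⁻¹ : ℝ) : 𝕜) • x) (by
      rw [norm_smul, RCLike.norm_ofReal, abs_of_nonneg (inv_nonneg.2 hx0.le),
        inv_mul_cancel₀ hx0.ne'])
    rw [map_smul, map_smul, ← smul_sub, norm_smul, RCLike.norm_ofReal,
      abs_of_nonneg (inv_nonneg.2 hx0.le), inv_mul_le_iff₀ hx0] at h3
    calc ‖(B - P ∘L B) x‖ = ‖B x - P (B x)‖ := rfl
      _ ≤ ‖x‖ * ε := h3
      _ = ε * ‖x‖ := mul_comm _ _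

/-- `A - B` with `A` invertible and `B` compact has index `0`. -/
theorem index_sub [CompleteSpace G] [CompleteSpace H] (A : G ≃L[𝕜] H) (B : G →L[𝕜] H)
    (hB : TotallyBounded (B '' Metric.closedBall 0 1)) (T : G →L[𝕜] H)
    (hT : T = (A : G →L[𝕜] H) - B) :
    FiniteDimensional 𝕜 (LinearMap.ker (T : G →ₗ[𝕜] H)) ∧
    FiniteDimensional 𝕜 ((LinearMap.range (T : G →ₗ[𝕜] H))ᗮ : Submodule 𝕜 H) ∧
    finrank 𝕜 (LinearMap.ker (T : G →ₗ[𝕜] H)) =
      finrank 𝕜 ((LinearMap.range (T : G →ₗ[𝕜] H))ᗮ : Submodule 𝕜 H) := by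
  obtain ⟨F, hF, hFB⟩ := exists_finrank_approx B hB
    (ε := 1 / (2 * (‖(A.symm : H →L[𝕜] G)‖ + 1))) (by positivity)
  -- the invertible operator `A' = A - (B - F)`
  set t : G →L[𝕜] G := (A.symm : H →L[𝕜] G) ∘L (B - F) with ht
  have ht1 : ‖t‖ < 1 := by
    calc ‖t‖ ≤ ‖(A.symm : H →L[𝕜] G)‖ * ‖B - F‖ := ContinuousLinearMap.opNorm_comp_le _ _
      _ ≤ ‖(A.symm : H →L[𝕜] G)‖ * (1 / (2 * (‖(A.symm : H →L[𝕜] G)‖ + 1))) := by gcongr
      _ < 1 := by
        rw [mul_one_div, div_lt_one (by positivity)]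
        nlinarith [norm_nonneg (A.symm : H →L[𝕜] G)]
  set u : (G →L[𝕜] G)ˣ := Units.oneSub t ht1 with hu
  set A' : G ≃L[𝕜] H := (ContinuousLinearEquiv.unitsEquiv 𝕜 G u).trans A with hA'
  have hA'x : ∀ x, A' x = A x - (B x - F x) := by
    intro x
    have h1 : (ContinuousLinearEquiv.unitsEquiv 𝕜 G u) x = x - A.symm (B x - F x) := by
      rw [ContinuousLinearEquiv.unitsEquiv_apply]
      rfl
    rw [hA', ContinuousLinearEquiv.trans_apply, h1, map_sub, A.apply_symm_apply]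
  set F' : G →ₗ[𝕜] G := (A'.symm : H →L[𝕜] G).toLinearMap ∘ₗ (F : G →ₗ[𝕜] H) with hF'
  have hF'fin : FiniteDimensional 𝕜 (LinearMap.range F') := by
    rw [hF', LinearMap.range_comp]
    infer_instance
  have hTx : ∀ x, T x = A' (x - F' x) := by
    intro x
    have : A' (F' x) = F x := A'.apply_symm_apply (F x)
    rw [map_sub, this, hA'x, hT]
    show A x - B x = _
    abel
  obtain ⟨k1, k2, k3⟩ := index_one_sub F'
  have hker : LinearMap.ker (T : G →ₗ[𝕜] H) = LinearMap.ker (LinearMap.id - F') := by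
    ext x
    rw [LinearMap.mem_ker, LinearMap.mem_ker]
    show T x = 0 ↔ x - F' x = 0
    rw [hTx, map_eq_zero_iff _ A'.injective]
  have hran : (LinearMap.range (LinearMap.id - F')).map
      (A'.toLinearEquiv : G ≃ₗ[𝕜] H).toLinearMap = LinearMap.range (T : G →ₗ[𝕜] H) := by
    ext y
    constructor
    · rintro ⟨_, ⟨x, rfl⟩, rfl⟩
      exact ⟨x, hTx x⟩
    · rintro ⟨x, rfl⟩
      exact ⟨x - F' x, ⟨x, rfl⟩, (hTx x).symm⟩
  -- closedness
  have hFc : IsClosed ((LinearMap.ker F' : Submodule 𝕜 G) : Set G) := by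
    have hcont : Continuous F' := (A'.symm.continuous.comp F.continuous)
    have : ((LinearMap.ker F' : Submodule 𝕜 G) : Set G) = F' ⁻¹' {0} := by
      ext x; simp
    rw [this]
    exact isClosed_singleton.preimage hcont
  have hq : FiniteDimensional 𝕜 (G ⧸ LinearMap.ker F') :=
    (F'.quotKerEquivRange).symm.finiteDimensional
  have hc1 : IsClosed ((LinearMap.range (LinearMap.id - F') : Submodule 𝕜 G) : Set G) := by
    refine Submodule.isClosed_mono_of_finiteDimensional_quotient hFc ?_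
    intro x hx
    rw [LinearMap.mem_ker] at hx
    refine ⟨x, ?_⟩
    show x - F' x = x
    rw [hx, sub_zero]
  have hc2 : IsClosed ((LinearMap.range (T : G →ₗ[𝕜] H) : Submodule 𝕜 H) : Set H) := by
    rw [← hran, Submodule.map_coe]
    exact A'.toHomeomorph.isClosedMap _ hc1
  have : CompleteSpace (LinearMap.range (T : G →ₗ[𝕜] H)) := hc2.completeSpace_coe
  set R : Submodule 𝕜 H := LinearMap.range (T : G →ₗ[𝕜] H) with hR
  have e1 : (G ⧸ LinearMap.range (LinearMap.id - F')) ≃ₗ[𝕜] (H ⧸ R) :=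
    Submodule.Quotient.equiv _ _ A'.toLinearEquiv hran
  have e2 : (H ⧸ R) ≃ₗ[𝕜] (Rᗮ : Submodule 𝕜 H) :=
    Submodule.quotientEquivOfIsCompl R Rᗮ R.isCompl_orthogonal
  refine ⟨hker ▸ k1, (e1.trans e2).finiteDimensional, ?_⟩
  rw [hker, k3, (e1.trans e2).finrank_eq]

end fin

section index

variable {𝕜 H₁ H₂ : Type*} [RCLike 𝕜] [NormedAddCommGroup H₁] [InnerProductSpace 𝕜 H₁]
  [CompleteSpace H₁] [NormedAddCommGroup H₂] [InnerProductSpace 𝕜 H₂] [CompleteSpace H₂]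
  {S₁ : Submodule 𝕜 H₁} {S₂ : Submodule 𝕜 H₂}

/-- strong kernel: limits `u` of smooth `wₙ` with `D wₙ → 0`. -/
def StrongKer (D : S₁ →ₗ[𝕜] H₂) (u : H₁) : Prop :=
  ∃ w : ℕ → S₁, Tendsto (fun n => (w n : H₁)) atTop (𝓝 u) ∧
    Tendsto (fun n => D (w n)) atTop (𝓝 0)

/-- weak kernel of the adjoint: `v` orthogonal to the range of `D`. -/
def WeakKer (D : S₁ →ₗ[𝕜] H₂) (v : H₂) : Prop := ∀ u : S₁, inner 𝕜 (D u) v = 0

/-- **Abstract index theorem.** -/
theorem index_eq (D : S₁ →ₗ[𝕜] H₂) (D' : S₂ →ₗ[𝕜] H₁)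
    (hF : ∀ (v : H₂) (f : H₁), (∀ u : S₁, inner 𝕜 (D u) v = inner 𝕜 (u : H₁) f) →
      ∃ w : ℕ → S₂, Tendsto (fun n => (w n : H₂)) atTop (𝓝 v) ∧
        Tendsto (fun n => D' (w n)) atTop (𝓝 f))
    (hR : TotallyBounded {x : H₁ | ∃ u : S₁, (u : H₁) = x ∧ ‖x‖ ≤ 1 ∧ ‖D u‖ ≤ 1})
    (κ : H₁ →L[𝕜] H₂) {c : ℝ} (hc : 0 < c) (hI : ∀ u : S₁, c * ‖(u : H₁)‖ ≤ ‖D u + κ u‖)
    (hI' : ∀ v : S₂, c * ‖(v : H₂)‖ ≤ ‖D' v + ContinuousLinearMap.adjoint κ v‖) :
    ∃ (N₁ : Submodule 𝕜 H₁) (N₂ : Submodule 𝕜 H₂), (∀ u, u ∈ N₁ ↔ StrongKer D u) ∧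
      (∀ v, v ∈ N₂ ↔ WeakKer D v) ∧ FiniteDimensional 𝕜 N₁ ∧ FiniteDimensional 𝕜 N₂ ∧
      finrank 𝕜 N₁ = finrank 𝕜 N₂ := by
  -- the closed graph
  set Γ : Submodule 𝕜 (H₁ × H₂) := LinearMap.range (S₁.subtype.prod D) with hΓ
  set G : Submodule 𝕜 (H₁ × H₂) := Γ.topologicalClosure with hG
  have hGc : IsClosed (G : Set (H₁ × H₂)) := Γ.isClosed_topologicalClosure
  have : CompleteSpace G := hGc.completeSpace_coe
  have hGcl : ∀ g : H₁ × H₂, g ∈ G ↔ g ∈ closure (Γ : Set (H₁ × H₂)) := fun g => by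
    rw [hG, ← SetLike.mem_coe, Submodule.topologicalClosure_coe]
  -- the operators
  set A₀ : G →L[𝕜] H₂ := (ContinuousLinearMap.snd 𝕜 H₁ H₂ + κ ∘L ContinuousLinearMap.fst 𝕜 H₁ H₂)
    ∘L G.subtypeL with hA₀
  set B : G →L[𝕜] H₂ := (κ ∘L ContinuousLinearMap.fst 𝕜 H₁ H₂) ∘L G.subtypeL with hB
  set T : G →L[𝕜] H₂ := ContinuousLinearMap.snd 𝕜 H₁ H₂ ∘L G.subtypeL with hT
  have hA₀x : ∀ g : G, A₀ g = (g : H₁ × H₂).2 + κ (g : H₁ × H₂).1 := fun g => rfl
  have hTx : ∀ g : G, T g = (g : H₁ × H₂).2 := fun g => rfl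
  have hBx : ∀ g : G, B g = κ (g : H₁ × H₂).1 := fun g => rfl
  -- lower bound
  have hlow : ∀ g ∈ G, c * ‖g.1‖ ≤ ‖g.2 + κ g.1‖ := by
    intro g hg
    have hcl : IsClosed {g : H₁ × H₂ | c * ‖g.1‖ ≤ ‖g.2 + κ g.1‖} :=
      isClosed_le (by fun_prop) (by fun_prop)
    refine (closure_minimal ?_ hcl) ((hGcl g).1 hg)
    rintro _ ⟨u, rfl⟩
    exact hI u
  set M : ℝ := 1 / c + (1 + ‖κ‖ / c) with hM
  have hMpos : 0 < M := by positivity
  have hlow2 : ∀ g : G, ‖g‖ ≤ M * ‖A₀ g‖ := by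
    intro g
    have h1 : ‖(g : H₁ × H₂).1‖ ≤ 1 / c * ‖A₀ g‖ := by
      rw [one_div, ← div_eq_inv_mul, le_div_iff₀ hc, mul_comm]
      exact hlow g g.2
    have h2 : ‖(g : H₁ × H₂).2‖ ≤ ‖A₀ g‖ + ‖κ‖ * ‖(g : H₁ × H₂).1‖ := by
      have : (g : H₁ × H₂).2 = A₀ g - κ (g : H₁ × H₂).1 := by rw [hA₀x]; abel
      rw [this]
      exact (norm_sub_le _ _).trans (add_le_add le_rfl (κ.le_opNorm _))
    have h3 : ‖(g : H₁ × H₂).2‖ ≤ (1 + ‖κ‖ / c) * ‖A₀ g‖ := by
      calc _ ≤ ‖A₀ g‖ + ‖κ‖ * (1 / c * ‖A₀ g‖) := h2.trans (by gcongr)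
        _ = _ := by ring
    have h4 : ‖g‖ = max ‖(g : H₁ × H₂).1‖ ‖(g : H₁ × H₂).2‖ := rfl
    rw [h4]
    refine max_le (h1.trans ?_) (h3.trans ?_)
    · gcongr
      rw [hM]; linarith [div_nonneg (norm_nonneg κ) hc.le]
    · gcongr
      rw [hM]; linarith [one_div_pos.2 hc]
  have hanti : AntilipschitzWith M.toNNReal A₀ := by
    refine A₀.antilipschitz_of_bound fun g => ?_
    rw [Real.coe_toNNReal _ hMpos.le]
    exact hlow2 g
  have hclr : IsClosed (Set.range A₀) :=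
    (hanti.isClosedEmbedding A₀.uniformContinuous).isClosed_range
  -- density of the range
  have hperp : ∀ v : H₂, (∀ g : G, inner 𝕜 (A₀ g) v = 0) → v = 0 := by
    intro v hv
    have h1 : ∀ u : S₁, inner 𝕜 (D u) v = inner 𝕜 (u : H₁) (-(ContinuousLinearMap.adjoint κ v)) := by
      intro u
      have hgu : ((u : H₁), D u) ∈ G := (hGcl _).2 (subset_closure ⟨u, rfl⟩)
      have h2 := hv ⟨((u : H₁), D u), hgu⟩
      rw [hA₀x, inner_add_left] at h2
      rw [inner_neg_right, ContinuousLinearMap.adjoint_inner_right]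
      exact eq_neg_of_add_eq_zero_left h2
    obtain ⟨w, hw1, hw2⟩ := hF v _ h1
    have h3 : Tendsto (fun n => D' (w n) + ContinuousLinearMap.adjoint κ (w n)) atTop (𝓝 0) := by
      have h4 := hw2.add (((ContinuousLinearMap.adjoint κ).continuous.tendsto v).comp hw1)
      simpa using h4
    have h5 : Tendsto (fun n => c * ‖(w n : H₂)‖) atTop (𝓝 (c * ‖v‖)) := hw1.norm.const_mul c
    have h6 : Tendsto (fun n => ‖D' (w n) + ContinuousLinearMap.adjoint κ (w n)‖) atTop (𝓝 0) := by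
      simpa using h3.norm
    have h7 := le_of_tendsto_of_tendsto' h5 h6 fun n => hI' (w n)
    have h8 : ‖v‖ ≤ 0 := by
      by_contra hcon
      push Not at hcon
      nlinarith
    exact norm_le_zero_iff.1 h8
  have hsurj : LinearMap.range (A₀ : G →ₗ[𝕜] H₂) = ⊤ := by
    have hcl : IsClosed ((LinearMap.range (A₀ : G →ₗ[𝕜] H₂) : Submodule 𝕜 H₂) : Set H₂) := by
      rw [LinearMap.coe_range]; exact hclr
    have : CompleteSpace (LinearMap.range (A₀ : G →ₗ[𝕜] H₂)) := hcl.completeSpace_coe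
    rw [← Submodule.orthogonal_eq_bot_iff]
    rw [Submodule.eq_bot_iff]
    intro v hv
    refine hperp v fun g => ?_
    exact (Submodule.mem_orthogonal _ _).1 hv _ ⟨g, rfl⟩
  have hinj : LinearMap.ker (A₀ : G →ₗ[𝕜] H₂) = ⊥ := by
    rw [LinearMap.ker_eq_bot]
    exact hanti.injective
  set A : G ≃L[𝕜] H₂ := ContinuousLinearEquiv.ofBijective A₀ hinj hsurj with hA
  have hTAB : T = (A : G →L[𝕜] H₂) - B := by
    ext g
    show (g : H₁ × H₂).2 = A₀ g - B g
    rw [hA₀x, hBx]; abel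
  -- compactness
  have hBc : TotallyBounded (B '' Metric.closedBall 0 1) := by
    set K : Set H₁ := {x : H₁ | ∃ u : S₁, (u : H₁) = x ∧ ‖x‖ ≤ 1 ∧ ‖D u‖ ≤ 1} with hK
    set L : H₁ →L[𝕜] H₂ := (2 : 𝕜) • κ with hL
    have h1 : TotallyBounded (L '' K) := hR.image L.uniformContinuous
    refine (h1.closure).subset ?_
    rintro _ ⟨g, hg, rfl⟩
    rw [mem_closedBall_zero_iff] at hg
    have h2 : (g : H₁ × H₂) ∈ closure (Γ : Set (H₁ × H₂)) := (hGcl _).1 g.2
    rw [mem_closure_iff_seq_limit] at h2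
    obtain ⟨x, hx, hxl⟩ := h2
    have h3 : ∀ᶠ n in atTop, ‖x n‖ < 2 := by
      have := hxl.norm
      refine this.eventually (gt_mem_nhds ?_)
      calc ‖(g : H₁ × H₂)‖ = ‖g‖ := rfl
        _ ≤ 1 := hg
        _ < 2 := by norm_num
    have h4 : Tendsto (fun n => κ (x n).1) atTop (𝓝 (B g)) := by
      rw [hBx]
      exact (κ.continuous.tendsto _).comp ((continuous_fst.tendsto _).comp hxl)
    refine mem_closure_of_tendsto h4 (h3.mono fun n hn => ?_)
    obtain ⟨u, hu⟩ := hx n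
    have hu1 : (x n).1 = u := by rw [← hu]; rfl
    have hu2 : (x n).2 = D u := by rw [← hu]; rfl
    have hn1 : ‖(u : H₁)‖ < 2 := by
      rw [← hu1]; exact (le_max_left _ _).trans_lt hn
    have hn2 : ‖D u‖ < 2 := by
      rw [← hu2]; exact (le_max_right _ _).trans_lt hn
    have h2' : ‖(2 : 𝕜)⁻¹‖ = 2⁻¹ := by rw [norm_inv, RCLike.norm_ofNat]
    refine ⟨(((2 : 𝕜)⁻¹ • u : S₁) : H₁), ⟨(2 : 𝕜)⁻¹ • u, rfl, ?_, ?_⟩, ?_⟩
    · rw [Submodule.coe_smul, norm_smul, h2']; linarith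
    · rw [map_smul, norm_smul, h2']; linarith
    · rw [hL, hu1]
      show (2 : 𝕜) • κ ((2 : 𝕜)⁻¹ • (u : H₁)) = κ u
      rw [map_smul, smul_smul, mul_inv_cancel₀ two_ne_zero, one_smul]
  obtain ⟨k1, k2, k3⟩ := index_sub A B hBc T hTAB
  -- identification of the kernels
  let P : G →ₗ[𝕜] H₁ := (LinearMap.fst 𝕜 H₁ H₂) ∘ₗ G.subtype
  set N₁ : Submodule 𝕜 H₁ := (LinearMap.ker (T : G →ₗ[𝕜] H₂)).map P with hN₁
  have hmem : ∀ u, u ∈ N₁ ↔ ((u, 0) : H₁ × H₂) ∈ G := by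
    intro u
    constructor
    · rintro ⟨g, hg, rfl⟩
      have h1 : (g : H₁ × H₂).2 = 0 := hg
      have h2 : ((P g, 0) : H₁ × H₂) = g := Prod.ext rfl h1.symm
      rw [h2]; exact g.2
    · intro h
      exact ⟨⟨(u, 0), h⟩, rfl, rfl⟩
  have hstr : ∀ u, u ∈ N₁ ↔ StrongKer D u := by
    intro u
    rw [hmem, hGcl, mem_closure_iff_seq_limit]
    constructor
    · rintro ⟨x, hx, hxl⟩
      choose w hw using hx
      refine ⟨w, ?_, ?_⟩
      · have := (continuous_fst.tendsto _).comp hxl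
        refine this.congr fun n => ?_
        show (x n).1 = _
        rw [← hw n]; rfl
      · have := (continuous_snd.tendsto _).comp hxl
        refine this.congr fun n => ?_
        show (x n).2 = _
        rw [← hw n]; rfl
    · rintro ⟨w, hw1, hw2⟩
      exact ⟨fun n => ((w n : H₁), D (w n)), fun n => ⟨w n, rfl⟩, hw1.prodMk_nhds hw2⟩
  have e1 : (LinearMap.ker (T : G →ₗ[𝕜] H₂)) ≃ₗ[𝕜] N₁ := by
    refine LinearEquiv.ofBijective (P.restrict (p := LinearMap.ker (T : G →ₗ[𝕜] H₂)) (q := N₁)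
      fun x hx => ⟨x, hx, rfl⟩) ⟨?_, ?_⟩
    · rintro ⟨x, hx⟩ ⟨y, hy⟩ hxy
      have h1 : (x : H₁ × H₂).1 = (y : H₁ × H₂).1 := congrArg (fun z : N₁ => (z : H₁)) hxy
      have h2 : (x : H₁ × H₂).2 = (y : H₁ × H₂).2 := by
        rw [show (x : H₁ × H₂).2 = 0 from hx, show (y : H₁ × H₂).2 = 0 from hy]
      exact Subtype.ext (Subtype.ext (Prod.ext h1 h2))
    · rintro ⟨y, x, hx, rfl⟩
      exact ⟨⟨x, hx⟩, rfl⟩
  set N₂ : Submodule 𝕜 H₂ := (LinearMap.range (T : G →ₗ[𝕜] H₂))ᗮ with hN₂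
  have hweak : ∀ v, v ∈ N₂ ↔ WeakKer D v := by
    intro v
    rw [hN₂, Submodule.mem_orthogonal]
    constructor
    · intro h u
      have hgu : ((u : H₁), D u) ∈ G := (hGcl _).2 (subset_closure ⟨u, rfl⟩)
      exact h (D u) ⟨⟨_, hgu⟩, rfl⟩
    · rintro h _ ⟨g, rfl⟩
      show inner 𝕜 (g : H₁ × H₂).2 v = 0
      have hcl : IsClosed {g : H₁ × H₂ | inner 𝕜 g.2 v = 0} :=
        isClosed_eq (by fun_prop) continuous_const
      refine (closure_minimal ?_ hcl) ((hGcl g).1 g.2)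
      rintro _ ⟨u, rfl⟩
      exact h u
  have hfin1 : FiniteDimensional 𝕜 N₁ := Module.Finite.equiv e1
  refine ⟨N₁, N₂, hstr, hweak, hfin1, k2, ?_⟩
  rw [← e1.finrank_eq, k3]

end index

end

end Vale.Agent.P299.H863
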