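import Vale.Agent.P299.H863.Rell
import Vale.Agent.P299.H863.Abs
import Vale.Agent.P363.R.Sob.S14

/-! # `L²` theory of sections in atlas-free axioms, part 1: the smoothing operators -/

namespace Vale.Agent.P299.H863

open MeasureTheory Filter Topology
open scoped ContDiff ENNReal
open Vale.Agent.P363.R.Sob

noncomputable section

section Test

variable {E : Type*} [NormedAddCommGroup E] [NormedSpace ℝ E]
variable {V W : Type*} [NormedAddCommGroup V] [NormedSpace ℝ V]
  [NormedAddCommGroup W] [NormedSpace ℝ W]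

/-- smooth functions with compact support in `Ω` -/
structure TestV (Ω : Set E) (w : E → V) : Prop where
  smooth : ContDiff ℝ ∞ w
  cpt : HasCompactSupport w
  supp : tsupport w ⊆ Ω

theorem TestV.mk' {Ω K : Set E} (hΩ : IsOpen Ω) (hK : IsCompact K) (hKΩ : K ⊆ Ω) {w : E → V}
    (hw : ContDiffOn ℝ ∞ w Ω) (h0 : ∀ x, x ∉ K → w x = 0) : TestV Ω w := by
  have hs : tsupport w ⊆ K := closure_minimal (fun x hx => by
    by_contra hxK; exact hx (h0 x hxK)) hK.isClosed
  refine ⟨?_, hK.of_isClosed_subset (isClosed_tsupport w) hs, hs.trans hKΩ⟩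
  rw [contDiff_iff_contDiffAt]
  intro x
  by_cases hx : x ∈ Ω
  · exact hw.contDiffAt (hΩ.mem_nhds hx)
  · have hxK : x ∈ Kᶜ := fun h => hx (hKΩ h)
    have : w =ᶠ[𝓝 x] fun _ => 0 := by
      filter_upwards [hK.isClosed.isOpen_compl.mem_nhds hxK] with y hy using h0 y hy
    exact contDiffAt_const.congr_of_eventuallyEq this

theorem TestV.zero_off {Ω : Set E} {w : E → V} (h : TestV Ω w) {x : E} (hx : x ∉ tsupport w) :
    w x = 0 := image_eq_zero_of_notMem_tsupport hx

theorem TestV.smul {Ω : Set E} (hΩ : IsOpen Ω) {ψ : E → ℝ} (hψ : TestV Ω ψ) {f : E → V}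
    (hf : ContDiffOn ℝ ∞ f Ω) : TestV Ω (fun x => ψ x • f x) :=
  TestV.mk' hΩ hψ.cpt hψ.supp (hψ.smooth.contDiffOn.smul hf) fun x hx => by
    rw [hψ.zero_off hx, zero_smul]

theorem TestV.clm {Ω : Set E} (hΩ : IsOpen Ω) {w : E → V} (hw : TestV Ω w) {Φ : E → V →L[ℝ] W}
    (hΦ : ContDiffOn ℝ ∞ Φ Ω) : TestV Ω (fun x => Φ x (w x)) :=
  TestV.mk' hΩ hw.cpt hw.supp (hΦ.clm_apply hw.smooth.contDiffOn) fun x hx => by
    rw [hw.zero_off hx, map_zero]

theorem TestV.add {Ω : Set E} {w w' : E → V} (h : TestV Ω w) (h' : TestV Ω w') :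
    TestV Ω (fun x => w x + w' x) := by
  refine ⟨h.smooth.add h'.smooth, h.cpt.add h'.cpt, ?_⟩
  exact (tsupport_add w w').trans (Set.union_subset h.supp h'.supp)

theorem TestV.sub {Ω : Set E} {w w' : E → V} (h : TestV Ω w) (h' : TestV Ω w') :
    TestV Ω (fun x => w x - w' x) := by
  have h'' : TestV Ω (fun x => -w' x) := ⟨h'.smooth.neg, h'.cpt.neg, by
    rw [show (fun x => -w' x) = -w' from rfl, tsupport_neg]; exact h'.supp⟩
  simpa only [sub_eq_add_neg] using h.add h''

theorem TestV.csmul {V : Type*} [NormedAddCommGroup V] [NormedSpace ℂ V] {Ω : Set E} {w : E → V}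
    (h : TestV Ω w) (c : ℂ) : TestV Ω (fun x => c • w x) := by
  refine ⟨?_, ?_, ?_⟩
  · exact h.smooth.const_smul c
  · exact h.cpt.comp_left (g := fun v => c • v) (smul_zero c)
  · refine closure_mono (fun x hx => ?_) |>.trans h.supp
    rw [Function.mem_support] at hx ⊢
    intro h0; exact hx (by rw [h0, smul_zero])

theorem TestV.memLp [MeasurableSpace E] [BorelSpace E] [FiniteDimensional ℝ E] {μ : Measure E}
    [IsFiniteMeasureOnCompacts μ]
    {Ω : Set E} {w : E → V} (h : TestV Ω w) : MemLp w 2 μ :=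
  h.smooth.continuous.memLp_of_hasCompactSupport h.cpt

/-- a cut-off -/
theorem exists_testV [FiniteDimensional ℝ E] {K Ω : Set E} (hK : IsCompact K) (hΩ : IsOpen Ω)
    (hKΩ : K ⊆ Ω) : ∃ θ : E → ℝ, TestV Ω θ ∧ (∀ x ∈ K, θ x = 1) ∧ ∀ x, 0 ≤ θ x ∧ θ x ≤ 1 := by
  borelize E
  obtain ⟨θ, h1, h2, h3, h4, h5⟩ := exists_cutoff hK hΩ hKΩ
  refine ⟨θ, ⟨h1, h2, h3⟩, fun x hx => ?_, h5⟩
  exact h4.self_of_nhdsSet x hx

end Test

section Moll

variable {E : Type*} [NormedAddCommGroup E] [NormedSpace ℝ E] [FiniteDimensional ℝ E]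
  [MeasurableSpace E] [BorelSpace E] {μ : Measure E} [μ.IsAddHaarMeasure]
variable {V : Type*} [NormedAddCommGroup V] [NormedSpace ℝ V] [CompleteSpace V]

theorem eLpNorm_moll_le (ρ : ContDiffBump (0 : E)) {u : E → V} (hu : StronglyMeasurable u) :
    eLpNorm (moll μ ρ u) 2 μ ≤ eLpNorm u 2 μ := by
  have h := eLpNorm_kernel_le (μ := μ) (k := fun _ z => ρ.normed μ z • ContinuousLinearMap.id ℝ V)
    (g := fun z => ENNReal.ofReal (ρ.normed μ z)) (ρ.continuous_normed.measurable.ennreal_ofReal)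
    (fun x z => by
      rw [← ofReal_norm]
      refine ENNReal.ofReal_le_ofReal ?_
      rw [norm_smul, Real.norm_of_nonneg (ρ.nonneg_normed z)]
      exact mul_le_of_le_one_right (ρ.nonneg_normed z) ContinuousLinearMap.norm_id_le) hu
  rw [← ofReal_integral_eq_lintegral_ofReal ρ.integrable_normed
    (Eventually.of_forall fun x => ρ.nonneg_normed x), ρ.integral_normed, ENNReal.ofReal_one,
    one_mul] at h
  exact h

theorem moll_add (ρ : ContDiffBump (0 : E)) {u v : E → V} (hu : LocallyIntegrable u μ)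
    (hv : LocallyIntegrable v μ) :
    moll μ ρ (fun x => u x + v x) = fun x => moll μ ρ u x + moll μ ρ v x := by
  funext x
  have i1 := (test_normed_sub (μ := μ) ρ x).integrable_smul hu
  have i2 := (test_normed_sub (μ := μ) ρ x).integrable_smul hv
  rw [moll_apply', moll_apply', moll_apply', ← integral_add i1 i2]
  simp only [smul_add]

theorem moll_sub (ρ : ContDiffBump (0 : E)) {u v : E → V} (hu : LocallyIntegrable u μ)
    (hv : LocallyIntegrable v μ) :
    moll μ ρ (fun x => u x - v x) = fun x => moll μ ρ u x - moll μ ρ v x := by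
  funext x
  have i1 := (test_normed_sub (μ := μ) ρ x).integrable_smul hu
  have i2 := (test_normed_sub (μ := μ) ρ x).integrable_smul hv
  rw [moll_apply', moll_apply', moll_apply', ← integral_sub i1 i2]
  simp only [smul_sub]

theorem moll_csmul {V : Type*} [NormedAddCommGroup V] [NormedSpace ℂ V] [CompleteSpace V]
    (ρ : ContDiffBump (0 : E)) (c : ℂ) (u : E → V) :
    moll μ ρ (fun x => c • u x) = fun x => c • moll μ ρ u x := by
  funext x
  rw [moll_apply', moll_apply', ← integral_smul]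
  simp only [smul_comm c]

theorem testV_moll {Ω K : Set E} (hK : IsCompact K) (ρ : ContDiffBump (0 : E))
    (hΩ : Metric.cthickening ρ.rOut K ⊆ Ω) {u : E → V} (hu : Continuous u)
    (h0 : ∀ x, x ∉ K → u x = 0) : TestV Ω (moll μ ρ u) := by
  have hs : tsupport (moll μ ρ u) ⊆ Metric.cthickening ρ.rOut K :=
    closure_minimal (fun x hx => by
      by_contra hxK; exact hx (moll_eq_zero h0 ρ le_rfl hxK)) Metric.isClosed_cthickening
  exact ⟨moll_contDiff ρ hu.locallyIntegrable, hK.cthickening.of_isClosed_subset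
    (isClosed_tsupport _) hs, hs.trans hΩ⟩

/-- mollification is symmetric -/
theorem integral_inner_moll {V : Type*} [NormedAddCommGroup V] [InnerProductSpace ℂ V]
    [CompleteSpace V] (ρ : ContDiffBump (0 : E)) {u g : E → V} (hu : Continuous u)
    (huc : HasCompactSupport u) (hg : Continuous g) (hgc : HasCompactSupport g) :
    ∫ x, inner ℂ (moll μ ρ u x) (g x) ∂μ = ∫ x, inner ℂ (u x) (moll μ ρ g x) ∂μ := by
  have hi : ∀ x, Integrable (fun z => ρ.normed μ (x - z) • u z) μ := fun x =>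
    (test_normed_sub ρ x).integrable_smul hu.locallyIntegrable
  have hi' : ∀ x, Integrable (fun z => ρ.normed μ (x - z) • g z) μ := fun x =>
    (test_normed_sub ρ x).integrable_smul hg.locallyIntegrable
  have e1 : ∀ x, inner ℂ (moll μ ρ u x) (g x) =
      ∫ z, (ρ.normed μ (x - z) : ℂ) * inner ℂ (u z) (g x) ∂μ := by
    intro x
    rw [moll_apply', ← inner_conj_symm]
    rw [show inner ℂ (g x) (∫ s, ρ.normed μ (x - s) • u s ∂μ) =
      ∫ s, inner ℂ (g x) (ρ.normed μ (x - s) • u s) ∂μ from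
      ((innerSL ℂ (g x)).integral_comp_comm (hi x)).symm]
    rw [← integral_conj]
    refine integral_congr_ae (Eventually.of_forall fun z => ?_)
    show (starRingEnd ℂ) (inner ℂ (g x) (ρ.normed μ (x - z) • u z)) = _
    rw [inner_conj_symm, ← Complex.coe_smul, inner_smul_left, Complex.conj_ofReal]
  have e2 : ∀ z, inner ℂ (u z) (moll μ ρ g z) =
      ∫ x, (ρ.normed μ (x - z) : ℂ) * inner ℂ (u z) (g x) ∂μ := by
    intro z
    rw [moll_apply']
    rw [show inner ℂ (u z) (∫ s, ρ.normed μ (z - s) • g s ∂μ) =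
      ∫ s, inner ℂ (u z) (ρ.normed μ (z - s) • g s) ∂μ from
      ((innerSL ℂ (u z)).integral_comp_comm (hi' z)).symm]
    refine integral_congr_ae (Eventually.of_forall fun x => ?_)
    show inner ℂ (u z) (ρ.normed μ (z - x) • g x) = _
    rw [← Complex.coe_smul, inner_smul_right]
    congr 2
    rw [← neg_sub, ContDiffBump.normed_neg]
  simp only [e1, e2]
  refine integral_integral_swap ?_
  -- integrability on the product
  have hc : Continuous (fun q : E × E => (ρ.normed μ (q.1 - q.2) : ℂ) * inner ℂ (u q.2) (g q.1)) := by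
    refine (Complex.continuous_ofReal.comp (ρ.continuous_normed.comp
      (continuous_fst.sub continuous_snd))).mul ?_
    exact (hu.comp continuous_snd).inner (hg.comp continuous_fst)
  refine hc.integrable_of_hasCompactSupport ?_
  refine HasCompactSupport.intro (hgc.prod huc) fun q hq => ?_
  simp only [Set.mem_prod, not_and_or] at hq
  rcases hq with hq | hq
  · rw [image_eq_zero_of_notMem_tsupport hq, inner_zero_right, mul_zero]
  · rw [image_eq_zero_of_notMem_tsupport hq, inner_zero_left, mul_zero]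

end Moll

/-! ### the axioms -/

/-- A finite family of open sets (charts) with cut-off functions. -/
structure Cov (E ι : Type*) [NormedAddCommGroup E] [NormedSpace ℝ E] where
  Ω : ι → Set E
  isOpen : ∀ i, IsOpen (Ω i)
  χ : ι → E → ℝ
  test : ∀ i, TestV (Ω i) (χ i)

/-- `S` is the space of smooth sections of a Hermitian vector bundle with fibre `V`, with the `L²`
inner product, described in finitely many charts. -/
structure LocSp {E ι : Type*} [NormedAddCommGroup E] [NormedSpace ℝ E] [MeasurableSpace E]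
    [Fintype ι] (μ : Measure E) (c : Cov E ι) (V S : Type*) [NormedAddCommGroup V]
    [InnerProductSpace ℂ V] [NormedAddCommGroup S] [InnerProductSpace ℂ S] where
  /-- restriction to a chart -/
  r : ι → S → E → V
  r_add : ∀ i s t, ∀ x ∈ c.Ω i, r i (s + t) x = r i s x + r i t x
  r_smul : ∀ i (a : ℂ) s, ∀ x ∈ c.Ω i, r i (a • s) x = a • r i s x
  r_smooth : ∀ i s, ContDiffOn ℝ ∞ (r i s) (c.Ω i)
  /-- extension by zero of test functions -/
  ext : ι → (E → V) → S
  r_ext : ∀ i w, TestV (c.Ω i) w → ∀ x ∈ c.Ω i, r i (ext i w) x = w x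
  /-- metric times volume density -/
  G : ι → E → V →L[ℂ] V
  G_smooth : ∀ i, ContDiffOn ℝ ∞ (G i) (c.Ω i)
  G_symm : ∀ i, ∀ x ∈ c.Ω i, ∀ v w, inner ℂ (G i x v) w = inner ℂ v (G i x w)
  G_pos : ∀ i, ∀ x ∈ c.Ω i, ∀ v, v ≠ 0 → 0 < (inner ℂ v (G i x v)).re
  inner_ext : ∀ i w s, TestV (c.Ω i) w →
    inner ℂ (ext i w) s = ∫ x, inner ℂ (w x) (G i x (r i s x)) ∂μ
  sum_ext : ∀ s, ∑ i, ext i (fun x => c.χ i x • r i s x) = s

end

end Vale.Agent.P299.H863
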