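import Vale.Agent.P299.H863.LocR

/-! # `L²` theory of sections in atlas-free axioms, part 6: Rellich's theorem -/

namespace Vale.Agent.P299.H863

open MeasureTheory Filter Topology
open scoped ContDiff ENNReal
open Vale.Agent.P363.R.Sob

set_option linter.unusedSectionVars false

noncomputable section

universe u

theorem totallyBounded_of_fin {α : Type u} [PseudoMetricSpace α] {s : Set α}
    (H : ∀ ε : ℝ, 0 < ε → ∃ (β : Type*) (_ : Finite β) (F : s → β),
      ∀ x y, F x = F y → dist (x : α) y < ε) : TotallyBounded s := by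
  refine Metric.totallyBounded_of_finite_discretization fun ε hε => ?_
  obtain ⟨β, _, F, hF⟩ := H ε hε
  obtain ⟨n, ⟨e⟩⟩ := Finite.exists_equiv_fin β
  refine ⟨ULift (Fin n), inferInstance, fun x => ULift.up (e (F x)), fun x y hxy => hF x y ?_⟩
  exact e.injective (congrArg ULift.down hxy)

namespace LocSp

variable {E ι : Type*} [NormedAddCommGroup E] [NormedSpace ℝ E] [FiniteDimensional ℝ E]
  [MeasurableSpace E] [BorelSpace E] [Fintype ι] {μ : Measure E} [μ.IsAddHaarMeasure]
  {c : Cov E ι} {V S : Type*} [NormedAddCommGroup V]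
  [InnerProductSpace ℂ V] [FiniteDimensional ℂ V] [NormedAddCommGroup S] [InnerProductSpace ℂ S]
  (L : LocSp μ c V S)

theorem loc_sub (i : ι) (s t : S) : L.loc i (s - t) = fun x => L.loc i s x - L.loc i t x := by
  funext x
  by_cases hx : x ∈ c.Ω i
  · simp only [loc]; rw [L.r_sub i s t hx, smul_sub]
  · have : x ∉ tsupport (c.χ i) := fun h => hx ((c.test i).supp h)
    simp only [L.loc_zero i _ this, sub_zero]

/-- the norm is controlled by the local norms -/
theorem exists_norm_le : ∃ C : ℝ, 0 ≤ C ∧ ∀ s : S, ‖s‖ ≤ C * ∑ i, n2 μ (L.loc i s) := by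
  obtain ⟨C, hC0, hC⟩ := L.exists_extK_le
  refine ⟨C, hC0, fun s => ?_⟩
  have h1 : ∑ i, L.ext i (L.loc i s) = s := L.sum_ext s
  calc ‖s‖ = ‖∑ i, L.ext i (L.loc i s)‖ := by rw [h1]
    _ ≤ ∑ i, ‖L.ext i (L.loc i s)‖ := norm_sum_le _ _
    _ ≤ ∑ i, C * n2 μ (L.loc i s) := Finset.sum_le_sum fun i _ =>
        hC i _ (L.loc_test i s) fun x hx => L.loc_zero i s fun h => hx (c.supp_sub i h)
    _ = _ := (Finset.mul_sum _ _ _).symm

/-- **Rellich's theorem**. -/
theorem totallyBounded {B : Set S} {C₀ : ℝ} (h0 : ∀ s ∈ B, ‖s‖ ≤ C₀)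
    (h1 : ∀ i, ∃ C : ℝ, ∀ s ∈ B, n2 μ (fderiv ℝ (L.loc i s)) ≤ C) : TotallyBounded B := by
  have hfin : FiniteDimensional ℝ V := FiniteDimensional.complexToReal V
  obtain ⟨CE, hCE0, hCE⟩ := L.exists_norm_le
  obtain ⟨CL, hCL0, hCL⟩ := L.exists_loc_le
  choose C hC using h1
  -- the constant
  set M : ι → ℝ := fun i => max (CL * C₀) (C i) with hM
  have hRF : ∀ i, ∀ s ∈ B, RF μ (tsupport (c.χ i)) (ENNReal.ofReal (M i)) (L.loc i s) := by
    intro i s hs
    have ht := L.loc_test i s
    have hD : ContDiff ℝ ∞ (fderiv ℝ (L.loc i s)) := ht.smooth.fderiv_right (by simp)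
    refine ⟨ht.smooth, ?_, ?_, ?_⟩
    · exact closure_minimal (fun x hx => by
        by_contra hx'; exact hx (L.loc_zero i s hx')) (isClosed_tsupport _)
    · refine ENNReal.le_ofReal_iff_toReal_le ht.memLp.2.ne ?_ |>.2 ?_
      · exact (n2_nonneg (μ := μ) (L.loc i s)).trans (((hCL i s).trans (by
          gcongr; exact h0 s hs)).trans (le_max_left _ _))
      · refine (hCL i s).trans (le_trans ?_ (le_max_left _ _))
        gcongr
        exact h0 s hs
    · have hm : MemLp (fderiv ℝ (L.loc i s)) 2 μ :=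
        hD.continuous.memLp_of_hasCompactSupport (ht.cpt.fderiv ℝ)
      refine ENNReal.le_ofReal_iff_toReal_le hm.2.ne ?_ |>.2 ?_
      · exact (n2_nonneg (μ := μ) (fderiv ℝ (L.loc i s))).trans ((hC i s hs).trans
          (le_max_right _ _))
      · exact (hC i s hs).trans (le_max_right _ _)
  refine totallyBounded_of_fin fun ε hε => ?_
  set δ : ℝ := ε / (4 * (CE * (Fintype.card ι + 1) + 1)) with hδ
  have hδ0 : 0 < δ := by positivity
  choose t ht ht' htn using fun i => rellich_net (μ := μ) (V := V) (c.test i).cpt.isCompact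
    (C := ENNReal.ofReal (M i)) ENNReal.ofReal_ne_top (ε := ENNReal.ofReal δ)
    (ENNReal.ofReal_pos.2 hδ0)
  choose g hg hg' using fun (s : B) i => htn i _ (hRF i s s.2)
  refine ⟨∀ i, t i, ?_, fun s i => ⟨g s i, hg s i⟩, fun x y hxy => ?_⟩
  · have : ∀ i, Finite (t i) := fun i => (ht i).to_subtype
    infer_instance
  have hxy' : ∀ i, g x i = g y i := fun i => congrArg Subtype.val (congrFun hxy i)
  have key : ∀ i, n2 μ (L.loc i ((x : S) - y)) ≤ 2 * δ := by
    intro i
    have hx : MemLp (fun z => L.loc i x z - g x i z) 2 μ :=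
      (L.loc_test i x).memLp.sub ((ht' i _ (hg x i)).smooth.continuous.memLp_of_hasCompactSupport
        ((ht' i _ (hg x i)).hasCompactSupport (c.test i).cpt.isCompact))
    have hy : MemLp (fun z => L.loc i y z - g x i z) 2 μ :=
      (L.loc_test i y).memLp.sub ((ht' i _ (hg x i)).smooth.continuous.memLp_of_hasCompactSupport
        ((ht' i _ (hg x i)).hasCompactSupport (c.test i).cpt.isCompact))
    have e : L.loc i ((x : S) - y) = fun z => (L.loc i x z - g x i z) -
        (L.loc i y z - g x i z) := by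
      rw [L.loc_sub]
      funext z
      abel
    rw [e]
    refine (n2_sub_le hx hy).trans ?_
    have e1 : n2 μ (fun z => L.loc i x z - g x i z) ≤ δ :=
      ENNReal.toReal_le_of_le_ofReal hδ0.le (hg' x i)
    have e2 : n2 μ (fun z => L.loc i y z - g x i z) ≤ δ := by
      rw [hxy']
      exact ENNReal.toReal_le_of_le_ofReal hδ0.le (hg' y i)
    linarith
  rw [dist_eq_norm]
  calc ‖(x : S) - y‖ ≤ CE * ∑ i, n2 μ (L.loc i ((x : S) - y)) := hCE _
    _ ≤ CE * ∑ _i : ι, 2 * δ := by gcongr with i; exact key i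
    _ = (2 * (CE * Fintype.card ι)) * δ := by
        rw [Finset.sum_const, Finset.card_univ, nsmul_eq_mul]; ring
    _ < ε := by
        have h2 : δ * (4 * (CE * (Fintype.card ι + 1) + 1)) = ε := by
          rw [hδ]; field_simp
        have h3 : 0 ≤ CE * Fintype.card ι := by positivity
        nlinarith

end LocSp

end

end Vale.Agent.P299.H863
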