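import Vale.Agent.P299.H863.Loc

/-! # `L²` theory of sections in atlas-free axioms, part 2: estimates, the smoothing operators -/

namespace Vale.Agent.P299.H863

open MeasureTheory Filter Topology
open scoped ContDiff ENNReal
open Vale.Agent.P363.R.Sob

set_option linter.unusedSectionVars false

noncomputable section

/-! ### the `L²` norm -/

section N2

variable {E : Type*} [NormedAddCommGroup E] [NormedSpace ℝ E] [FiniteDimensional ℝ E]
  [MeasurableSpace E] [BorelSpace E] {μ : Measure E}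
variable {V : Type*} [NormedAddCommGroup V]

/-- the `L²` norm -/
def n2 (μ : Measure E) (w : E → V) : ℝ := (eLpNorm w 2 μ).toReal

theorem n2_nonneg (w : E → V) : 0 ≤ n2 μ w := ENNReal.toReal_nonneg

theorem n2_sq {w : E → V} (hw : MemLp w 2 μ) : n2 μ w ^ 2 = ∫ x, ‖w x‖ ^ 2 ∂μ := by
  have h1 := hw.eLpNorm_eq_integral_rpow_norm (by norm_num) (by norm_num)
  have h0 : 0 ≤ ∫ x, ‖w x‖ ^ 2 ∂μ := integral_nonneg fun x => by positivity
  rw [n2, h1, ENNReal.toReal_ofReal (by positivity)]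
  simp only [ENNReal.toReal_ofNat, Real.rpow_ofNat]
  rw [show ((2 : ℝ)⁻¹) = 1 / 2 by norm_num, ← Real.sqrt_eq_rpow, Real.sq_sqrt h0]

theorem n2_mono_of_le {C : ℝ} (hC : 0 ≤ C) {V' : Type*} [NormedAddCommGroup V'] {w : E → V}
    {w' : E → V'} (hw' : MemLp w' 2 μ) (h : ∀ x, ‖w x‖ ≤ C * ‖w' x‖) : n2 μ w ≤ C * n2 μ w' := by
  have h1 : eLpNorm w 2 μ ≤ ENNReal.ofReal C * eLpNorm w' 2 μ :=
    eLpNorm_le_mul_eLpNorm_of_ae_le_mul (Eventually.of_forall h) 2
  have h2 := ENNReal.toReal_mono (ENNReal.mul_ne_top ENNReal.ofReal_ne_top hw'.2.ne) h1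
  rwa [ENNReal.toReal_mul, ENNReal.toReal_ofReal hC] at h2

theorem n2_add_le {w w' : E → V} (hw : MemLp w 2 μ) (hw' : MemLp w' 2 μ) :
    n2 μ (fun x => w x + w' x) ≤ n2 μ w + n2 μ w' := by
  have h1 : eLpNorm (w + w') 2 μ ≤ eLpNorm w 2 μ + eLpNorm w' 2 μ :=
    eLpNorm_add_le hw.1 hw'.1 (by norm_num)
  have h2 := ENNReal.toReal_mono (ENNReal.add_ne_top.2 ⟨hw.2.ne, hw'.2.ne⟩) h1
  rwa [ENNReal.toReal_add hw.2.ne hw'.2.ne] at h2

theorem n2_sub_comm (w w' : E → V) : n2 μ (fun x => w x - w' x) = n2 μ (fun x => w' x - w x) := by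
  rw [n2, n2, show (fun x => w x - w' x) = -(fun x => w' x - w x) by funext x; simp, eLpNorm_neg]

end N2

/-! ### bounds on compact sets -/

section Bd

variable {E : Type*} [NormedAddCommGroup E] [NormedSpace ℝ E]
variable {V W : Type*} [NormedAddCommGroup V] [InnerProductSpace ℂ V]
  [NormedAddCommGroup W] [NormedSpace ℂ W]

theorem smooth_clm_apply {Ω : Set E} {G : E → V →L[ℂ] W} (hG : ContDiffOn ℝ ∞ G Ω) {f : E → V}
    (hf : ContDiffOn ℝ ∞ f Ω) : ContDiffOn ℝ ∞ (fun x => G x (f x)) Ω := by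
  have h1 : ContDiffOn ℝ ∞ (fun x => (ContinuousLinearMap.restrictScalarsL ℂ V W ℝ ℝ) (G x)) Ω :=
    (ContinuousLinearMap.restrictScalarsL ℂ V W ℝ ℝ).contDiff.comp_contDiffOn hG
  exact h1.clm_apply hf

theorem exists_bound_on {K : Set E} (hK : IsCompact K) {X : Type*} [SeminormedAddCommGroup X]
    {f : E → X} (hf : ContinuousOn f K) : ∃ C : ℝ, 0 ≤ C ∧ ∀ x ∈ K, ‖f x‖ ≤ C := by
  obtain ⟨C, hC⟩ := hK.exists_bound_of_continuousOn hf
  exact ⟨max C 0, le_max_right _ _, fun x hx => (hC x hx).trans (le_max_left _ _)⟩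

theorem exists_lower {K : Set E} (hK : IsCompact K) [FiniteDimensional ℂ V] {G : E → V →L[ℂ] V}
    (hG : ContinuousOn G K) (hpos : ∀ x ∈ K, ∀ v, v ≠ 0 → 0 < (inner ℂ v (G x v)).re) :
    ∃ m : ℝ, 0 < m ∧ ∀ x ∈ K, ∀ v, m * ‖v‖ ^ 2 ≤ (inner ℂ v (G x v)).re := by
  have : ProperSpace V := FiniteDimensional.proper ℂ V
  set T : Set (E × V) := K ×ˢ Metric.sphere (0 : V) 1 with hT
  have hTc : IsCompact T := hK.prod (isCompact_sphere _ _)
  have hc : ContinuousOn (fun q : E × V => (inner ℂ q.2 (G q.1 q.2)).re) T := by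
    refine Complex.continuous_re.comp_continuousOn ?_
    refine ContinuousOn.inner continuousOn_snd ?_
    exact (hG.comp continuousOn_fst fun q hq => hq.1).clm_apply continuousOn_snd
  obtain ⟨m, hm, hmb⟩ : ∃ m : ℝ, 0 < m ∧ ∀ q ∈ T, m ≤ (inner ℂ q.2 (G q.1 q.2)).re := by
    by_cases hne : T.Nonempty
    · obtain ⟨q, hq, hmin⟩ := hTc.exists_isMinOn hne hc
      refine ⟨_, hpos q.1 hq.1 q.2 ?_, fun p hp => hmin hp⟩
      intro h0
      have := hq.2
      rw [mem_sphere_zero_iff_norm, h0, norm_zero] at this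
      exact zero_ne_one this
    · exact ⟨1, one_pos, fun q hq => absurd ⟨q, hq⟩ hne⟩
  refine ⟨m, hm, fun x hx v => ?_⟩
  by_cases hv : v = 0
  · simp [hv]
  have hv0 : 0 < ‖v‖ := norm_pos_iff.2 hv
  have h1 := hmb (x, ((‖v‖⁻¹ : ℝ) : ℂ) • v) ⟨hx, by
    rw [mem_sphere_zero_iff_norm, norm_smul, Complex.norm_real, norm_inv, norm_norm,
      inv_mul_cancel₀ hv0.ne']⟩
  simp only [map_smul, inner_smul_left, inner_smul_right, Complex.conj_ofReal] at h1
  rw [← mul_assoc, ← Complex.ofReal_mul, Complex.re_ofReal_mul] at h1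
  have h2 : ‖v‖⁻¹ * ‖v‖⁻¹ * ‖v‖ ^ 2 = 1 := by field_simp
  have h3 : (inner ℂ v (G x v)).re = ‖v‖ ^ 2 * (‖v‖⁻¹ * ‖v‖⁻¹ * (inner ℂ v (G x v)).re) := by
    calc _ = (‖v‖⁻¹ * ‖v‖⁻¹ * ‖v‖ ^ 2) * (inner ℂ v (G x v)).re := by rw [h2, one_mul]
      _ = _ := by ring
  rw [h3, mul_comm]
  gcongr

end Bd

namespace LocSp

variable {E ι : Type*} [NormedAddCommGroup E] [NormedSpace ℝ E] [FiniteDimensional ℝ E]
  [MeasurableSpace E] [BorelSpace E] [Fintype ι] {μ : Measure E} [μ.IsAddHaarMeasure]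
  {c : Cov E ι} {V S : Type*} [NormedAddCommGroup V]
  [InnerProductSpace ℂ V] [FiniteDimensional ℂ V] [NormedAddCommGroup S] [InnerProductSpace ℂ S]
  (L : LocSp μ c V S)

theorem smooth_Gr (i : ι) (s : S) :
    ContDiffOn ℝ ∞ (fun x => L.G i x (L.r i s x)) (c.Ω i) :=
  smooth_clm_apply (L.G_smooth i) (L.r_smooth i s)

/-- the local inner product is integrable -/
theorem integrable_inner {i : ι} {w : E → V} (h : TestV (c.Ω i) w) {f : E → V}
    (hf : ContDiffOn ℝ ∞ f (c.Ω i)) : Integrable (fun x => inner ℂ (w x) (f x)) μ := by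
  have h1 : TestV (c.Ω i) (fun x => inner ℂ (w x) (f x)) := by
    refine TestV.mk' (c.isOpen i) h.cpt h.supp (h.smooth.contDiffOn.inner ℂ hf) fun x hx => ?_
    rw [h.zero_off hx, inner_zero_left]
  exact h1.smooth.continuous.integrable_of_hasCompactSupport h1.cpt

theorem ext_add {i : ι} {w w' : E → V} (h : TestV (c.Ω i) w) (h' : TestV (c.Ω i) w') :
    L.ext i (fun x => w x + w' x) = L.ext i w + L.ext i w' := by
  refine ext_inner_right ℂ fun s => ?_
  rw [inner_add_left, L.inner_ext i _ s h, L.inner_ext i _ s h', L.inner_ext i _ s (h.add h'),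
    ← integral_add (integrable_inner h (L.smooth_Gr i s)) (integrable_inner h' (L.smooth_Gr i s))]
  simp only [inner_add_left]

theorem ext_sub {i : ι} {w w' : E → V} (h : TestV (c.Ω i) w) (h' : TestV (c.Ω i) w') :
    L.ext i (fun x => w x - w' x) = L.ext i w - L.ext i w' := by
  refine ext_inner_right ℂ fun s => ?_
  rw [inner_sub_left, L.inner_ext i _ s h, L.inner_ext i _ s h', L.inner_ext i _ s (h.sub h'),
    ← integral_sub (integrable_inner h (L.smooth_Gr i s)) (integrable_inner h' (L.smooth_Gr i s))]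
  simp only [inner_sub_left]

theorem ext_smul {i : ι} {w : E → V} (h : TestV (c.Ω i) w) (a : ℂ) :
    L.ext i (fun x => a • w x) = a • L.ext i w := by
  refine ext_inner_right ℂ fun s => ?_
  rw [inner_smul_left, L.inner_ext i _ s h, L.inner_ext i _ s (h.csmul a), ← integral_const_mul]
  simp only [inner_smul_left]

/-- P2: the extension is bounded on functions supported in a compact set -/
theorem exists_ext_le {i : ι} {K : Set E} (hK : IsCompact K) (hKΩ : K ⊆ c.Ω i) :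
    ∃ C : ℝ, 0 ≤ C ∧ ∀ w : E → V, TestV (c.Ω i) w → (∀ x, x ∉ K → w x = 0) →
      ‖L.ext i w‖ ≤ C * n2 μ w := by
  obtain ⟨C, hC0, hC⟩ := exists_bound_on hK ((L.G_smooth i).continuousOn.mono hKΩ)
  refine ⟨Real.sqrt C, Real.sqrt_nonneg _, fun w hw h0 => ?_⟩
  have h1 : ‖L.ext i w‖ ^ 2 ≤ C * n2 μ w ^ 2 := by
    have h2 : ‖L.ext i w‖ ^ 2 = (∫ x, inner ℂ (w x) (L.G i x (w x)) ∂μ).re := by
      have e : ∀ x, inner ℂ (w x) (L.G i x (L.r i (L.ext i w) x)) =
          inner ℂ (w x) (L.G i x (w x)) := by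
        intro x
        by_cases hx : x ∈ c.Ω i
        · rw [L.r_ext i w hw x hx]
        · rw [h0 x fun hk => hx (hKΩ hk), inner_zero_left, inner_zero_left]
      rw [← inner_self_eq_norm_sq (𝕜 := ℂ), L.inner_ext i _ _ hw]
      simp only [e]
      rfl
    rw [h2, n2_sq hw.memLp, ← integral_const_mul]
    have hi : Integrable (fun x => inner ℂ (w x) (L.G i x (w x))) μ :=
      integrable_inner hw (smooth_clm_apply (L.G_smooth i) hw.smooth.contDiffOn)
    refine ((Complex.re_le_norm _).trans (norm_integral_le_integral_norm _)).trans ?_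
    refine integral_mono hi.norm ?_ fun x => ?_
    · exact ((hw.memLp (μ := μ)).integrable_norm_pow (by norm_num)).const_mul C
    · show ‖inner ℂ (w x) (L.G i x (w x))‖ ≤ C * ‖w x‖ ^ 2
      by_cases hx : x ∈ K
      · calc _ ≤ ‖w x‖ * ‖L.G i x (w x)‖ := norm_inner_le_norm _ _
          _ ≤ ‖w x‖ * (C * ‖w x‖) := by
            gcongr
            exact ((L.G i x).le_opNorm _).trans (by gcongr; exact hC x hx)
          _ = _ := by ring
      · rw [h0 x hx]; simp
  have h3 : ‖L.ext i w‖ ^ 2 ≤ (Real.sqrt C * n2 μ w) ^ 2 := by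
    rw [mul_pow, Real.sq_sqrt hC0]; exact h1
  exact le_of_sq_le_sq h3 (by have := n2_nonneg (μ := μ) w; positivity)

/-- P1: the restriction to a chart is bounded -/
theorem exists_r_le {i : ι} {ψ : E → ℝ} (hψ : TestV (c.Ω i) ψ) :
    ∃ C : ℝ, 0 ≤ C ∧ ∀ s : S, n2 μ (fun x => ψ x • L.r i s x) ≤ C * ‖s‖ := by
  obtain ⟨M, hM0, hM⟩ := exists_bound_on hψ.cpt.isCompact hψ.smooth.continuous.continuousOn
  have hMx : ∀ x, |ψ x| ≤ M := by
    intro x
    by_cases hx : x ∈ tsupport ψ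
    · exact hM x hx
    · rw [hψ.zero_off hx, abs_zero]; exact hM0
  obtain ⟨m, hm, hmb⟩ := exists_lower hψ.cpt.isCompact
    ((L.G_smooth i).continuousOn.mono hψ.supp) fun x hx => L.G_pos i x (hψ.supp hx)
  refine ⟨M / Real.sqrt m, by positivity, fun s => ?_⟩
  set u : E → V := fun x => ψ x • L.r i s x with hu
  have hut : TestV (c.Ω i) u := TestV.smul (c.isOpen i) hψ (L.r_smooth i s)
  set w : E → V := fun x => ψ x • u x with hw
  have hwt : TestV (c.Ω i) w := TestV.smul (c.isOpen i) hψ hut.smooth.contDiffOn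
  -- `A = ∫ ψ² ⟨rs, G rs⟩`
  set a : E → ℝ := fun x => (inner ℂ (u x) (L.G i x (u x))).re with ha
  have ha0 : ∀ x, m * ‖u x‖ ^ 2 ≤ a x := by
    intro x
    by_cases hx : x ∈ tsupport ψ
    · exact hmb x hx _
    · have : u x = 0 := by rw [hu]; simp only; rw [hψ.zero_off hx, zero_smul]
      rw [ha]; simp [this]
  have hann : ∀ x, 0 ≤ a x := fun x => le_trans (by positivity) (ha0 x)
  have hai : Integrable a μ :=
    (integrable_inner hut (smooth_clm_apply (L.G_smooth i) hut.smooth.contDiffOn)).re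
  have hadj : ∀ (b : ℝ) (v v' : V), inner ℂ (b • v) v' = (b : ℂ) * inner ℂ v v' := by
    intro b v v'
    rw [← Complex.coe_smul, inner_smul_left, Complex.conj_ofReal]
  have hin : ∀ (b : ℝ) (v v' : V), inner ℂ v (b • v') = (b : ℂ) * inner ℂ v v' := by
    intro b v v'
    rw [← Complex.coe_smul, inner_smul_right]
  -- `⟨ext w, s⟩ = A`
  have h1 : (inner ℂ (L.ext i w) s).re = ∫ x, a x ∂μ := by
    rw [L.inner_ext i w s hwt]
    rw [show (∫ x, inner ℂ (w x) (L.G i x (L.r i s x)) ∂μ).re =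
      ∫ x, (inner ℂ (w x) (L.G i x (L.r i s x))).re ∂μ from
      (integral_re (integrable_inner hwt (L.smooth_Gr i s))).symm]
    refine integral_congr_ae (Eventually.of_forall fun x => ?_)
    show (inner ℂ (ψ x • u x) (L.G i x (L.r i s x))).re = (inner ℂ (u x) (L.G i x (u x))).re
    rw [hadj]
    congr 1
    rw [← hin]
    congr 1
    rw [hu]
    simp only
    rw [← Complex.coe_smul, ← Complex.coe_smul, map_smul]
  -- `‖ext w‖² ≤ M² A`
  have h2 : ‖L.ext i w‖ ^ 2 ≤ M ^ 2 * ∫ x, a x ∂μ := by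
    rw [← inner_self_eq_norm_sq (𝕜 := ℂ), L.inner_ext i _ _ hwt]
    rw [show RCLike.re (∫ x, inner ℂ (w x) (L.G i x (L.r i (L.ext i w) x)) ∂μ) =
      ∫ x, (inner ℂ (w x) (L.G i x (L.r i (L.ext i w) x))).re ∂μ from
      (integral_re (integrable_inner hwt (L.smooth_Gr i _))).symm, ← integral_const_mul]
    refine integral_mono (integrable_inner hwt (L.smooth_Gr i _)).re (hai.const_mul _) fun x => ?_
    show (inner ℂ (w x) (L.G i x (L.r i (L.ext i w) x))).re ≤ M ^ 2 * a x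
    have e : (inner ℂ (w x) (L.G i x (L.r i (L.ext i w) x))).re = ψ x ^ 2 * a x := by
      by_cases hx : x ∈ c.Ω i
      · rw [L.r_ext i w hwt x hx]
        show (inner ℂ (ψ x • u x) (L.G i x (ψ x • u x))).re = ψ x ^ 2 * a x
        rw [show L.G i x (ψ x • u x) = ψ x • L.G i x (u x) by
          rw [← Complex.coe_smul, map_smul, Complex.coe_smul], hadj, hin, ← mul_assoc,
          ← Complex.ofReal_mul, Complex.re_ofReal_mul, ha]
        ring
      · have hx' : x ∉ tsupport ψ := fun hk => hx (hψ.supp hk)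
        have hw0 : w x = 0 := by rw [hw]; simp only; rw [hψ.zero_off hx', zero_smul]
        rw [hw0, hψ.zero_off hx']; simp
    rw [e]
    have h3 : ψ x ^ 2 ≤ M ^ 2 := by
      rw [← sq_abs]; exact pow_le_pow_left₀ (abs_nonneg _) (hMx x) 2
    gcongr
    exact hann x
  set A : ℝ := ∫ x, a x ∂μ with hA
  have hA0 : 0 ≤ A := integral_nonneg hann
  -- `√A ≤ M ‖s‖`
  have h4 : Real.sqrt A ≤ M * ‖s‖ := by
    have h5 : A ≤ (M * Real.sqrt A) * ‖s‖ := by
      calc A = (inner ℂ (L.ext i w) s).re := h1.symm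
        _ ≤ ‖inner ℂ (L.ext i w) s‖ := Complex.re_le_norm _
        _ ≤ ‖L.ext i w‖ * ‖s‖ := norm_inner_le_norm _ _
        _ ≤ _ := by
          gcongr
          refine le_of_sq_le_sq ?_ (by positivity)
          rw [mul_pow, Real.sq_sqrt hA0]
          exact h2
    by_cases hA' : Real.sqrt A = 0
    · rw [hA']; positivity
    · have hpos : 0 < Real.sqrt A := lt_of_le_of_ne (Real.sqrt_nonneg _) (Ne.symm hA')
      have h6 : Real.sqrt A * Real.sqrt A = A := Real.mul_self_sqrt hA0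
      nlinarith
  -- conclusion
  have h7 : m * n2 μ u ^ 2 ≤ A := by
    rw [n2_sq hut.memLp, ← integral_const_mul]
    exact integral_mono (((hut.memLp (μ := μ)).integrable_norm_pow (by norm_num)).const_mul m)
      hai ha0
  have h8 : Real.sqrt m * n2 μ u ≤ Real.sqrt A := by
    refine Real.le_sqrt_of_sq_le ?_
    rw [mul_pow, Real.sq_sqrt hm.le]; exact h7
  rw [div_mul_eq_mul_div, le_div_iff₀ (by positivity), mul_comm]
  exact h8.trans h4

end LocSp

end

end Vale.Agent.P299.H863
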