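import Vale.Agent.P299.H863.LocD
import Vale.Agent.P300.H435.L2.Weyl

/-! # Regularity: limits of sections with `∂̄ → 0` are smooth (Weyl's lemma for `∂̄`) -/

namespace Vale.Agent.P299.H863

open MeasureTheory Filter Topology
open scoped ContDiff ENNReal
open Vale.Agent.P363.R.Sob Vale.Agent.P300.L2

set_option linter.unusedSectionVars false

noncomputable section

variable {n : ℕ} {V : Type*} [NormedAddCommGroup V] [InnerProductSpace ℂ V]
  [FiniteDimensional ℂ V]

/-- `∂u/∂z̄_j` of a vector valued function -/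
def dbv (j : Fin n) (u : (Fin n → ℂ) → V) (z : Fin n → ℂ) : V :=
  (2 : ℂ)⁻¹ • (fderiv ℝ u z (Pi.single j 1) + Complex.I • fderiv ℝ u z (Pi.single j Complex.I))

theorem inner_dbv (e : V) (j : Fin n) {u : (Fin n → ℂ) → V} {z : Fin n → ℂ}
    (hu : DifferentiableAt ℝ u z) :
    dzb j (fun y => inner ℂ e (u y)) z = inner ℂ e (dbv j u z) := by
  have h1 : HasFDerivAt (fun y => inner ℂ e (u y))
      (((innerSL ℂ e).restrictScalars ℝ).comp (fderiv ℝ u z)) z :=
    ((innerSL ℂ e).restrictScalars ℝ).hasFDerivAt.comp z hu.hasFDerivAt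
  rw [dzb, h1.fderiv, dbv, inner_smul_right, inner_add_right, inner_smul_right]
  simp only [ContinuousLinearMap.comp_apply, ContinuousLinearMap.coe_restrictScalars',
    innerSL_apply_apply]
  ring

/-- integration by parts for `∂̄` -/
theorem integral_mul_dzb {U : Set (Fin n → ℂ)} (hU : IsOpen U) {f κ : (Fin n → ℂ) → ℂ}
    (hf : ContDiffOn ℝ ∞ f U) (hκ : ContDiff ℝ ∞ κ) (hκc : HasCompactSupport κ)
    (hκU : tsupport κ ⊆ U) (j : Fin n) :
    ∫ z, f z * dzb j κ z = - ∫ z, dzb j f z * κ z := by
  have hdir : ∀ v : Fin n → ℂ, ∫ z, f z * fderiv ℝ κ z v = - ∫ z, fderiv ℝ f z v * κ z ∧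
      Integrable (fun z => f z * fderiv ℝ κ z v) ∧ Integrable (fun z => fderiv ℝ f z v * κ z) := by
    intro v
    have hdκ : ContDiff ℝ ∞ (fun z => fderiv ℝ κ z v) :=
      (hκ.fderiv_right (m := ∞) (by simp)).clm_apply contDiff_const
    have hdf : ContDiffOn ℝ ∞ (fun z => fderiv ℝ f z v) U :=
      (hf.fderiv_of_isOpen hU (by simp)).clm_apply contDiffOn_const
    have hs : tsupport (fun z => fderiv ℝ κ z v) ⊆ tsupport κ :=
      (closure_mono fun z hz => by
        rw [Function.mem_support] at hz ⊢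
        intro h0; exact hz (by rw [h0]; rfl)).trans (tsupport_fderiv_subset ℝ)
    have i1 : Integrable (fun z => f z * fderiv ℝ κ z v) := by
      have : TestV U (fun z => f z * fderiv ℝ κ z v) :=
        TestV.mk' hU hκc hκU (hf.mul hdκ.contDiffOn) fun z hz => by
          rw [image_eq_zero_of_notMem_tsupport (f := fun z => fderiv ℝ κ z v)
            (fun h => hz (hs h)), mul_zero]
      exact this.smooth.continuous.integrable_of_hasCompactSupport this.cpt
    have i2 : Integrable (fun z => fderiv ℝ f z v * κ z) := by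
      have : TestV U (fun z => fderiv ℝ f z v * κ z) :=
        TestV.mk' hU hκc hκU (hdf.mul hκ.contDiffOn) fun z hz => by
          rw [image_eq_zero_of_notMem_tsupport hz, mul_zero]
      exact this.smooth.continuous.integrable_of_hasCompactSupport this.cpt
    have i3 : Integrable (fun z => f z * κ z) := by
      have : TestV U (fun z => f z * κ z) :=
        TestV.mk' hU hκc hκU (hf.mul hκ.contDiffOn) fun z hz => by
          rw [image_eq_zero_of_notMem_tsupport hz, mul_zero]
      exact this.smooth.continuous.integrable_of_hasCompactSupport this.cpt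
    refine ⟨?_, i1, i2⟩
    exact integral_mul_fderiv_eq_neg_fderiv_mul_of_integrable i2 i1 i3
      (fun x hx => (hf.contDiffAt (hU.mem_nhds (hκU hx))).differentiableAt (by simp))
      (fun x _ => hκ.differentiable (by simp) x)
  obtain ⟨a1, a2, a3⟩ := hdir (Pi.single j 1)
  obtain ⟨b1, b2, b3⟩ := hdir (Pi.single j Complex.I)
  have e1 : ∀ z, f z * dzb j κ z = (2 : ℂ)⁻¹ * (f z * fderiv ℝ κ z (Pi.single j 1)) +
      ((2 : ℂ)⁻¹ * Complex.I) * (f z * fderiv ℝ κ z (Pi.single j Complex.I)) := by
    intro z; rw [dzb]; ring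
  have e2 : ∀ z, dzb j f z * κ z = (2 : ℂ)⁻¹ * (fderiv ℝ f z (Pi.single j 1) * κ z) +
      ((2 : ℂ)⁻¹ * Complex.I) * (fderiv ℝ f z (Pi.single j Complex.I) * κ z) := by
    intro z; rw [dzb]; ring
  simp only [e1, e2]
  rw [integral_add (a2.const_mul _) (b2.const_mul _), integral_add (a3.const_mul _) (b3.const_mul _),
    integral_const_mul, integral_const_mul, integral_const_mul, integral_const_mul, a1, b1]
  ring

/-- convergence of the integral against a bounded compactly supported function -/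
theorem tendsto_integral_of_n2 {κ : (Fin n → ℂ) → ℂ} (hκ : MemLp κ 2 volume)
    {g : ℕ → (Fin n → ℂ) → ℂ} {f : (Fin n → ℂ) → ℂ} (hg : ∀ k, MemLp (g k) 2 volume)
    (hf : MemLp f 2 volume)
    (h : Tendsto (fun k => n2 volume (fun z => g k z - f z)) atTop (𝓝 0)) :
    Tendsto (fun k => ∫ z, g k z * κ z) atTop (𝓝 (∫ z, f z * κ z)) := by
  rw [tendsto_iff_norm_sub_tendsto_zero]
  have hi : ∀ {u : (Fin n → ℂ) → ℂ}, MemLp u 2 volume → Integrable (fun z => u z * κ z) := by
    intro u hu
    exact MemLp.integrable_mul hu hκ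
  have hb : ∀ k, ‖(∫ z, g k z * κ z) - ∫ z, f z * κ z‖ ≤
      n2 volume (fun z => g k z - f z) * n2 volume κ := by
    intro k
    rw [← integral_sub (hi (hg k)) (hi hf)]
    have hgf : MemLp (fun z => g k z - f z) 2 volume := (hg k).sub hf
    have e : ∀ z, g k z * κ z - f z * κ z = (g k z - f z) * κ z := fun z => by ring
    simp only [e]
    refine (norm_integral_le_integral_norm _).trans ?_
    have h1 : eLpNorm (fun z => (g k z - f z) * κ z) 1 volume ≤
        eLpNorm (fun z => g k z - f z) 2 volume * eLpNorm κ 2 volume := by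
      have h0 := eLpNorm_smul_le_mul_eLpNorm (p := 2) (q := 2) (r := 1) hκ.1 hgf.1
      have e0 : (fun z => g k z - f z) • κ = fun z => (g k z - f z) * κ z := rfl
      rw [e0] at h0
      exact h0
    have h2 := ENNReal.toReal_mono (ENNReal.mul_ne_top hgf.2.ne hκ.2.ne) h1
    rw [ENNReal.toReal_mul] at h2
    refine le_trans (le_of_eq ?_) h2
    rw [eLpNorm_one_eq_lintegral_enorm, integral_norm_eq_lintegral_enorm (hi hgf).1]
  refine squeeze_zero (fun k => norm_nonneg _) hb ?_
  simpa using h.mul_const (n2 volume κ)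

theorem norm_le_sum_inner {ι : Type*} [Fintype ι] (e : OrthonormalBasis ι ℂ V) (v : V) :
    v = ∑ m, inner ℂ (e m) v • e m := (e.sum_repr' v).symm

/-- **Weyl's lemma for vector valued `L²` limits**. -/
theorem weyl_limit {U : Set (Fin n → ℂ)} (hU : IsOpen U) {u : ℕ → (Fin n → ℂ) → V}
    (hu : ∀ k, ContDiffOn ℝ ∞ (u k) U) {g : ℕ → (Fin n → ℂ) → V} (hg : ∀ k, MemLp (g k) 2 volume)
    (hug : ∀ k, ∀ z ∈ U, g k z = u k z) {F : (Fin n → ℂ) → V} (hF : MemLp F 2 volume)
    (h : Tendsto (fun k => n2 volume (fun z => g k z - F z)) atTop (𝓝 0))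
    (hd : ∀ j, ∀ ψ : (Fin n → ℂ) → ℝ, TestV U ψ →
      Tendsto (fun k => n2 volume (fun z => ψ z • dbv j (u k) z)) atTop (𝓝 0)) :
    ∃ f : (Fin n → ℂ) → V, DifferentiableOn ℂ f U ∧ ∀ᵐ z, z ∈ U → F z = f z := by
  set e := stdOrthonormalBasis ℂ V with he
  have hcomp : ∀ m, MemLp (fun z => inner ℂ (e m) (F z)) 2 volume := fun m =>
    hF.const_inner (e m)
  have hcompg : ∀ m k, MemLp (fun z => inner ℂ (e m) (g k z)) 2 volume := fun m k =>
    (hg k).const_inner (e m)
  have hw : ∀ m, ∃ f : (Fin n → ℂ) → ℂ, DifferentiableOn ℂ f U ∧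
      (fun z => inner ℂ (e m) (F z)) =ᵐ[volume.restrict U] f := by
    intro m
    refine weyl_local hU (((hcomp m).locallyIntegrable (by norm_num)).locallyIntegrableOn U)
      fun κ hκ hκc hκU j => ?_
    have hdκ : ContDiff ℝ ∞ (dzb j κ) := by
      have hf : ContDiff ℝ ∞ (fderiv ℝ κ) := hκ.fderiv_right (by simp)
      have h1 : ContDiff ℝ ∞ (fun z => fderiv ℝ κ z (Pi.single j 1)) := hf.clm_apply contDiff_const
      have h2 : ContDiff ℝ ∞ (fun z => fderiv ℝ κ z (Pi.single j Complex.I)) :=
        hf.clm_apply contDiff_const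
      exact (h1.add (contDiff_const.mul h2)).div_const 2
    have hdκs : ∀ z, z ∉ tsupport κ → dzb j κ z = 0 := by
      intro z hz
      have : fderiv ℝ κ z = 0 :=
        image_eq_zero_of_notMem_tsupport fun h => hz (tsupport_fderiv_subset ℝ h)
      rw [dzb, this]; simp
    have hdκc : HasCompactSupport (dzb j κ) := HasCompactSupport.intro hκc hdκs
    have hdκm : MemLp (dzb j κ) 2 volume := hdκ.continuous.memLp_of_hasCompactSupport hdκc
    have hκm : MemLp κ 2 volume := hκ.continuous.memLp_of_hasCompactSupport hκc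
    -- the limit of the left side
    have t1 : Tendsto (fun k => ∫ z, inner ℂ (e m) (g k z) * dzb j κ z) atTop
        (𝓝 (∫ z, inner ℂ (e m) (F z) * dzb j κ z)) := by
      refine tendsto_integral_of_n2 hdκm (hcompg m) (hcomp m) ?_
      refine squeeze_zero (fun k => n2_nonneg _) (fun k => ?_) h
      have := n2_mono_of_le (μ := volume) (w := fun z => inner ℂ (e m) (g k z) -
        inner ℂ (e m) (F z)) (w' := fun z => g k z - F z) zero_le_one ((hg k).sub hF)
        (fun z => by
          rw [← inner_sub_right, one_mul]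
          refine (norm_inner_le_norm _ _).trans ?_
          rw [e.orthonormal.1 m, one_mul])
      rwa [one_mul] at this
    -- the left side is an integral of `∂̄ u`
    obtain ⟨ψ, ψ1, ψ2, ψ3, ψ4, ψ5⟩ := exists_cutoff hκc.isCompact hU hκU
    have hψ : TestV U ψ := ⟨ψ1, ψ2, ψ3⟩
    have t2 : ∀ k, ∫ z, inner ℂ (e m) (g k z) * dzb j κ z =
        - ∫ z, inner ℂ (e m) (ψ z • dbv j (u k) z) * κ z := by
      intro k
      have hin : ContDiffOn ℝ ∞ (fun z => inner ℂ (e m) (u k z)) U :=
        ((innerSL ℂ (e m)).restrictScalars ℝ).contDiff.comp_contDiffOn (hu k)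
      have e1 : ∀ z, inner ℂ (e m) (g k z) * dzb j κ z = inner ℂ (e m) (u k z) * dzb j κ z := by
        intro z
        by_cases hz : z ∈ tsupport κ
        · rw [hug k z (hκU hz)]
        · rw [hdκs z hz, mul_zero, mul_zero]
      simp only [e1]
      rw [integral_mul_dzb hU hin hκ hκc hκU j]
      congr 1
      refine integral_congr_ae (Eventually.of_forall fun z => ?_)
      show dzb j (fun z => inner ℂ (e m) (u k z)) z * κ z =
        inner ℂ (e m) (ψ z • dbv j (u k) z) * κ z
      by_cases hz : z ∈ tsupport κ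
      · have hzU := hκU hz
        rw [inner_dbv _ _ (((hu k).contDiffAt (hU.mem_nhds hzU)).differentiableAt (by simp)),
          (ψ4.self_of_nhdsSet z hz), one_smul]
      · rw [image_eq_zero_of_notMem_tsupport hz, mul_zero, mul_zero]
    have hdbm : ∀ k, MemLp (fun z => ψ z • dbv j (u k) z) 2 volume := by
      intro k
      have hf : ContDiffOn ℝ ∞ (fderiv ℝ (u k)) U := (hu k).fderiv_of_isOpen hU (by simp)
      have h1 : ContDiffOn ℝ ∞ (fun z => fderiv ℝ (u k) z (Pi.single j 1)) U :=
        hf.clm_apply contDiffOn_const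
      have h2 : ContDiffOn ℝ ∞ (fun z => fderiv ℝ (u k) z (Pi.single j Complex.I)) U :=
        hf.clm_apply contDiffOn_const
      exact (TestV.smul hU hψ ((h1.add (h2.const_smul Complex.I)).const_smul (2 : ℂ)⁻¹)).memLp
    have t3 : Tendsto (fun k => ∫ z, inner ℂ (e m) (ψ z • dbv j (u k) z) * κ z) atTop
        (𝓝 (∫ z, (0 : ℂ) * κ z)) := by
      refine tendsto_integral_of_n2 (f := fun _ => 0) hκm (fun k => (hdbm k).const_inner (e m))
        MemLp.zero' ?_
      refine squeeze_zero (fun k => n2_nonneg _) (fun k => ?_) (hd j ψ hψ)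
      have := n2_mono_of_le (μ := volume) (w := fun z => inner ℂ (e m) (ψ z • dbv j (u k) z) - 0)
        (w' := fun z => ψ z • dbv j (u k) z) zero_le_one (hdbm k)
        (fun z => by
          rw [sub_zero, one_mul]
          refine (norm_inner_le_norm _ _).trans ?_
          rw [e.orthonormal.1 m, one_mul])
      rwa [one_mul] at this
    have t4 := t3.neg
    simp only [zero_mul, integral_zero, neg_zero] at t4
    exact tendsto_nhds_unique t1 (t4.congr fun k => (t2 k).symm)
  choose f hf hfe using hw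
  refine ⟨fun z => ∑ m, f m z • e m, ?_, ?_⟩
  · exact DifferentiableOn.fun_sum fun m _ => (hf m).smul_const (e m)
  · have h1 : ∀ m, ∀ᵐ z, z ∈ U → inner ℂ (e m) (F z) = f m z := fun m =>
      (ae_restrict_iff' hU.measurableSet).1 (hfe m)
    filter_upwards [ae_all_iff.2 h1] with z hz hzU
    rw [norm_le_sum_inner e (F z)]
    exact Finset.sum_congr rfl fun m _ => by rw [hz m hzU]

end

end Vale.Agent.P299.H863
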