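import Vale.Agent.P299.H863.Comm
import Mathlib.Topology.ContinuousMap.Bounded.ArzelaAscoli

/-! # The local Rellich theorem -/

namespace Vale.Agent.P299.H863

open MeasureTheory Filter Topology
open scoped ContDiff ENNReal BoundedContinuousFunction
open Vale.Agent.P363.R.Sob

noncomputable section

variable {E : Type*} [NormedAddCommGroup E] [NormedSpace ℝ E] [FiniteDimensional ℝ E]
  [MeasurableSpace E] [BorelSpace E]
variable {V : Type*} [NormedAddCommGroup V] [NormedSpace ℝ V]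
variable {μ : Measure E}

/-- translation estimate -/
theorem eLpNorm_translate_le [CompleteSpace V] [μ.IsAddHaarMeasure] {u : E → V}
    (hu : ContDiff ℝ ∞ u) (t : E) :
    eLpNorm (fun x => u (x - t) - u x) 2 μ ≤ ‖t‖ₑ * eLpNorm (fderiv ℝ u) 2 μ := by
  have h2 : (2 : ℝ≥0∞).toReal = 2 := by norm_num
  rw [eLpNorm_eq_lintegral_rpow_enorm_toReal (by norm_num) (by norm_num),
    eLpNorm_eq_lintegral_rpow_enorm_toReal (by norm_num) (by norm_num), h2]
  set ν : Measure ℝ := volume.restrict (Set.Ioc 0 1) with hν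
  have hν1 : ∫⁻ _, 1 ∂ν = 1 := by
    rw [lintegral_one, hν, Measure.restrict_apply_univ, Real.volume_Ioc]; simp
  have hDc : Continuous (fderiv ℝ u) := hu.continuous_fderiv (by simp)
  have hm : Measurable (fun q : E × ℝ => ‖fderiv ℝ u (q.1 - q.2 • t)‖ₑ) :=
    (hDc.comp (continuous_fst.sub (continuous_snd.smul continuous_const))).enorm.measurable
  have hpt : ∀ x, ‖u (x - t) - u x‖ₑ ≤ ‖t‖ₑ * ∫⁻ s, 1 * ‖fderiv ℝ u (x - s • t)‖ₑ ∂ν := by
    intro x
    have hder : ∀ s : ℝ, HasDerivAt (fun s : ℝ => u (x - s • t)) (-(fderiv ℝ u (x - s • t) t)) s := by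
      intro s
      have h1 : HasDerivAt (fun s : ℝ => x - s • t) (-t) s := by
        have := (hasDerivAt_const s x).sub ((hasDerivAt_id s).smul_const t)
        rw [zero_sub, one_smul] at this
        exact this
      have h3 := ((hu.differentiable (by simp)) (x - s • t)).hasFDerivAt.comp_hasDerivAt s h1
      rwa [map_neg] at h3
    have hci : Continuous (fun s : ℝ => -(fderiv ℝ u (x - s • t) t)) := by
      have : Continuous (fun s : ℝ => fderiv ℝ u (x - s • t)) :=
        hDc.comp (continuous_const.sub (continuous_id.smul continuous_const))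
      exact (this.clm_apply continuous_const).neg
    have h4 := intervalIntegral.integral_eq_sub_of_hasDerivAt (a := 0) (b := 1)
      (fun s _ => hder s) (hci.intervalIntegrable 0 1)
    rw [one_smul, zero_smul, sub_zero] at h4
    rw [← h4, intervalIntegral.integral_of_le zero_le_one]
    refine (enorm_integral_le_lintegral_enorm _).trans ?_
    rw [← lintegral_const_mul]
    · refine lintegral_mono fun s => ?_
      rw [enorm_neg, one_mul, mul_comm]
      exact (fderiv ℝ u (x - s • t)).le_opENorm t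
    · exact (hm.comp (measurable_const.prodMk measurable_id)).const_mul _
  have h3 : ∫⁻ x, ‖u (x - t) - u x‖ₑ ^ (2 : ℝ) ∂μ ≤
      ‖t‖ₑ ^ (2 : ℝ) * ∫⁻ x, ‖fderiv ℝ u x‖ₑ ^ (2 : ℝ) ∂μ := by
    calc ∫⁻ x, ‖u (x - t) - u x‖ₑ ^ (2 : ℝ) ∂μ
        ≤ ∫⁻ x, ‖t‖ₑ ^ (2 : ℝ) * ∫⁻ s, ‖fderiv ℝ u (x - s • t)‖ₑ ^ (2 : ℝ) ∂ν ∂μ := by
          refine lintegral_mono fun x => ?_
          refine (ENNReal.rpow_le_rpow (hpt x) (by norm_num)).trans ?_
          rw [ENNReal.mul_rpow_of_nonneg _ _ (by norm_num)]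
          gcongr
          have := lintegral_mul_sq_le (μ := ν) (g := fun _ => 1)
            (h := fun s => ‖fderiv ℝ u (x - s • t)‖ₑ) aemeasurable_const
            (hm.comp (measurable_const.prodMk measurable_id)).aemeasurable
          rw [hν1, one_mul] at this
          simpa using this
      _ = ‖t‖ₑ ^ (2 : ℝ) * ∫⁻ x, ∫⁻ s, ‖fderiv ℝ u (x - s • t)‖ₑ ^ (2 : ℝ) ∂ν ∂μ := by
          rw [lintegral_const_mul]
          exact (hm.pow_const _).lintegral_prod_right'
      _ = ‖t‖ₑ ^ (2 : ℝ) * ∫⁻ s, ∫⁻ x, ‖fderiv ℝ u (x - s • t)‖ₑ ^ (2 : ℝ) ∂μ ∂ν := by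
          rw [lintegral_lintegral_swap]
          exact (hm.pow_const _).aemeasurable
      _ = ‖t‖ₑ ^ (2 : ℝ) * ∫⁻ _, ∫⁻ x, ‖fderiv ℝ u x‖ₑ ^ (2 : ℝ) ∂μ ∂ν := by
          congr 1
          refine lintegral_congr fun s => ?_
          exact lintegral_sub_right_eq_self (fun x => ‖fderiv ℝ u x‖ₑ ^ (2 : ℝ)) (s • t)
      _ = ‖t‖ₑ ^ (2 : ℝ) * ∫⁻ x, ‖fderiv ℝ u x‖ₑ ^ (2 : ℝ) ∂μ := by
          congr 1
          rw [lintegral_const, hν, Measure.restrict_apply_univ, Real.volume_Ioc]; simp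
  calc (∫⁻ x, ‖u (x - t) - u x‖ₑ ^ (2 : ℝ) ∂μ) ^ (1 / 2 : ℝ)
      ≤ (‖t‖ₑ ^ (2 : ℝ) * ∫⁻ x, ‖fderiv ℝ u x‖ₑ ^ (2 : ℝ) ∂μ) ^ (1 / 2 : ℝ) :=
        ENNReal.rpow_le_rpow h3 (by norm_num)
    _ = _ := by
        rw [ENNReal.mul_rpow_of_nonneg _ _ (by norm_num), ← ENNReal.rpow_mul]
        norm_num

/-- the functions of Rellich's theorem -/
structure RF (μ : Measure E) (K : Set E) (C : ℝ≥0∞) (u : E → V) : Prop where
  smooth : ContDiff ℝ ∞ u
  supp : tsupport u ⊆ K
  norm : eLpNorm u 2 μ ≤ C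
  grad : eLpNorm (fderiv ℝ u) 2 μ ≤ C

omit [FiniteDimensional ℝ E] [BorelSpace E] in
theorem RF.hasCompactSupport {K : Set E} {C : ℝ≥0∞} {u : E → V} (hK : IsCompact K)
    (h : RF μ K C u) : HasCompactSupport u :=
  hK.of_isClosed_subset (isClosed_tsupport u) h.supp

omit [FiniteDimensional ℝ E] in
/-- the `L¹` norm -/
theorem RF.lintegral_le {K : Set E} (hK : IsCompact K) {C : ℝ≥0∞} {u : E → V}
    (h : RF μ K C u) : ∫⁻ x, ‖u x‖ₑ ∂μ ≤ (μ K) ^ (1 / 2 : ℝ) * C := by
  have h2 : (2 : ℝ≥0∞).toReal = 2 := by norm_num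
  have h0 : ∀ x, ‖u x‖ₑ = K.indicator (fun _ => (1 : ℝ≥0∞)) x * ‖u x‖ₑ := by
    intro x
    by_cases hx : x ∈ K
    · rw [Set.indicator_of_mem hx, one_mul]
    · have : u x = 0 := image_eq_zero_of_notMem_tsupport fun hx' => hx (h.supp hx')
      rw [this]; simp
  have h00 : ∀ x, ‖u x‖ₑ ^ (2 : ℝ) = K.indicator (fun _ => (1 : ℝ≥0∞)) x * ‖u x‖ₑ ^ (2 : ℝ) := by
    intro x
    by_cases hx : x ∈ K
    · rw [Set.indicator_of_mem hx, one_mul]
    · have : u x = 0 := image_eq_zero_of_notMem_tsupport fun hx' => hx (h.supp hx')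
      rw [this]; simp
  have h1 := lintegral_mul_sq_le (μ := μ) (g := K.indicator (fun _ => (1 : ℝ≥0∞)))
    (h := fun x => ‖u x‖ₑ) (measurable_const.indicator hK.measurableSet).aemeasurable
    h.smooth.continuous.enorm.aemeasurable
  simp only [← h0, ← h00] at h1
  rw [lintegral_indicator_const hK.measurableSet, one_mul] at h1
  have h3 := ENNReal.rpow_le_rpow h1 (z := 1 / 2) (by norm_num)
  rw [← ENNReal.rpow_mul, ENNReal.mul_rpow_of_nonneg _ _ (by norm_num)] at h3
  norm_num at h3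
  refine h3.trans ?_
  norm_num
  gcongr
  have h4 := h.norm
  rw [eLpNorm_eq_lintegral_rpow_enorm_toReal (by norm_num) (by norm_num), h2] at h4
  norm_num at h4
  exact h4

theorem RF.enorm_moll_le [CompleteSpace V] [μ.IsAddHaarMeasure] {K : Set E} (hK : IsCompact K) {C : ℝ≥0∞} {u : E → V}
    (h : RF μ K C u) (ρ : ContDiffBump (0 : E)) {M : ℝ} (hM : ∀ x, |ρ.normed μ x| ≤ M) (x : E) :
    ‖moll μ ρ u x‖ₑ ≤ ENNReal.ofReal M * ((μ K) ^ (1 / 2 : ℝ) * C) := by
  rw [moll_apply']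
  refine (enorm_integral_le_lintegral_enorm _).trans ?_
  calc ∫⁻ s, ‖ρ.normed μ (x - s) • u s‖ₑ ∂μ ≤ ∫⁻ s, ENNReal.ofReal M * ‖u s‖ₑ ∂μ := by
        refine lintegral_mono fun s => ?_
        rw [enorm_smul]
        gcongr
        rw [← ofReal_norm]
        exact ENNReal.ofReal_le_ofReal (hM _)
    _ = ENNReal.ofReal M * ∫⁻ s, ‖u s‖ₑ ∂μ := by
        rw [lintegral_const_mul _ h.smooth.continuous.enorm.measurable]
    _ ≤ _ := by gcongr; exact h.lintegral_le hK

theorem RF.enorm_moll_sub_le [CompleteSpace V] [μ.IsAddHaarMeasure] {K : Set E} (hK : IsCompact K) {C : ℝ≥0∞} {u : E → V}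
    (h : RF μ K C u) (ρ : ContDiffBump (0 : E)) {L : NNReal} (hL : LipschitzWith L (ρ.normed μ))
    (x y : E) :
    ‖moll μ ρ u x - moll μ ρ u y‖ₑ ≤ L * ‖x - y‖ₑ * ((μ K) ^ (1 / 2 : ℝ) * C) := by
  rw [moll_apply', moll_apply']
  have hint : ∀ x, Integrable (fun s => ρ.normed μ (x - s) • u s) μ := fun x =>
    (test_normed_sub ρ x).integrable_smul h.smooth.continuous.locallyIntegrable
  rw [← integral_sub (hint x) (hint y)]
  refine (enorm_integral_le_lintegral_enorm _).trans ?_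
  calc ∫⁻ s, ‖ρ.normed μ (x - s) • u s - ρ.normed μ (y - s) • u s‖ₑ ∂μ
      ≤ ∫⁻ s, L * ‖x - y‖ₑ * ‖u s‖ₑ ∂μ := by
        refine lintegral_mono fun s => ?_
        rw [← sub_smul, enorm_smul]
        gcongr
        have h1 := hL.dist_le_mul (x - s) (y - s)
        rw [dist_eq_norm, dist_eq_norm, sub_sub_sub_cancel_right] at h1
        rw [← ofReal_norm, ← ofReal_norm, ← ENNReal.ofReal_coe_nnreal,
          ← ENNReal.ofReal_mul (by positivity)]
        exact ENNReal.ofReal_le_ofReal h1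
    _ = L * ‖x - y‖ₑ * ∫⁻ s, ‖u s‖ₑ ∂μ := by
        rw [lintegral_const_mul _ h.smooth.continuous.enorm.measurable]
    _ ≤ _ := by gcongr; exact h.lintegral_le hK

/-- the mollified function is close to the function -/
theorem RF.eLpNorm_moll_sub [CompleteSpace V] [μ.IsAddHaarMeasure] {K : Set E} (hK : IsCompact K) {C : ℝ≥0∞} {u : E → V}
    (h : RF μ K C u) (ρ : ContDiffBump (0 : E)) :
    eLpNorm (moll μ ρ u - u) 2 μ ≤ ENNReal.ofReal ρ.rOut * C := by
  refine eLpNorm_moll_sub_le (by norm_num) (by norm_num) ρ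
    (h.smooth.continuous.memLp_of_hasCompactSupport (h.hasCompactSupport hK)) fun t ht => ?_
  refine (eLpNorm_translate_le h.smooth t).trans ?_
  gcongr
  · rw [← ofReal_norm]
    exact ENNReal.ofReal_le_ofReal (mem_ball_zero_iff.1 ht).le
  · exact h.grad

theorem moll_eq_zero [CompleteSpace V] [μ.IsAddHaarMeasure] {K : Set E} {u : E → V} (hu : ∀ x, x ∉ K → u x = 0)
    (ρ : ContDiffBump (0 : E)) {r : ℝ} (hρ : ρ.rOut ≤ r) {x : E} (hx : x ∉ Metric.cthickening r K) :
    moll μ ρ u x = 0 := by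
  rw [moll_apply]
  refine integral_eq_zero_of_ae (Eventually.of_forall fun t => ?_)
  show ρ.normed μ t • u (x - t) = 0
  by_cases ht : t ∈ Metric.ball (0 : E) ρ.rOut
  · have : x - t ∉ K := by
      intro hk
      apply hx
      refine Metric.mem_cthickening_of_dist_le x (x - t) r K hk ?_
      rw [dist_eq_norm, sub_sub_cancel]
      exact (mem_ball_zero_iff.1 ht).le.trans hρ
    rw [hu _ this, smul_zero]
  · have : ρ.normed μ t = 0 := by
      rw [ContDiffBump.normed_def, ρ.zero_of_le_dist, zero_div]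
      rw [Metric.mem_ball, not_lt] at ht
      exact ht
    rw [this, zero_smul]

/-- **Rellich**: finite nets in `L²` for smooth functions with support in a compact set and bounded
`W^{1,2}` norm. -/
theorem rellich_net [FiniteDimensional ℝ V] [μ.IsAddHaarMeasure] {K : Set E} (hK : IsCompact K)
    {C : ℝ≥0∞} (hC : C ≠ ⊤) {ε : ℝ≥0∞} (hε : 0 < ε) :
    ∃ t : Set (E → V), t.Finite ∧ (∀ w ∈ t, RF μ K C w) ∧
      ∀ u, RF μ K C u → ∃ w ∈ t, eLpNorm (u - w) 2 μ ≤ ε := by
  have : CompleteSpace V := FiniteDimensional.complete ℝ V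
  have hε3 : 0 < ε / 3 := ENNReal.div_pos hε.ne' (by norm_num)
  -- choice of the mollifier
  obtain ⟨n, hn⟩ : ∃ n : ℕ, ENNReal.ofReal (stdBump n : ContDiffBump (0 : E)).rOut * C ≤ ε / 3 := by
    have h1 : Tendsto (fun n => ENNReal.ofReal (stdBump n : ContDiffBump (0 : E)).rOut * C) atTop
        (𝓝 0) := by
      have h2 := ENNReal.tendsto_ofReal (tendsto_stdBump_rOut (E := E))
      have h3 := ENNReal.Tendsto.mul_const (b := C) h2 (Or.inr hC)
      simpa using h3
    exact (h1.eventually (ge_mem_nhds hε3)).exists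
  set ρ := (stdBump n : ContDiffBump (0 : E)) with hρ
  obtain ⟨M, hM⟩ : ∃ M : ℝ, ∀ x, |ρ.normed μ x| ≤ M := by
    obtain ⟨M, hM⟩ := (ρ.hasCompactSupport_normed (μ := μ)).exists_bound_of_continuous
      ρ.continuous_normed
    exact ⟨M, hM⟩
  obtain ⟨L, hL⟩ : ∃ L : NNReal, LipschitzWith L (ρ.normed μ) :=
    ContDiff.lipschitzWith_of_hasCompactSupport ρ.hasCompactSupport_normed
      (ρ.contDiff_normed (n := 1)) (by simp)
  set K' := Metric.cthickening ρ.rOut K with hK'
  have hK'c : IsCompact K' := hK.cthickening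
  have : CompactSpace K' := isCompact_iff_compactSpace.1 hK'c
  set B : ℝ≥0∞ := (μ K) ^ (1 / 2 : ℝ) * C with hB
  have hBt : B ≠ ⊤ := ENNReal.mul_ne_top
    (ENNReal.rpow_ne_top_of_nonneg (by norm_num) hK.measure_ne_top) hC
  -- the restrictions
  have hcont : ∀ u : E → V, ContDiff ℝ ∞ u → Continuous (moll μ ρ u) := fun u hu =>
    (moll_contDiff ρ hu.continuous.locallyIntegrable).continuous
  set A : Set (K' →ᵇ V) := {f | ∃ u, RF μ K C u ∧ ∀ x : K', f x = moll μ ρ u x} with hA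
  have hAc : IsCompact (closure A) := by
    refine BoundedContinuousFunction.arzela_ascoli
      (Metric.closedBall (0 : V) (ENNReal.ofReal M * B).toReal) (isCompact_closedBall _ _) A ?_ ?_
    · rintro f x ⟨u, hu, hf⟩
      rw [mem_closedBall_zero_iff, hf]
      have := hu.enorm_moll_le hK ρ hM x
      have h2 := ENNReal.toReal_mono (ENNReal.mul_ne_top ENNReal.ofReal_ne_top hBt) this
      simpa using h2
    · have hLip : ∀ f : A, LipschitzWith (L * B.toNNReal) (f : K' →ᵇ V) := by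
        rintro ⟨f, u, hu, hf⟩
        intro x y
        simp only
        rw [hf, hf, edist_eq_enorm_sub]
        refine (hu.enorm_moll_sub_le hK ρ hL x y).trans (le_of_eq ?_)
        rw [ENNReal.coe_mul, ENNReal.coe_toNNReal hBt, Subtype.edist_eq, edist_eq_enorm_sub]
        ring
      exact (LipschitzWith.uniformEquicontinuous _ _ hLip).equicontinuous
  have hAt : TotallyBounded A := hAc.totallyBounded.subset subset_closure
  -- the mesh
  obtain ⟨δ, hδ, hδε⟩ : ∃ δ : ℝ, 0 < δ ∧ ENNReal.ofReal δ * (μ K') ^ (1 / 2 : ℝ) ≤ ε / 3 := by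
    have h1 : Tendsto (fun δ : ℝ => ENNReal.ofReal δ * (μ K') ^ (1 / 2 : ℝ)) (𝓝 0) (𝓝 0) := by
      have h2 : Tendsto (fun δ : ℝ => ENNReal.ofReal δ) (𝓝 0) (𝓝 (ENNReal.ofReal 0)) :=
        ENNReal.continuous_ofReal.tendsto 0
      have h3 := ENNReal.Tendsto.mul_const (b := (μ K') ^ (1 / 2 : ℝ)) h2
        (Or.inr (ENNReal.rpow_ne_top_of_nonneg (by norm_num) hK'c.measure_ne_top))
      simpa using h3
    have h4 := h1.eventually (ge_mem_nhds hε3)
    obtain ⟨r, hr, hb⟩ := Metric.eventually_nhds_iff_ball.1 h4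
    exact ⟨r / 2, by positivity, hb _ (by rw [Metric.mem_ball, dist_zero_right,
      Real.norm_of_nonneg (by positivity)]; linarith)⟩
  obtain ⟨t, htA, htf, htc⟩ := Metric.finite_approx_of_totallyBounded hAt δ hδ
  have htA' : ∀ f : K' →ᵇ V, f ∈ t → ∃ u : E → V, RF μ K C u ∧ ∀ x : K', f x = moll μ ρ u x :=
    fun f hf => htA hf
  choose! U hU hUf using htA'
  refine ⟨U '' t, htf.image U, ?_, ?_⟩
  · rintro _ ⟨f, hf, rfl⟩
    exact hU f hf
  · intro u hu
    let f : K' →ᵇ V := BoundedContinuousFunction.mkOfCompact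
      ⟨fun x : K' => moll μ ρ u x, (hcont u hu.smooth).comp continuous_subtype_val⟩
    have hfA : f ∈ A := ⟨u, hu, fun x => rfl⟩
    have h1 := htc hfA
    simp only [Set.mem_iUnion, Metric.mem_ball, exists_prop] at h1
    obtain ⟨g, hg, hd⟩ := h1
    refine ⟨U g, ⟨g, hg, rfl⟩, ?_⟩
    have hUg := hU g hg
    -- the middle term
    have hz : ∀ v : E → V, RF μ K C v → ∀ x, x ∉ K' → moll μ ρ v x = 0 := fun v hv x hx =>
      moll_eq_zero (K := K) (fun y hy => image_eq_zero_of_notMem_tsupport fun h => hy (hv.supp h))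
        ρ le_rfl hx
    have hmid : eLpNorm (moll μ ρ u - moll μ ρ (U g)) 2 μ ≤ ε / 3 := by
      have h2 : moll μ ρ u - moll μ ρ (U g) = K'.indicator (moll μ ρ u - moll μ ρ (U g)) := by
        funext x
        by_cases hx : x ∈ K'
        · rw [Set.indicator_of_mem hx]
        · rw [Set.indicator_of_notMem hx, Pi.sub_apply, hz _ hu _ hx, hz _ hUg _ hx, sub_zero]
      rw [h2, eLpNorm_indicator_eq_eLpNorm_restrict hK'c.measurableSet]
      refine le_trans (eLpNorm_le_of_ae_bound (C := δ) ?_) ?_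
      · refine (ae_restrict_iff' hK'c.measurableSet).2 (Eventually.of_forall fun x hx => ?_)
        have h3 := (BoundedContinuousFunction.dist_coe_le_dist (f := f) (g := g) ⟨x, hx⟩).trans hd.le
        rw [dist_eq_norm, hUf g hg ⟨x, hx⟩] at h3
        exact h3
      · rw [Measure.restrict_apply_univ, mul_comm]
        norm_num
        norm_num at hδε
        exact hδε
    have hm : ∀ v : E → V, RF μ K C v → AEStronglyMeasurable (moll μ ρ v) μ := fun v hv =>
      (hcont v hv.smooth).aestronglyMeasurable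
    have e1 : u - U g = -(moll μ ρ u - u) + ((moll μ ρ u - moll μ ρ (U g)) +
        (moll μ ρ (U g) - U g)) := by abel
    rw [e1]
    refine (eLpNorm_add_le ?_ ?_ (by norm_num)).trans ?_
    · exact ((hm u hu).sub hu.smooth.continuous.aestronglyMeasurable).neg
    · exact ((hm u hu).sub (hm _ hUg)).add ((hm _ hUg).sub hUg.smooth.continuous.aestronglyMeasurable)
    rw [eLpNorm_neg]
    refine (add_le_add ((hu.eLpNorm_moll_sub hK ρ).trans hn) (eLpNorm_add_le
      ((hm u hu).sub (hm _ hUg)) ((hm _ hUg).sub hUg.smooth.continuous.aestronglyMeasurable)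
      (by norm_num))).trans ?_
    refine (add_le_add le_rfl (add_le_add hmid ((hUg.eLpNorm_moll_sub hK ρ).trans hn))).trans ?_
    rw [← add_assoc, ENNReal.add_thirds]

end

end Vale.Agent.P299.H863
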